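import Claimed.Agent.R257.PK2.Lin
import Claimed.Agent.R257.Pk.Api

/-!
# R257 / PK2 / NcDefs : THE NEAR-CAUCHY THEOREM `p:near-cauchy` (H packets.tex l.943-1317): DEFINITIONS AND THE INTERFACE WITH THE ASSEMBLY      (architect helper266)

WEIGHTED BOOTSTRAP ON THE BEST CONSTANT.  (No polynomial start, no exponent infimum, no extremal sequences, no dyadic ratio classes, no pigeonholing.)
`q = q_k`, `p = q + ε`.   A CONFIGURATION `NcCfg K P A s a b Y R`: packets of the class `K` with amplitudes `a`, weights `b ≥ a`, `Y` 1-separated, `R > 0` (ANY positive number), and on `Y`:  `∑ b_T² w_T ≤ 1`,  `|V| ≥ N^(k/2)/R`.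
`Wnc k K P p N₁ Θ` :  every configuration of scale `N ≤ N₁` has  `#Y ≤ Θ R^p ∑_T a_T^q b_T^(2-q)`      (`ncS k s a b` = the last sum; it is `∑ a²` for `b = a`; it is invariant under the assembly up to `L^ε₁`).
PLAN (files `NcGeo`, `NcRed`, `NcMain`):  (0) `∀ N₁ ∃ Θ, Wnc N₁ Θ` (`p:weighted`);  (1) ONE STEP: `∃ C₀, ∀ N₁ Θ, Wnc N₁ Θ → Wnc N₁ (C₀ + Θ/2)`;   (2) iterate: `Wnc N₁ (2 C₀ + 1)` for all `N₁`.
The class `K` must reproduce itself under the assembly: `NcAsmStmt k K P` (provider: `PK2/NcAsm.lean`, from `Pk/Asm*.lean`, `Pk/Conv.lean`).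
-/

set_option autoImplicit false

namespace Claimed.Agent.R257

open MeasureTheory Metric Set
open scoped ENNReal Classical

noncomputable section

variable {k : ℕ} {ι κ : Type}

/-- the family with all profiles multiplied by the constant `c` -/
def PFam.scl (A : PFam k ι) (c : ℝ) : PFam k ι where
  N := A.N
  v := A.v
  u := A.u
  F := fun T X => (c : ℂ) * A.F T X

/-- the critical weighted budget `∑_T a_T^q b_T^(2-q)` (no power of the scale) -/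
def ncS (k : ℕ) (s : Finset ι) (a b : ι → ℝ) : ℝ := ∑ T ∈ s, a T ^ qk k * b T ^ (2 - qk k)

/-- a weighted near-Cauchy configuration -/
structure NcCfg (K : PCls) (P : ℝ) (A : PFam k ι) (s : Finset ι) (a b : ι → ℝ) (Y : Finset (ST k)) (R : ℝ) : Prop where
  cls : A.In s K a
  le : ∀ T ∈ s, a T ≤ b T
  sep : USep Y
  R_pos : 0 < R
  env : ∀ z ∈ Y, A.sq P s b z ≤ 1
  big : ∀ z ∈ Y, A.N ^ ((k : ℝ) / 2) / R ≤ ‖A.fld s z‖

/-- `Θ` is a constant of the weighted near-Cauchy estimate with exponent `p` for all scales `≤ N₁` -/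
def Wnc (k : ℕ) (K : PCls) (P p N₁ Θ : ℝ) : Prop :=
  ∀ (ι : Type) (A : PFam k ι) (s : Finset ι) (a b : ι → ℝ) (Y : Finset (ST k)) (R : ℝ), A.N ≤ N₁ → NcCfg K P A s a b Y R →
    (Y.card : ℝ) ≤ Θ * R ^ p * ncS k s a b

/-- the output of one assembly step `N → N/L` applied to `(A, s, a, b)`: parent family `B`, window `W`, fresh amplitudes `α`, children `cp T` of the cap of `T`.
The parent weights are `β_T² = A.sq (P+1) (cp T) b (B.ctr T)` (H (p:coarse-background), `σ = 1`, `C = 1`). -/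
structure NcPar (K : PCls) (P L C₁ C₃ C₅ Cb δ : ℝ) (A : PFam k ι) (s : Finset ι) (a b : ι → ℝ) (Y : Finset (ST k))
    (B : PFam k κ) (W : Finset κ) (α : κ → ℝ) (cp : κ → Finset ι) : Prop where
  scale : B.N = A.N / L
  cls : B.In W K α
  junk : ∀ z ∈ Y, ‖A.fld s z - B.fld W z‖ ≤ δ
  cap : ∀ T ∈ W, ∀ T' ∈ cp T, T' ∈ s ∧ ‖A.v T' - B.v T‖ ≤ C₁ / B.N
  cauchy : ∀ T ∈ W, α T ^ 2 ≤ C₃ ^ 2 * L ^ (k : ℝ) * A.sq (P + 1) (cp T) b (B.ctr T)
  conv : ∀ z, ∑ T ∈ W, A.sq P (cp T) b (B.ctr T) * B.w P T z ≤ C₅ * A.sq P s b z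
  tail : ∀ (z : ST k) (ϱ : ℝ), 2 ≤ ϱ → ∑ T ∈ W.filter (fun T => ϱ < B.d T z), A.sq P (cp T) b (B.ctr T) * B.w P T z
      ≤ C₅ * (ϱ ^ (-(P - (k : ℝ) - 1)) + L ^ (-(P - (k : ℝ) - 2))) * A.sq P s b z
  bud : ∑ T ∈ W, α T ^ qk k * Real.sqrt (A.sq (P + 1) (cp T) b (B.ctr T)) ^ (2 - qk k) ≤ Cb * L ^ ((k : ℝ) + 2) * ncS k s a b

/-- **THE INTERFACE WITH THE ASSEMBLY**: the class `K` reproduces itself.   `C₁` cap constant, `C₃` Cauchy (S2), `C₅` convolution (S5, CONV + tail), `Cε L^ε₁` weighted transport (S3 with `p = q_k`, envelope order `P + 1`, `p:weighted` at the scale `L`), junk `δ` (S4). -/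
def NcAsmStmt (k : ℕ) (K : PCls) (P : ℝ) : Prop :=
  ∃ C₁ C₃ C₅ L₀ : ℝ, 0 ≤ C₁ ∧ 0 < C₃ ∧ 0 < C₅ ∧ 1 ≤ L₀ ∧ ∀ ε₁ : ℝ, 0 < ε₁ → ∃ Cε : ℝ, 0 < Cε ∧
    ∀ (ι : Type) (A : PFam k ι) (s : Finset ι) (a b : ι → ℝ) (Y : Finset (ST k)) (L δ : ℝ), A.In s K a → (∀ T ∈ s, a T ≤ b T) → L₀ ≤ L → L ≤ A.N → 0 < δ →
      ∃ (κ : Type) (B : PFam k κ) (W : Finset κ) (α : κ → ℝ) (cp : κ → Finset ι), NcPar K P L C₁ C₃ C₅ (Cε * L ^ ε₁) δ A s a b Y B W α cp

/-! ## basic API -/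

theorem PFam.pk_scl (A : PFam k ι) (c : ℝ) (T : ι) (z : ST k) : (A.scl c).pk T z = (c : ℂ) * A.pk T z := by
  unfold PFam.pk PFam.scl
  simp only
  ring

theorem PFam.fld_scl (A : PFam k ι) (c : ℝ) (s : Finset ι) (z : ST k) : (A.scl c).fld s z = (c : ℂ) * A.fld s z := by
  unfold PFam.fld
  rw [Finset.mul_sum]
  exact Finset.sum_congr rfl fun T _ => A.pk_scl c T z

theorem PFam.N_scl (A : PFam k ι) (c : ℝ) : (A.scl c).N = A.N := rfl

theorem PFam.d_scl (A : PFam k ι) (c : ℝ) (T : ι) (z : ST k) : (A.scl c).d T z = A.d T z := rfl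

theorem PFam.w_scl (A : PFam k ι) (c P : ℝ) (T : ι) (z : ST k) : (A.scl c).w P T z = A.w P T z := rfl

theorem PFam.sq_scl (A : PFam k ι) (c P : ℝ) (s : Finset ι) (b : ι → ℝ) (z : ST k) : (A.scl c).sq P s b z = A.sq P s b z := rfl

theorem PFam.In.scl {A : PFam k ι} {s : Finset ι} {K : PCls} {a : ι → ℝ} (h : A.In s K a) {c : ℝ} (hc : 0 ≤ c) : (A.scl c).In s K (fun T => c * a T) := by
  refine ⟨h.one_le, fun T hT => (h.fs T hT).const_mul (c : ℂ), fun T hT X => ?_, h.freq, h.mult⟩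
  show ‖(c : ℂ) * A.F T X‖ ≤ c * a T * (1 + ‖X - A.u T‖) ^ (-K.P')
  rw [norm_mul, Complex.norm_real, Real.norm_of_nonneg hc, mul_assoc]
  exact mul_le_mul_of_nonneg_left (h.decay T hT X) hc

/-- the classes are monotone -/
theorem PFam.In.mono {A : PFam k ι} {s : Finset ι} {K K' : PCls} {a : ι → ℝ} (h : A.In s K a) (hρ : K.ρ ≤ K'.ρ) (hP : K'.P' ≤ K.P') (hC : K.C₀ ≤ K'.C₀) (hm : K.m₀ ≤ K'.m₀) :
    A.In s K' a := by
  refine ⟨h.one_le, fun T hT => (h.fs T hT).mono (closedBall_subset_closedBall hρ), fun T hT X => (h.decay T hT X).trans ?_, fun T hT => (h.freq T hT).trans hC,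
    fun ξ y τ t ht hh => (h.mult ξ y τ t ht hh).trans hm⟩
  refine mul_le_mul_of_nonneg_left ?_ (h.amp_nonneg hT)
  exact Real.rpow_le_rpow_of_exponent_le (by linarith [norm_nonneg (X - A.u T)]) (by linarith)

theorem ncS_nonneg {s : Finset ι} {a b : ι → ℝ} (ha : ∀ T ∈ s, 0 ≤ a T) (hb : ∀ T ∈ s, 0 ≤ b T) : 0 ≤ ncS k s a b :=
  Finset.sum_nonneg fun T hT => mul_nonneg (Real.rpow_nonneg (ha T hT) _) (Real.rpow_nonneg (hb T hT) _)

theorem ncS_mono {s s' : Finset ι} {a b : ι → ℝ} (hs : s' ⊆ s) (ha : ∀ T ∈ s, 0 ≤ a T) (hb : ∀ T ∈ s, 0 ≤ b T) : ncS k s' a b ≤ ncS k s a b :=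
  Finset.sum_le_sum_of_subset_of_nonneg hs fun T hT _ => mul_nonneg (Real.rpow_nonneg (ha T hT) _) (Real.rpow_nonneg (hb T hT) _)

theorem NcCfg.a_nonneg {K : PCls} {P : ℝ} {A : PFam k ι} {s : Finset ι} {a b : ι → ℝ} {Y : Finset (ST k)} {R : ℝ} (h : NcCfg K P A s a b Y R) {T : ι} (hT : T ∈ s) : 0 ≤ a T :=
  h.cls.amp_nonneg hT

theorem NcCfg.b_nonneg {K : PCls} {P : ℝ} {A : PFam k ι} {s : Finset ι} {a b : ι → ℝ} {Y : Finset (ST k)} {R : ℝ} (h : NcCfg K P A s a b Y R) {T : ι} (hT : T ∈ s) : 0 ≤ b T :=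
  (h.a_nonneg hT).trans (h.le T hT)

theorem NcCfg.S_nonneg {K : PCls} {P : ℝ} {A : PFam k ι} {s : Finset ι} {a b : ι → ℝ} {Y : Finset (ST k)} {R : ℝ} (h : NcCfg K P A s a b Y R) : 0 ≤ ncS k s a b :=
  ncS_nonneg (fun _ hT => h.a_nonneg hT) (fun _ hT => h.b_nonneg hT)

theorem PFam.sq_mono_set (A : PFam k ι) (P : ℝ) {s s' : Finset ι} (hs : s' ⊆ s) (b : ι → ℝ) (z : ST k) : A.sq P s' b z ≤ A.sq P s b z :=
  Finset.sum_le_sum_of_subset_of_nonneg hs fun T _ _ => mul_nonneg (sq_nonneg _) (pkw_w_pos A P T z).le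

/-- restriction of a configuration to fewer points -/
theorem NcCfg.sub_pts {K : PCls} {P : ℝ} {A : PFam k ι} {s : Finset ι} {a b : ι → ℝ} {Y Y' : Finset (ST k)} {R : ℝ} (h : NcCfg K P A s a b Y R) (hY : Y' ⊆ Y) :
    NcCfg K P A s a b Y' R :=
  ⟨h.cls, h.le, fun z hz z' hz' => h.sep z (hY hz) z' (hY hz'), h.R_pos, fun z hz => h.env z (hY hz), fun z hz => h.big z (hY hz)⟩

theorem Wnc.mono {K : PCls} {P p N₁ Θ Θ' : ℝ} (h : Wnc k K P p N₁ Θ) (hΘ : Θ ≤ Θ') : Wnc k K P p N₁ Θ' := by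
  intro ι A s a b Y R hN hc
  refine (h ι A s a b Y R hN hc).trans ?_
  have h1 : 0 ≤ R ^ p := Real.rpow_nonneg hc.R_pos.le _
  have h2 := hc.S_nonneg
  gcongr

/-- Stores the on-demand equation lemmas of the definitions above in THIS module (rule 6 hygiene). -/
theorem nc_defs_forced : True := by
  have := @PFam.scl.eq_1; have := @ncS.eq_1; have := @Wnc.eq_1; have := @NcAsmStmt.eq_1
  trivial

end

end Claimed.Agent.R257
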