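import Claimed.Agent.R257.PK2.NcDefs
import Claimed.Agent.R257.Pk.AsmStd
import Claimed.Agent.R257.Pk.AsmBg
import Claimed.Agent.R257.Pk.AsmHier
import Claimed.Agent.R257.Pk.AsmJunk
import Claimed.Agent.R257.Pk.Loc
import Claimed.Agent.R257.PK1.WFin

/-!
# R257 / PK2 / NcAsm : THE CLASS REPRODUCES ITSELF UNDER THE ASSEMBLY  (`NcAsmStmt` of `PK2/NcDefs.lean`)        (helper12)

`nc_asm` : `1 ≤ k`, `k + 2 ≤ P`, `P + 1 ≤ K.P'`, `6 ≤ K.ρ`, `3^k * 3^(k+1) ≤ K.m₀`  ⟹  `NcAsmStmt k K P`.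
GLUE: `pk_loc` (localiser, `ρχ = 1`), `asm_std` (caps = maximal separated labels), `Asm.Ok.par_in_std` (S1), `asm_cauchy` (S2), `asm_hier` + `pkw_weighted_main` (S3), `Asm.Ok.junk` (S4), `asm_bg`, `asm_bg_tail` (S5 + tail).
-/

set_option autoImplicit false

namespace Claimed.Agent.R257

open MeasureTheory Metric Set

variable {k : ℕ} {ι κ : Type}

open scoped Classical in
/-- **S5, tail form**: parent cells at native distance `> ϱ` from `z`. -/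
theorem asm_bg_tail (k : ℕ) (C₁ : ℝ) {P Q : ℝ} (hP : (k : ℝ) + 1 < P) (hPQ : P ≤ Q) :
    ∃ C : ℝ, 0 ≤ C ∧ ∀ (ι κ : Type) (D : Asm k ι κ) (K : PCls) (a : ι → ℝ) (m₁ : ℕ) (ρχ Cχ Mχ : ℝ), D.Ok K a C₁ m₁ ρχ Cχ Mχ →
      ∀ (b' : ι → ℝ) (Wd : Finset (κ × PLat k)) (z : ST k) (ϱ : ℝ), 1 ≤ ϱ →
        ∑ T ∈ Wd.filter (fun T => ϱ < D.par.d T z), D.smp Q b' T * D.par.w P T z
          ≤ C * (ϱ ^ (-(P - k - 1)) + D.L ^ (-(P - k - 2))) * D.A.sq P D.s b' z := by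
  have hk : (0 : ℝ) ≤ k := Nat.cast_nonneg k
  obtain ⟨C, hC, hconv⟩ := pk_conv_two_tail k (P₁ := P) (P₂ := P) hP le_rfl C₁
  refine ⟨C, hC, fun ι κ D K a m₁ ρχ Cχ Mχ h b' Wd z ϱ hϱ => ?_⟩
  have hL0 : 0 < D.L := lt_of_lt_of_le one_pos h.one_le_L
  have hϱ0 : 0 < ϱ := by linarith
  set G : ℝ := C * (ϱ ^ (-(P - k - 1)) + D.L ^ (-(P - k - 2))) with hG
  have hG0 : 0 ≤ G := by positivity
  have hw0 : ∀ (R : ℝ) (T' : ι) (y : ST k), 0 ≤ D.A.w R T' y := fun R T' y => by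
    unfold PFam.w
    have := D.A.d_nonneg T' y
    positivity
  have hpw0 : ∀ (T : κ × PLat k), 0 ≤ D.par.w P T z := fun T => by
    unfold PFam.w
    have := D.par.d_nonneg T z
    positivity
  have hsm0 : ∀ T, 0 ≤ D.smp Q b' T := fun T => by
    unfold Asm.smp
    exact Finset.sum_nonneg fun T' _ => mul_nonneg (sq_nonneg _) (hw0 _ _ _)
  set 𝒥 := Wd.image Prod.fst with h𝒥
  set Fm := Wd.image Prod.snd with hFm
  have hsub : Wd ⊆ 𝒥 ×ˢ Fm := fun T hT => by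
    rw [Finset.mem_product]
    exact ⟨Finset.mem_image_of_mem _ hT, Finset.mem_image_of_mem _ hT⟩
  have hin : ∀ J, ∀ T' ∈ D.fib J, ∑ j ∈ Fm, (if ϱ < D.par.d (J, j) z then D.par.w P (J, j) z * D.A.w Q T' (D.par.ctr (J, j)) else 0) ≤ G * D.A.w P T' z := fun J T' hT' => by
    have hT'' := D.mem_fib.1 hT'
    have hnear : ‖D.A.v T' - D.vc J‖ ≤ C₁ / D.N := by
      have := h.near T' hT''.1
      rwa [hT''.2] at this
    have := hconv D.N D.A.N (D.vc J) (D.A.v T') (D.A.u T') z (Fm.image plat) ϱ h.N_pos h.le hnear (pka_usep_plat Fm) hϱ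
    rw [Finset.filter_image, Finset.sum_image fun a _ b _ hab => pka_plat_inj hab, Finset.sum_filter] at this
    refine le_trans (Finset.sum_le_sum fun j _ => ?_) this
    have e : D.par.d (J, j) z = ‖natX D.N (D.vc J) z - plat j‖ := rfl
    rw [e]
    split_ifs
    · apply mul_le_mul_of_nonneg_left _ (hpw0 _)
      show (1 + ‖natX D.A.N (D.A.v T') (natI D.N (D.vc J) (plat j)) - D.A.u T'‖) ^ (-Q) ≤ (1 + ‖natX D.A.N (D.A.v T') (natI D.N (D.vc J) (plat j)) - D.A.u T'‖) ^ (-P)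
      apply Real.rpow_le_rpow_of_exponent_le
      · linarith [norm_nonneg (natX D.A.N (D.A.v T') (natI D.N (D.vc J) (plat j)) - D.A.u T')]
      · linarith
    · exact le_rfl
  calc ∑ T ∈ Wd.filter (fun T => ϱ < D.par.d T z), D.smp Q b' T * D.par.w P T z
      = ∑ T ∈ Wd, (if ϱ < D.par.d T z then D.smp Q b' T * D.par.w P T z else 0) := Finset.sum_filter _ _
    _ ≤ ∑ T ∈ 𝒥 ×ˢ Fm, (if ϱ < D.par.d T z then D.smp Q b' T * D.par.w P T z else 0) :=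
        Finset.sum_le_sum_of_subset_of_nonneg hsub fun T _ _ => by
          split_ifs
          · exact mul_nonneg (hsm0 T) (hpw0 T)
          · exact le_rfl
    _ = ∑ J ∈ 𝒥, ∑ T' ∈ D.fib J, b' T' ^ 2 * ∑ j ∈ Fm, (if ϱ < D.par.d (J, j) z then D.par.w P (J, j) z * D.A.w Q T' (D.par.ctr (J, j)) else 0) := by
        rw [Finset.sum_product]
        refine Finset.sum_congr rfl fun J _ => ?_
        simp only [Finset.mul_sum]
        rw [Finset.sum_comm]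
        refine Finset.sum_congr rfl fun j _ => ?_
        split_ifs
        · unfold Asm.smp
          rw [Finset.sum_mul]
          exact Finset.sum_congr rfl fun T' _ => by ring
        · simp
    _ ≤ ∑ J ∈ 𝒥, ∑ T' ∈ D.fib J, b' T' ^ 2 * (G * D.A.w P T' z) :=
        Finset.sum_le_sum fun J _ => Finset.sum_le_sum fun T' hT' => mul_le_mul_of_nonneg_left (hin J T' hT') (sq_nonneg _)
    _ = ∑ T' ∈ D.s, if D.π T' ∈ 𝒥 then b' T' ^ 2 * (G * D.A.w P T' z) else 0 := by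
        unfold Asm.fib
        simp only [Finset.sum_filter]
        rw [Finset.sum_comm]
        refine Finset.sum_congr rfl fun T' _ => ?_
        rw [Finset.sum_ite_eq]
    _ ≤ ∑ T' ∈ D.s, b' T' ^ 2 * (G * D.A.w P T' z) := by
        refine Finset.sum_le_sum fun T' _ => ?_
        split_ifs
        · exact le_rfl
        · exact mul_nonneg (sq_nonneg _) (mul_nonneg hG0 (hw0 _ _ _))
    _ = G * D.A.sq P D.s b' z := by
        unfold PFam.sq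
        rw [Finset.mul_sum]
        exact Finset.sum_congr rfl fun T' _ => by ring

theorem nc_two_le_qk (hk : 1 ≤ k) : 2 ≤ qk k := by
  unfold qk
  have hk0 : (0 : ℝ) < k := by exact_mod_cast hk
  rw [le_div_iff₀ hk0]
  linarith

theorem nc_qk_mul (hk : 1 ≤ k) : qk k * (k : ℝ) = 2 * ((k : ℝ) + 2) := by
  unfold qk
  have hk0 : (0 : ℝ) < k := by exact_mod_cast hk
  field_simp

/-- **the class reproduces itself under the assembly** -/
theorem nc_asm (hk : 1 ≤ k) (K : PCls) (P : ℝ) (hP : (k : ℝ) + 2 ≤ P) (hPP : P + 1 ≤ K.P') (hρ : 6 ≤ K.ρ) (hm : 3 ^ k * 3 ^ (k + 1) ≤ K.m₀) :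
    NcAsmStmt k K P := by
  classical
  have hk0 : (0 : ℝ) ≤ k := Nat.cast_nonneg k
  have hq2 := nc_two_le_qk hk
  obtain ⟨χ, hχfs, hχdec, hχpou⟩ := pk_loc k
  obtain ⟨Q, hQ⟩ : ∃ Q : ℝ, Q = P + 1 := ⟨_, rfl⟩
  obtain ⟨Cs, hCs⟩ : ∃ Cs : ℝ, Cs = Q + k + 1 := ⟨_, rfl⟩
  obtain ⟨Mχ, hMχ⟩ : ∃ Mχ : ℝ, Mχ = K.P' + Cs := ⟨_, rfl⟩
  have hQ0 : 0 ≤ Q := by linarith
  have hCs0 : 0 ≤ Cs := by linarith
  obtain ⟨Cχ, hCχ0, hCχ⟩ := hχdec Mχ
  obtain ⟨Cc, hCc, hcau⟩ := asm_cauchy k 1 (Q := Q) (P' := K.P') (Cs := Cs) hQ0 (by linarith) (by linarith)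
  obtain ⟨C5, hC5, hbg⟩ := asm_bg k 1 (P := P) (Q := P) hP le_rfl
  obtain ⟨C5t, hC5t, hbgt⟩ := asm_bg_tail k 1 (P := P) (Q := P) (by linarith) le_rfl
  have hCsq : (k : ℝ) + 1 < Cs * qk k - Q * (qk k / 2 - 1) := by
    have : Cs * qk k - Q * (qk k / 2 - 1) = (Cs - Q / 2) * qk k + Q := by ring
    rw [this]
    have h1 : 0 ≤ Cs - Q / 2 := by linarith
    nlinarith
  obtain ⟨Ch, hCh, hhier⟩ := asm_hier k (p := qk k) (Q := Q) (Cs := Cs) (C₁ := 1) hq2 hQ0 zero_le_one hCsq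
  refine ⟨1, Real.sqrt (Cc * K.m₀ * Cχ ^ 2) + 1, C5 + C5t + 1, 6, zero_le_one, by positivity, by positivity, by norm_num, fun ε₁ hε₁ => ?_⟩
  obtain ⟨Cst, hCst, hwt⟩ := pkw_weighted_main (k := k) (Asm.clsCh K 1) 1 (p := qk k) (P := Q) (r := ((k : ℝ) + 1) / 2) (ε := ε₁) hq2 (nc_qk_mul hk).le hQ0
    (by show Q ≤ K.P'; linarith) (by show (k : ℝ) + 1 < K.P'; linarith) (by positivity) hε₁
  refine ⟨Ch * Cχ ^ qk k * Cst + 1, by positivity, fun ι A s a b Y L δ hA hab hL hLN hδ => ?_⟩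
  have hL0 : 0 < L := by linarith
  have hL1 : 1 ≤ L := by linarith
  have hAN0 : 0 < A.N := by linarith
  have hN1 : 1 ≤ A.N / L := by rw [le_div_iff₀ hL0]; linarith
  have hN0 : 0 < A.N / L := by linarith
  have hNA : A.N / L ≤ A.N := div_le_self hAN0.le hL1
  obtain ⟨π, hπ, hOk⟩ := asm_std hA hN1 hNA hχfs hCχ hχpou (Ca := Cχ) (Cs := Cs) le_rfl hCs0 (by linarith) (by linarith)
  obtain ⟨D, hD⟩ : ∃ D : Asm k ι ι, D = ⟨A, s, A.N / L, π, A.v, χ, Cχ, Cs⟩ := ⟨_, rfl⟩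
  rw [← hD] at hOk
  have hDA : D.A = A := by rw [hD]
  have hDs : D.s = s := by rw [hD]
  have hDN : D.N = A.N / L := by rw [hD]
  have hDCa : D.Ca = Cχ := by rw [hD]
  have hDCs : D.Cs = Cs := by rw [hD]
  have hDvc : D.vc = D.A.v := by rw [hD]
  have hDπ : ∀ T ∈ D.s, D.π T ∈ D.s := by rw [hD]; exact hπ
  have hDL : D.L = L := by
    unfold Asm.L
    rw [hDA, hDN]
    field_simp
  obtain ⟨Fm, hFm⟩ := hOk.junk Y hδ
  have ha0 : ∀ T ∈ s, 0 ≤ a T := fun T hT => hA.amp_nonneg hT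
  have hb0 : ∀ T ∈ s, 0 ≤ b T := fun T hT => (ha0 T hT).trans (hab T hT)
  have hsmp : ∀ (R : ℝ) (c : ι → ℝ) (T : ι × PLat k), D.smp R c T = A.sq R (D.fib T.1) c (D.par.ctr T) := fun R c T => by
    unfold Asm.smp PFam.sq
    rw [hDA]
  have hsmp0 : ∀ (R : ℝ) (c : ι → ℝ) (T : ι × PLat k), 0 ≤ D.smp R c T := fun R c T => by
    rw [hsmp]; exact pkw_sq_nonneg _ _ _ _ _
  have hW : ∀ T ∈ D.caps ×ˢ Fm, T.1 ∈ D.caps := fun T hT => (Finset.mem_product.1 hT).1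
  refine ⟨ι × PLat k, D.par, D.caps ×ˢ Fm, D.amp, fun T => D.fib T.1, ⟨?_, ?_, ?_, ?_, ?_, ?_, ?_, ?_⟩⟩
  · -- scale
    show D.N = A.N / L
    exact hDN
  · -- class
    have h1 := hOk.par_in_std hDvc hDπ (ρs := K.ρ) (by
      rw [hDL]
      have : 3 * K.ρ / L ≤ K.ρ / 2 := by
        rw [div_le_div_iff₀ hL0 (by norm_num)]
        nlinarith
      linarith) (D.caps ×ˢ Fm) hW
    exact h1.mono le_rfl (by show K.P' ≤ Mχ - D.Cs; rw [hDCs, hMχ]; linarith) le_rfl hm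
  · -- junk
    intro z hz
    have := hFm Fm (Finset.Subset.refl _) z hz
    rwa [hDA, hDs] at this
  · -- caps
    intro T _ T' hT'
    have h1 := D.mem_fib.1 hT'
    have h2 := hOk.near T' h1.1
    rw [h1.2, hDA] at h2
    exact ⟨by rw [← hDs]; exact h1.1, h2⟩
  · -- Cauchy
    intro T _
    have h1 := hcau ι ι D K a (3 ^ k) 1 Cχ Mχ hDCs le_rfl hOk T
    have h2 : D.smp Q a T ≤ D.smp Q b T := by
      unfold Asm.smp
      refine Finset.sum_le_sum fun T' hT' => ?_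
      have hT's : T' ∈ s := by rw [← hDs]; exact (D.mem_fib.1 hT').1
      apply mul_le_mul_of_nonneg_right _ (pkw_w_pos _ _ _ _).le
      exact pow_le_pow_left₀ (ha0 T' hT's) (hab T' hT's) 2
    have h3 : Cc * K.m₀ * Cχ ^ 2 ≤ (Real.sqrt (Cc * K.m₀ * Cχ ^ 2) + 1) ^ 2 := by
      have h4 : 0 ≤ Cc * K.m₀ * Cχ ^ 2 := by positivity
      have h5 := Real.sq_sqrt h4
      have h6 := Real.sqrt_nonneg (Cc * K.m₀ * Cχ ^ 2)
      nlinarith
    rw [← hQ, ← hsmp, Real.rpow_natCast]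
    calc D.amp T ^ 2 ≤ Cc * K.m₀ * D.Ca ^ 2 * D.L ^ k * D.smp Q a T := h1
      _ = (Cc * K.m₀ * Cχ ^ 2) * (L ^ k * D.smp Q a T) := by rw [hDCa, hDL]; ring
      _ ≤ (Real.sqrt (Cc * K.m₀ * Cχ ^ 2) + 1) ^ 2 * (L ^ k * D.smp Q b T) := by
          apply mul_le_mul h3 _ (mul_nonneg (by positivity) (hsmp0 _ _ _)) (by positivity)
          exact mul_le_mul_of_nonneg_left h2 (by positivity)
      _ = _ := by ring
  · -- convolution
    intro z
    have h1 := hbg ι ι D K a (3 ^ k) 1 Cχ Mχ hOk b (D.caps ×ˢ Fm) z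
    rw [hDA, hDs] at h1
    have h2 : 0 ≤ A.sq P s b z := pkw_sq_nonneg _ _ _ _ _
    simp only [hsmp] at h1
    refine h1.trans ?_
    nlinarith
  · -- tail
    intro z ϱ hϱ
    have h1 := hbgt ι ι D K a (3 ^ k) 1 Cχ Mχ hOk b (D.caps ×ˢ Fm) z ϱ (by linarith)
    rw [hDA, hDs, hDL] at h1
    have h2 : 0 ≤ A.sq P s b z := pkw_sq_nonneg _ _ _ _ _
    simp only [hsmp] at h1
    refine h1.trans ?_
    have hϱ0 : 0 < ϱ := by linarith
    have h3 : 0 ≤ ϱ ^ (-(P - (k : ℝ) - 1)) + L ^ (-(P - (k : ℝ) - 2)) := by positivity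
    apply mul_le_mul_of_nonneg_right _ h2
    apply mul_le_mul_of_nonneg_right _ h3
    linarith
  · -- budget
    have h1 := hhier ι ι D K a (3 ^ k) 1 Cχ Mχ ⊤ 1 (Cst * L ^ ε₁) hDCs hOk (by positivity) (by rw [hDL]; exact hwt L hL1)
      (by rw [hDA, hDs]; exact pkw_near_top A s zero_le_one hAN0.le) b (by rw [hDs]; exact hb0)
      (by
        rw [hDs]
        intro T' hT' hb
        have := hab T' hT'
        have := ha0 T' hT'
        linarith)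
      (D.caps ×ˢ Fm) (fun T => Real.sqrt (D.smp Q b T)) (fun T _ => ⟨Real.sqrt_nonneg _, by rw [Real.sq_sqrt (hsmp0 _ _ _)]⟩)
    unfold PFam.bud at h1
    rw [hDA, hDs, hDCa] at h1
    have e1 : D.par.N = A.N / L := hDN
    rw [e1] at h1
    have e2 : A.N ^ ((k : ℝ) + 2) = (A.N / L) ^ ((k : ℝ) + 2) * L ^ ((k : ℝ) + 2) := by
      rw [← Real.mul_rpow hN0.le hL0.le]
      congr 1
      field_simp
    rw [e2] at h1
    have h2 : 0 < (A.N / L) ^ ((k : ℝ) + 2) := by positivity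
    have hS0 : 0 ≤ ncS k s a b := ncS_nonneg ha0 hb0
    have h3 : (A.N / L) ^ ((k : ℝ) + 2) * ∑ T ∈ D.caps ×ˢ Fm, D.amp T ^ qk k * Real.sqrt (D.smp Q b T) ^ (2 - qk k)
        ≤ (A.N / L) ^ ((k : ℝ) + 2) * ((Ch * Cχ ^ qk k * Cst + 1) * L ^ ε₁ * L ^ ((k : ℝ) + 2) * ncS k s a b) := by
      refine h1.trans ?_
      unfold ncS at hS0 ⊢
      have h4 : 0 ≤ (A.N / L) ^ ((k : ℝ) + 2) * (L ^ ε₁ * L ^ ((k : ℝ) + 2) * ∑ T ∈ s, a T ^ qk k * b T ^ (2 - qk k)) := by positivity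
      nlinarith
    have h5 := le_of_mul_le_mul_left h3 h2
    simp only [hsmp, hQ] at h5
    exact h5

end Claimed.Agent.R257
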