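import Claimed.Agent.R257.PK2.NcMain
import Claimed.Agent.R257.PK2.NcAsm
import Claimed.Agent.R257.PK1.WTree

/-!
# R257 / PK2 / NcOut : EXITS OF `p:near-cauchy` WITHOUT HYPOTHESES        (helper12)

* `nc_asm_all : NcAsmAll k`                       every class lies in a self-reproducing class (`nc_asm`)
* `nc_weighted`, `nc_near_cauchy`                 `nc_out`, `nc_out_unw` of helper266 with `NcAsmAll` discharged
* `nc_ncAt : Tree.NcAt k A M`  (`k + 2 < A`, `A + 1 ≤ M`)      the contract of INST (`Tree/Defs.lean`)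
-/

set_option autoImplicit false

namespace Claimed.Agent.R257

open MeasureTheory Metric Set

variable {k : ℕ}

theorem nc_asm_all (hk : 1 ≤ k) : NcAsmAll k := by
  intro K P _ _ hP hPP
  exact ⟨⟨max K.ρ 6, K.P', K.C₀, max K.m₀ (3 ^ k * 3 ^ (k + 1))⟩, le_max_left _ _, rfl, rfl, le_max_left _ _,
    nc_asm hk _ P hP.le hPP (le_max_right _ _) (le_max_right _ _)⟩

/-- **`p:near-cauchy`, weighted form.** -/
theorem nc_weighted (hk : 1 ≤ k) (K : PCls) (P : ℝ) (hρ : 0 ≤ K.ρ) (hC₀ : 0 ≤ K.C₀) (hP : (k : ℝ) + 2 < P) (hPP : P + 1 ≤ K.P') {ε : ℝ} (hε : 0 < ε) :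
    ∃ C : ℝ, 0 < C ∧ ∀ (ι : Type) (A : PFam k ι) (s : Finset ι) (a b : ι → ℝ) (Y : Finset (ST k)) (R : ℝ), NcCfg K P A s a b Y R →
      (Y.card : ℝ) ≤ C * R ^ (qk k + ε) * ncS k s a b :=
  nc_out hk (nc_asm_all hk) K P hρ hC₀ hP hPP hε

/-- **`p:near-cauchy`** (H (p:near-cauchy-equation)). -/
theorem nc_near_cauchy (hk : 1 ≤ k) (K : PCls) (P : ℝ) (hρ : 0 ≤ K.ρ) (hC₀ : 0 ≤ K.C₀) (hP : (k : ℝ) + 2 < P) (hPP : P + 1 ≤ K.P') {ε : ℝ} (hε : 0 < ε) :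
    ∃ C : ℝ, 0 < C ∧ ∀ (ι : Type) (A : PFam k ι) (s : Finset ι) (a : ι → ℝ) (Y : Finset (ST k)) (R : ℝ), A.In s K a → USep Y → 0 < R →
      (∀ z ∈ Y, A.sq P s a z ≤ 1) → (∀ z ∈ Y, A.N ^ ((k : ℝ) / 2) / R ≤ ‖A.fld s z‖) → (Y.card : ℝ) ≤ C * R ^ (qk k + ε) * ∑ T ∈ s, a T ^ 2 :=
  nc_out_unw hk (nc_asm_all hk) K P hρ hC₀ hP hPP hε

/-- **the contract `NcAt` of INST.** -/
theorem nc_ncAt (hk : 1 ≤ k) {A M : ℝ} (hA : (k : ℝ) + 2 < A) (hM : A + 1 ≤ M) : Tree.NcAt k A M := by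
  intro ρ Cc Cm ε hε
  obtain ⟨C, hC, h⟩ := nc_near_cauchy hk ⟨max ρ 0, M, max Cc 0, 5 ^ (k + 1) * ⌊Cm⌋₊⟩ A (le_max_right _ _) (le_max_right _ _) hA hM hε
  refine ⟨max 1 C, le_max_left _ _, ?_⟩
  intro N hN Λ _ fr hfr s a f hc hpk Y hY R hR hcfg
  obtain ⟨F, hIn, hf⟩ := pkw_tree_in hN fr hfr s a f hc hpk
  have hIn' := hIn.mono (K' := ⟨max ρ 0, M, max Cc 0, 5 ^ (k + 1) * ⌊Cm⌋₊⟩) (le_max_left _ _) le_rfl (le_max_left _ _) le_rfl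
  have e2 : ∀ z, (⟨N, fun T => fr T.1, fun T => Tree.lat T.2, F⟩ : PFam k (Λ × Tree.Lat k)).fld s z = ∑ T ∈ s, f T z := fun z =>
    Finset.sum_congr rfl fun T hT => hf T hT z
  have key := h _ _ s a Y R hIn' hY (by linarith) (fun z hz => (hcfg z hz).1) (fun z hz => by rw [e2]; exact (hcfg z hz).2)
  have hS : 0 ≤ ∑ T ∈ s, a T ^ 2 := Finset.sum_nonneg fun T _ => sq_nonneg _
  have hRp : 0 ≤ R ^ (qk k + ε) := Real.rpow_nonneg (by linarith) _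
  refine key.trans ?_
  have : C ≤ max 1 C := le_max_right _ _
  gcongr

end Claimed.Agent.R257
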