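import Claimed.Agent.R257.Pk.Api

/-!
# R257 / PK2 / Lin : THE LOCAL LINEAR ESTIMATE `p:local-linear` (H packets.tex l.683-692), DUAL FORM       (architect helper266; mathematics = `PK2/Plan.lean` sec. LIN of helper12)

`lin_main` : `USep Y`, `Y ⊆ closedBall z₀ (Cr N)`  ⟹  `∑_{z ∈ Y} ‖V z‖ ≤ C |Y|^(1-1/q) N^(k/2) B(z₀)`,   `q = q_k = 2(k+2)/k`,  `1 - 1/q = (k+4)/(2(k+2))`,  NO loss in `N`.
`lin_count` : `lam ≤ ‖V z‖` on `Y` ⟹ `|Y| ≤ C (N^(k/2) B(z₀)/lam)^q`.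
No Strichartz inequality, no Hardy-Littlewood-Sobolev, no interpolation, no Plancherel, no Fourier series: Tomas' argument in discrete restricted form with the EXPLICIT Gaussian kernel.
CHAIN: `lin_gauss` (kernel) → `lin_gram`, `lin_slab`, `lin_cross`, `lin_sum_abs` → `lin_tomas` → `lin_thick`;   `lin_density` (bounded Fourier density of an integrable band limited function);  `lin_local` (one localised packet);  `lin_l2`;  `lin_main`.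
Every `sorry` is a leaf `L-LIN-*`: prove IN PLACE, statements verbatim, auxiliary lemmas directly above, prefix `lin_`.   API: `R257/Pk/Api.lean` (helper12), `PK1/WOutB.lean` (`pkw_slot`), `Lib/BD/{Fs,FSApi,Ker,Wt}.lean`.
-/

set_option autoImplicit false

namespace Claimed.Agent.R257

open MeasureTheory Metric Set
open scoped ENNReal InnerProductSpace

variable {k : ℕ} {ι : Type}

/-- the Gaussian kernel `G(x,t) = ∫ e^{-|ξ|²} e^{i(x·ξ - t|ξ|²)} dξ`. -/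
noncomputable def linG (z : ST k) : ℂ := ∫ ξ : E k, ((Real.exp (-‖ξ‖ ^ 2) : ℝ) : ℂ) * car ξ z

theorem lin_integrand_eq (z : ST k) (ξ : E k) : ((Real.exp (-‖ξ‖ ^ 2) : ℝ) : ℂ) * car ξ z
    = Complex.exp (-(1 + (z.2 : ℂ) * Complex.I) * (‖ξ‖ : ℂ) ^ 2 + Complex.I * (⟪z.1, ξ⟫_ℝ : ℂ)) := by
  unfold car
  rw [Complex.ofReal_exp, ← Complex.exp_add]
  congr 1
  push_cast
  ring

theorem lin_integrable (z : ST k) : Integrable fun ξ : E k => ((Real.exp (-‖ξ‖ ^ 2) : ℝ) : ℂ) * car ξ z := by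
  simp_rw [lin_integrand_eq]
  exact GaussianFourier.integrable_cexp_neg_mul_sq_norm_add (by simp) _ _

/-- **L-LIN-GAUSS.**  `G(x,t) = (π/(1+it))^(k/2) exp(-|x|²/(4(1+it)))`: `GaussianFourier.integral_cexp_neg_mul_sq_norm_add` with `b = 1 + i t`, `c = i`, `w = x` (`finrank_euclideanSpace_fin`);
modulus: `Complex.norm_cpow_real`-type lemma (`‖x ^ (y : ℂ)‖ = ‖x‖ ^ y`), `Complex.norm_exp`, `Re (1/(1+it)) = 1/(1+t²)`. -/
theorem lin_gauss (z : ST k) :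
    ‖linG z‖ = Real.pi ^ ((k : ℝ) / 2) * (1 + z.2 ^ 2) ^ (-(k : ℝ) / 4) * Real.exp (-‖z.1‖ ^ 2 / (4 * (1 + z.2 ^ 2))) := by
  obtain ⟨b, hb⟩ : ∃ b : ℂ, b = 1 + (z.2 : ℂ) * Complex.I := ⟨_, rfl⟩
  have hbre : b.re = 1 := by simp [hb]
  have hbpos : 0 < b.re := by rw [hbre]; exact one_pos
  have hpos : 0 < 1 + z.2 ^ 2 := by positivity
  have hns : Complex.normSq b = 1 + z.2 ^ 2 := by
    rw [hb, Complex.normSq_apply]
    simp
    ring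
  have hnorm : ‖b‖ = Real.sqrt (1 + z.2 ^ 2) := by rw [Complex.norm_def, hns]
  have h := GaussianFourier.integral_cexp_neg_mul_sq_norm_add hbpos Complex.I z.1
  unfold linG
  simp_rw [lin_integrand_eq, ← hb]
  rw [h, finrank_euclideanSpace_fin, norm_mul]
  have e1 : ((k : ℂ) / 2) = (((k : ℝ) / 2 : ℝ) : ℂ) := by push_cast; rfl
  rw [e1, Complex.norm_cpow_real, norm_div, Complex.norm_real, Real.norm_eq_abs, abs_of_pos Real.pi_pos, Complex.norm_exp, hnorm]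
  have e2 : (Complex.I ^ 2 * (‖z.1‖ : ℂ) ^ 2 / (4 * b)).re = -‖z.1‖ ^ 2 / (4 * (1 + z.2 ^ 2)) := by
    have e3 : Complex.I ^ 2 * (‖z.1‖ : ℂ) ^ 2 / (4 * b) = ((-(‖z.1‖ ^ 2) / 4 : ℝ) : ℂ) * b⁻¹ := by
      have hb0 : b ≠ 0 := by
        intro h0
        rw [h0] at hbpos
        simp at hbpos
      rw [Complex.I_sq]
      push_cast
      field_simp
    rw [e3, Complex.re_ofReal_mul, Complex.inv_re, hbre, hns]
    field_simp
  rw [e2]
  congr 1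
  rw [Real.div_rpow Real.pi_pos.le (Real.sqrt_nonneg _), Real.sqrt_eq_rpow, ← Real.rpow_mul hpos.le, div_eq_mul_inv,
    ← Real.rpow_neg hpos.le]
  congr 2
  ring

theorem lin_car_sub (ξ : E k) (z z' : ST k) : car ξ z * (starRingEnd ℂ) (car ξ z') = car ξ (z - z') := by
  unfold car
  rw [← Complex.exp_conj, ← Complex.exp_add]
  congr 1
  simp only [map_mul, Complex.conj_I, Complex.conj_ofReal, Prod.fst_sub, Prod.snd_sub, inner_sub_left]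
  push_cast
  ring

/-- **L-LIN-GRAM.**  `car ξ z * conj (car ξ z') = car ξ (z - z')`; finite sums; every integrand is bounded by the integrable Gaussian. -/
theorem lin_gram (Y Y' : Finset (ST k)) (ε ε' : ST k → ℂ) :
    ∫ ξ : E k, ((Real.exp (-‖ξ‖ ^ 2) : ℝ) : ℂ) * ((∑ z ∈ Y, ε z * car ξ z) * (starRingEnd ℂ) (∑ z ∈ Y', ε' z * car ξ z)) =
      ∑ z ∈ Y, ∑ z' ∈ Y', ε z * (starRingEnd ℂ) (ε' z') * linG (z - z') := by
  have e : ∀ ξ : E k, ((Real.exp (-‖ξ‖ ^ 2) : ℝ) : ℂ) * ((∑ z ∈ Y, ε z * car ξ z) * (starRingEnd ℂ) (∑ z ∈ Y', ε' z * car ξ z))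
      = ∑ z ∈ Y, ∑ z' ∈ Y', ε z * (starRingEnd ℂ) (ε' z') * (((Real.exp (-‖ξ‖ ^ 2) : ℝ) : ℂ) * car ξ (z - z')) := by
    intro ξ
    rw [map_sum, Finset.sum_mul_sum, Finset.mul_sum]
    refine Finset.sum_congr rfl fun z _ => ?_
    rw [Finset.mul_sum]
    refine Finset.sum_congr rfl fun z' _ => ?_
    rw [← lin_car_sub, map_mul]
    ring
  simp_rw [e]
  rw [integral_finsetSum _ fun z _ => integrable_finsetSum _ fun z' _ => (lin_integrable (z - z')).const_mul _]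
  refine Finset.sum_congr rfl fun z _ => ?_
  rw [integral_finsetSum _ fun z' _ => (lin_integrable (z - z')).const_mul _]
  refine Finset.sum_congr rfl fun z' _ => ?_
  rw [integral_const_mul]
  rfl

theorem lin_sq_eq (Y : Finset (ST k)) (ε : ST k → ℂ) :
    ((∫ ξ : E k, Real.exp (-‖ξ‖ ^ 2) * ‖∑ z ∈ Y, ε z * car ξ z‖ ^ 2 : ℝ) : ℂ)
      = ∑ z ∈ Y, ∑ z' ∈ Y, ε z * (starRingEnd ℂ) (ε z') * linG (z - z') := by
  rw [← lin_gram, ← integral_complex_ofReal]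
  refine integral_congr_ae (Filter.Eventually.of_forall fun ξ => ?_)
  simp only
  rw [Complex.mul_conj, Complex.normSq_eq_norm_sq]
  push_cast
  rfl

theorem lin_exp_le (m : ℕ) (r : ℝ) (hr : 0 ≤ r) : Real.exp (-r ^ 2 / 8) ≤ Real.exp (2 * (m : ℝ) ^ 2) * (1 + r) ^ (-(m : ℝ)) := by
  have h1 : (1 + r) ^ m ≤ Real.exp (m * r) := by
    rw [Real.exp_nat_mul]
    refine pow_le_pow_left₀ (by positivity) ?_ m
    have := Real.add_one_le_exp r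
    linarith
  have hpos : 0 < (1 + r) ^ m := by positivity
  rw [Real.rpow_neg (by positivity), Real.rpow_natCast, ← div_eq_mul_inv, le_div_iff₀ hpos]
  calc Real.exp (-r ^ 2 / 8) * (1 + r) ^ m ≤ Real.exp (-r ^ 2 / 8) * Real.exp (m * r) :=
        mul_le_mul_of_nonneg_left h1 (Real.exp_pos _).le
    _ = Real.exp (-r ^ 2 / 8 + m * r) := (Real.exp_add _ _).symm
    _ ≤ Real.exp (2 * (m : ℝ) ^ 2) := by
        apply Real.exp_le_exp.2
        nlinarith [sq_nonneg (r - 4 * m)]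

theorem lin_G_near (z : ST k) (h : |z.2| < 1) :
    ‖linG z‖ ≤ Real.pi ^ ((k : ℝ) / 2) * Real.exp (2 * ((k + 1 : ℕ) : ℝ) ^ 2) * (1 + ‖z.1‖) ^ (-((k + 1 : ℕ) : ℝ)) := by
  rw [lin_gauss]
  have hs : z.2 ^ 2 < 1 := by
    rw [← sq_abs]
    exact pow_lt_one₀ (abs_nonneg _) h (by norm_num)
  have h1 : (1 + z.2 ^ 2) ^ (-(k : ℝ) / 4) ≤ 1 := by
    apply Real.rpow_le_one_of_one_le_of_nonpos
    · have := sq_nonneg z.2
      linarith
    · have : (0 : ℝ) ≤ k := Nat.cast_nonneg k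
      linarith
  have h2 : Real.exp (-‖z.1‖ ^ 2 / (4 * (1 + z.2 ^ 2))) ≤ Real.exp (-‖z.1‖ ^ 2 / 8) := by
    apply Real.exp_le_exp.2
    rw [neg_div, neg_div, neg_le_neg_iff]
    apply div_le_div_of_nonneg_left (sq_nonneg _) (by positivity)
    linarith
  have h3 := lin_exp_le (k + 1) ‖z.1‖ (norm_nonneg _)
  have hp : 0 ≤ Real.pi ^ ((k : ℝ) / 2) := by positivity
  calc Real.pi ^ ((k : ℝ) / 2) * (1 + z.2 ^ 2) ^ (-(k : ℝ) / 4) * Real.exp (-‖z.1‖ ^ 2 / (4 * (1 + z.2 ^ 2)))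
      ≤ Real.pi ^ ((k : ℝ) / 2) * 1 * (Real.exp (2 * ((k + 1 : ℕ) : ℝ) ^ 2) * (1 + ‖z.1‖) ^ (-((k + 1 : ℕ) : ℝ))) := by
        refine mul_le_mul (mul_le_mul_of_nonneg_left h1 hp) (h2.trans h3) (Real.exp_pos _).le (by positivity)
    _ = _ := by ring

/-- **L-LIN-SLAB.**  One time slab: `|t - t'| < 1`, so the spatial components are `1`-separated; `lin_gram` (`Y' = Y`), `lin_gauss`: `|G(z - z')| ≤ π^(k/2) exp(-|x - x'|²/8)`;
`∑_{z'} exp(-|x - x'|²/8) ≤ C` (packing: `exp(-r²/8) ≤ C (1+r)^(-(k+1))` and `BD.exists_sum_sep_le` on `V = E k`). -/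
theorem lin_slab (k : ℕ) : ∃ C : ℝ, 0 ≤ C ∧ ∀ (Y : Finset (ST k)) (ε : ST k → ℂ), USep Y → (∀ z ∈ Y, ∀ z' ∈ Y, |z.2 - z'.2| < 1) → (∀ z ∈ Y, ‖ε z‖ ≤ 1) →
    ∫ ξ : E k, Real.exp (-‖ξ‖ ^ 2) * ‖∑ z ∈ Y, ε z * car ξ z‖ ^ 2 ≤ C * Y.card := by
  classical
  obtain ⟨C₀, hC₀⟩ := BD.exists_sum_sep_le (V := E k) (E := ((k + 1 : ℕ) : ℝ)) (by rw [finrank_euclideanSpace_fin]; push_cast; linarith)
  refine ⟨Real.pi ^ ((k : ℝ) / 2) * Real.exp (2 * ((k + 1 : ℕ) : ℝ) ^ 2) * max C₀ 0, by positivity, fun Y ε hY ht hε => ?_⟩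
  have hsep : ∀ z ∈ Y, ∀ z' ∈ Y, z ≠ z' → 1 ≤ ‖z.1 - z'.1‖ := by
    intro z hz z' hz' hne
    have h1 := hY z hz z' hz' hne
    rw [Prod.norm_def] at h1
    rcases le_max_iff.1 h1 with h2 | h2
    · exact h2
    · exfalso
      have := ht z hz z' hz'
      rw [Real.norm_eq_abs] at h2
      exact absurd h2 (not_le.2 this)
  have hinj : Set.InjOn (fun z : ST k => z.1) Y := by
    intro z hz z' hz' e
    by_contra hne
    have := hsep z hz z' hz' hne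
    have e' : z.1 = z'.1 := e
    rw [e', sub_self, norm_zero] at this
    linarith
  have hrow : ∀ z ∈ Y, ∑ z' ∈ Y, (1 + ‖(z - z').1‖) ^ (-((k + 1 : ℕ) : ℝ)) ≤ max C₀ 0 := by
    intro z hz
    have h1 := hC₀ 1 (Y.image fun z : ST k => z.1) z.1 one_pos (by
      intro c hc c' hc' hne
      obtain ⟨w, hw, rfl⟩ := Finset.mem_image.1 hc
      obtain ⟨w', hw', rfl⟩ := Finset.mem_image.1 hc'
      exact hsep w hw w' hw' (fun e => hne (by rw [e])))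
    rw [Finset.sum_image hinj] at h1
    refine le_trans (le_of_eq ?_) (h1.trans (le_max_left _ _))
    refine Finset.sum_congr rfl fun z' _ => ?_
    rw [div_one, Prod.fst_sub, norm_sub_rev]
  have h0 : ∫ ξ : E k, Real.exp (-‖ξ‖ ^ 2) * ‖∑ z ∈ Y, ε z * car ξ z‖ ^ 2
      ≤ ‖((∫ ξ : E k, Real.exp (-‖ξ‖ ^ 2) * ‖∑ z ∈ Y, ε z * car ξ z‖ ^ 2 : ℝ) : ℂ)‖ := by
    rw [Complex.norm_real]
    exact le_abs_self _
  refine h0.trans ?_
  rw [lin_sq_eq]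
  obtain ⟨c, hc⟩ : ∃ c : ℝ, c = Real.pi ^ ((k : ℝ) / 2) * Real.exp (2 * ((k + 1 : ℕ) : ℝ) ^ 2) := ⟨_, rfl⟩
  have hc0 : 0 ≤ c := by rw [hc]; positivity
  rw [← hc]
  calc ‖∑ z ∈ Y, ∑ z' ∈ Y, ε z * (starRingEnd ℂ) (ε z') * linG (z - z')‖
      ≤ ∑ z ∈ Y, ∑ z' ∈ Y, ‖ε z * (starRingEnd ℂ) (ε z') * linG (z - z')‖ :=
        (norm_sum_le _ _).trans (Finset.sum_le_sum fun z _ => norm_sum_le _ _)
    _ ≤ ∑ z ∈ Y, ∑ z' ∈ Y, c * (1 + ‖(z - z').1‖) ^ (-((k + 1 : ℕ) : ℝ)) := by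
        refine Finset.sum_le_sum fun z hz => Finset.sum_le_sum fun z' hz' => ?_
        rw [norm_mul, norm_mul, RCLike.norm_conj]
        have h1 : ‖ε z‖ * ‖ε z'‖ ≤ 1 := by
          calc ‖ε z‖ * ‖ε z'‖ ≤ 1 * 1 := mul_le_mul (hε z hz) (hε z' hz') (norm_nonneg _) zero_le_one
            _ = 1 := one_mul _
        have h2 := lin_G_near (z - z') (ht z hz z' hz')
        rw [← hc] at h2
        calc ‖ε z‖ * ‖ε z'‖ * ‖linG (z - z')‖ ≤ 1 * (c * (1 + ‖(z - z').1‖) ^ (-((k + 1 : ℕ) : ℝ))) :=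
              mul_le_mul h1 h2 (norm_nonneg _) zero_le_one
          _ = _ := one_mul _
    _ = ∑ z ∈ Y, c * ∑ z' ∈ Y, (1 + ‖(z - z').1‖) ^ (-((k + 1 : ℕ) : ℝ)) := by
        simp_rw [Finset.mul_sum]
    _ ≤ ∑ z ∈ Y, c * max C₀ 0 := Finset.sum_le_sum fun z hz => mul_le_mul_of_nonneg_left (hrow z hz) hc0
    _ = c * max C₀ 0 * Y.card := by
        rw [Finset.sum_const, nsmul_eq_mul]
        ring

/-- **L-LIN-CROSS.**  Two sets at time distance `≥ D`: `lin_gram`, `lin_gauss` (`exp ≤ 1`, `(1+t²)^(-k/4) ≤ (1+D²)^(-k/4)`). -/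
theorem lin_cross (Y Y' : Finset (ST k)) (ε ε' : ST k → ℂ) {D : ℝ} (hD : 0 ≤ D) (hYY : ∀ z ∈ Y, ∀ z' ∈ Y', D ≤ |z.2 - z'.2|)
    (hε : ∀ z ∈ Y, ‖ε z‖ ≤ 1) (hε' : ∀ z ∈ Y', ‖ε' z‖ ≤ 1) :
    ‖∫ ξ : E k, ((Real.exp (-‖ξ‖ ^ 2) : ℝ) : ℂ) * ((∑ z ∈ Y, ε z * car ξ z) * (starRingEnd ℂ) (∑ z ∈ Y', ε' z * car ξ z))‖ ≤
      Real.pi ^ ((k : ℝ) / 2) * (1 + D ^ 2) ^ (-(k : ℝ) / 4) * Y.card * Y'.card := by
  rw [lin_gram]
  have hterm : ∀ z ∈ Y, ∀ z' ∈ Y', ‖ε z * (starRingEnd ℂ) (ε' z') * linG (z - z')‖ ≤ Real.pi ^ ((k : ℝ) / 2) * (1 + D ^ 2) ^ (-(k : ℝ) / 4) := by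
    intro z hz z' hz'
    rw [norm_mul, norm_mul, RCLike.norm_conj, lin_gauss]
    have h1 : ‖ε z‖ * ‖ε' z'‖ ≤ 1 := by
      calc ‖ε z‖ * ‖ε' z'‖ ≤ 1 * 1 := mul_le_mul (hε z hz) (hε' z' hz') (norm_nonneg _) zero_le_one
        _ = 1 := one_mul _
    have h2 : Real.exp (-‖(z - z').1‖ ^ 2 / (4 * (1 + (z - z').2 ^ 2))) ≤ 1 := by
      rw [Real.exp_le_one_iff]
      apply div_nonpos_of_nonpos_of_nonneg
      · have := sq_nonneg ‖(z - z').1‖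
        linarith
      · positivity
    have h3 : (1 + (z - z').2 ^ 2) ^ (-(k : ℝ) / 4) ≤ (1 + D ^ 2) ^ (-(k : ℝ) / 4) := by
      apply Real.rpow_le_rpow_of_nonpos (by positivity)
      · have := hYY z hz z' hz'
        have e : (z - z').2 ^ 2 = |z.2 - z'.2| ^ 2 := by rw [sq_abs]; rfl
        rw [e]
        have := pow_le_pow_left₀ hD this 2
        linarith
      · have : (0 : ℝ) ≤ k := Nat.cast_nonneg k
        linarith
    have hp : 0 ≤ Real.pi ^ ((k : ℝ) / 2) := by positivity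
    have hq : 0 ≤ (1 + (z - z').2 ^ 2) ^ (-(k : ℝ) / 4) := by positivity
    calc ‖ε z‖ * ‖ε' z'‖ * (Real.pi ^ ((k : ℝ) / 2) * (1 + (z - z').2 ^ 2) ^ (-(k : ℝ) / 4) * Real.exp (-‖(z - z').1‖ ^ 2 / (4 * (1 + (z - z').2 ^ 2))))
        ≤ 1 * (Real.pi ^ ((k : ℝ) / 2) * (1 + D ^ 2) ^ (-(k : ℝ) / 4) * 1) := by
          refine mul_le_mul h1 ?_ (by positivity) zero_le_one
          refine mul_le_mul ?_ h2 (Real.exp_pos _).le (by positivity)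
          exact mul_le_mul_of_nonneg_left h3 hp
      _ = _ := by ring
  calc ‖∑ z ∈ Y, ∑ z' ∈ Y', ε z * (starRingEnd ℂ) (ε' z') * linG (z - z')‖
      ≤ ∑ z ∈ Y, ∑ z' ∈ Y', ‖ε z * (starRingEnd ℂ) (ε' z') * linG (z - z')‖ :=
        (norm_sum_le _ _).trans (Finset.sum_le_sum fun z _ => norm_sum_le _ _)
    _ ≤ ∑ z ∈ Y, ∑ z' ∈ Y', Real.pi ^ ((k : ℝ) / 2) * (1 + D ^ 2) ^ (-(k : ℝ) / 4) :=
        Finset.sum_le_sum fun z hz => Finset.sum_le_sum fun z' hz' => hterm z hz z' hz'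
    _ = _ := by
        simp only [Finset.sum_const, nsmul_eq_mul]
        ring

theorem lin_count_near (I : Finset ℤ) (a : ℤ) (D : ℝ) (hD : 0 ≤ D) :
    ((I.filter fun a' => ((|a - a'| : ℤ) : ℝ) ≤ D + 1).card : ℝ) ≤ 2 * D + 3 := by
  obtain ⟨m, hm⟩ : ∃ m : ℤ, m = ⌊D + 1⌋ := ⟨_, rfl⟩
  have hsub : I.filter (fun a' => ((|a - a'| : ℤ) : ℝ) ≤ D + 1) ⊆ Finset.Icc (a - m) (a + m) := by
    intro a' ha'
    rw [Finset.mem_filter] at ha'
    have h1 : |a - a'| ≤ m := by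
      rw [hm]
      exact Int.le_floor.2 ha'.2
    rw [abs_le] at h1
    rw [Finset.mem_Icc]
    constructor <;> omega
  have hcard := Finset.card_le_card hsub
  rw [Int.card_Icc] at hcard
  have hm0 : 0 ≤ m := by
    rw [hm]
    exact Int.floor_nonneg.2 (by linarith)
  have e1 : ((a + m + 1 - (a - m)).toNat : ℝ) = 2 * m + 1 := by
    have e : a + m + 1 - (a - m) = 2 * m + 1 := by ring
    rw [e]
    have h2 : ((2 * m + 1).toNat : ℤ) = 2 * m + 1 := Int.toNat_of_nonneg (by omega)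
    exact_mod_cast h2
  have hmD : (m : ℝ) ≤ D + 1 := by
    rw [hm]
    exact Int.floor_le _
  calc ((I.filter fun a' => ((|a - a'| : ℤ) : ℝ) ≤ D + 1).card : ℝ) ≤ ((a + m + 1 - (a - m)).toNat : ℝ) := by exact_mod_cast hcard
    _ = 2 * m + 1 := e1
    _ ≤ _ := by linarith

/-- **L-LIN-SUM** (real numbers only).  `n = ∑ n_a`; if `n = 0` trivial; `D = n^(2/(k+2)) ≥ 1`.  Pairs with `|a - a'| ≤ D + 1`: `√(n_a n_a') ≤ (n_a + n_a')/2`, at most `2D + 3` values of `a'` for each `a`: `≤ C₁ (2D+3) n ≤ 5 C₁ D n`.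
Pairs with `|a - a'| > D + 1`: `(|a - a'| - 1)^(-k/2) ≤ D^(-k/2)`: `≤ C₁ D^(-k/2) n²`.   `D n = D^(-k/2) n² = n^((k+4)/(k+2))`. -/
theorem lin_sum_abs (hk : 1 ≤ k) (C₁ : ℝ) (hC₁ : 0 ≤ C₁) (I : Finset ℤ) (n : ℤ → ℕ) (g : ℤ → ℤ → ℝ)
    (h1 : ∀ a ∈ I, ∀ a' ∈ I, g a a' ≤ C₁ * Real.sqrt (n a * n a'))
    (h2 : ∀ a ∈ I, ∀ a' ∈ I, 2 ≤ |a - a'| → g a a' ≤ C₁ * (((|a - a'| : ℤ) : ℝ) - 1) ^ (-(k : ℝ) / 2) * (n a * n a')) :
    ∑ a ∈ I, ∑ a' ∈ I, g a a' ≤ 6 * C₁ * ((∑ a ∈ I, n a : ℕ) : ℝ) ^ (((k : ℝ) + 4) / ((k : ℝ) + 2)) := by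
  classical
  obtain ⟨N, hN⟩ : ∃ N : ℝ, N = ((∑ a ∈ I, n a : ℕ) : ℝ) := ⟨_, rfl⟩
  have hNs : N = ∑ a ∈ I, (n a : ℝ) := by
    rw [hN]
    push_cast
    rfl
  rw [← hN]
  have hkr : (1 : ℝ) ≤ k := by exact_mod_cast hk
  have hexp : 0 < ((k : ℝ) + 4) / ((k : ℝ) + 2) := by positivity
  rcases Nat.eq_zero_or_pos (∑ a ∈ I, n a) with h0 | h0
  · have hz : ∀ a ∈ I, n a = 0 := Finset.sum_eq_zero_iff.1 h0
    have hN0 : N = 0 := by
      rw [hN, h0]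
      simp
    rw [hN0, Real.zero_rpow hexp.ne', mul_zero]
    refine Finset.sum_nonpos fun a ha => Finset.sum_nonpos fun a' ha' => ?_
    have := h1 a ha a' ha'
    rw [hz a ha] at this
    simpa using this
  · have hN1 : 1 ≤ N := by
      rw [hN]
      exact_mod_cast h0
    have hN0 : 0 < N := by linarith
    obtain ⟨D, hD⟩ : ∃ D : ℝ, D = N ^ (2 / ((k : ℝ) + 2)) := ⟨_, rfl⟩
    have hD1 : 1 ≤ D := by
      rw [hD]
      exact Real.one_le_rpow hN1 (by positivity)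
    have hD0 : 0 < D := by linarith
    obtain ⟨χ, hχ⟩ : ∃ χ : ℤ → ℤ → ℝ, χ = fun a a' => if ((|a - a'| : ℤ) : ℝ) ≤ D + 1 then 1 else 0 := ⟨_, rfl⟩
    obtain ⟨δ, hδ⟩ : ∃ δ : ℝ, δ = D ^ (-(k : ℝ) / 2) := ⟨_, rfl⟩
    have hδ0 : 0 ≤ δ := by rw [hδ]; positivity
    have hpt : ∀ a ∈ I, ∀ a' ∈ I, g a a' ≤ C₁ * (χ a a' * ((n a : ℝ) / 2) + χ a a' * ((n a' : ℝ) / 2) + δ * ((n a : ℝ) * n a')) := by
      intro a ha a' ha'
      have hnn : 0 ≤ δ * ((n a : ℝ) * n a') := by positivity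
      by_cases hc : ((|a - a'| : ℤ) : ℝ) ≤ D + 1
      · have e : χ a a' = 1 := by rw [hχ]; exact if_pos hc
        rw [e]
        refine (h1 a ha a' ha').trans (mul_le_mul_of_nonneg_left ?_ hC₁)
        have hs : Real.sqrt (n a * n a') ≤ ((n a : ℝ) + n a') / 2 :=
          Real.sqrt_le_iff.2 ⟨by positivity, by nlinarith [sq_nonneg ((n a : ℝ) - n a')]⟩
        linarith
      · have e : χ a a' = 0 := by rw [hχ]; exact if_neg hc
        rw [e, zero_mul, zero_mul, zero_add, zero_add]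
        push Not at hc
        have h2' : (2 : ℤ) ≤ |a - a'| := by
          have h3 : (2 : ℝ) < ((|a - a'| : ℤ) : ℝ) := by linarith
          have h4 : (2 : ℤ) < |a - a'| := by exact_mod_cast h3
          omega
        refine (h2 a ha a' ha' h2').trans ?_
        rw [mul_assoc]
        refine mul_le_mul_of_nonneg_left ?_ hC₁
        refine mul_le_mul_of_nonneg_right ?_ (by positivity)
        rw [hδ]
        exact Real.rpow_le_rpow_of_nonpos hD0 (by linarith) (by linarith)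
    have hrow : ∀ a, ∑ a' ∈ I, χ a a' ≤ 2 * D + 3 := by
      intro a
      rw [hχ]
      simp only [Finset.sum_boole]
      exact lin_count_near I a D hD0.le
    have hcol : ∀ a', ∑ a ∈ I, χ a a' ≤ 2 * D + 3 := by
      intro a'
      have e : ∀ a, χ a a' = χ a' a := by
        intro a
        rw [hχ]
        simp only [abs_sub_comm]
      simp_rw [e]
      exact hrow a'
    have S1 : ∑ a ∈ I, ∑ a' ∈ I, χ a a' * ((n a : ℝ) / 2) ≤ (2 * D + 3) * (N / 2) := by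
      calc ∑ a ∈ I, ∑ a' ∈ I, χ a a' * ((n a : ℝ) / 2) = ∑ a ∈ I, (∑ a' ∈ I, χ a a') * ((n a : ℝ) / 2) := by
            simp_rw [Finset.sum_mul]
        _ ≤ ∑ a ∈ I, (2 * D + 3) * ((n a : ℝ) / 2) :=
            Finset.sum_le_sum fun a _ => mul_le_mul_of_nonneg_right (hrow a) (by positivity)
        _ = _ := by rw [← Finset.mul_sum, ← Finset.sum_div, ← hNs]
    have S2 : ∑ a ∈ I, ∑ a' ∈ I, χ a a' * ((n a' : ℝ) / 2) ≤ (2 * D + 3) * (N / 2) := by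
      rw [Finset.sum_comm]
      calc ∑ a' ∈ I, ∑ a ∈ I, χ a a' * ((n a' : ℝ) / 2) = ∑ a' ∈ I, (∑ a ∈ I, χ a a') * ((n a' : ℝ) / 2) := by
            simp_rw [Finset.sum_mul]
        _ ≤ ∑ a' ∈ I, (2 * D + 3) * ((n a' : ℝ) / 2) :=
            Finset.sum_le_sum fun a _ => mul_le_mul_of_nonneg_right (hcol a) (by positivity)
        _ = _ := by rw [← Finset.mul_sum, ← Finset.sum_div, ← hNs]
    have S3 : ∑ a ∈ I, ∑ a' ∈ I, δ * ((n a : ℝ) * n a') = δ * N ^ 2 := by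
      simp_rw [← Finset.mul_sum]
      rw [← Finset.sum_mul, ← hNs]
      ring
    have hp1 : D * N = N ^ (((k : ℝ) + 4) / ((k : ℝ) + 2)) := by
      rw [hD]
      nth_rewrite 2 [← Real.rpow_one N]
      rw [← Real.rpow_add hN0]
      congr 1
      field_simp
      ring
    have hp2 : δ * N ^ 2 = N ^ (((k : ℝ) + 4) / ((k : ℝ) + 2)) := by
      rw [hδ, hD, ← Real.rpow_mul hN0.le, ← Real.rpow_natCast N 2, ← Real.rpow_add hN0]
      congr 1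
      push_cast
      field_simp
      ring
    calc ∑ a ∈ I, ∑ a' ∈ I, g a a'
        ≤ ∑ a ∈ I, ∑ a' ∈ I, C₁ * (χ a a' * ((n a : ℝ) / 2) + χ a a' * ((n a' : ℝ) / 2) + δ * ((n a : ℝ) * n a')) :=
          Finset.sum_le_sum fun a ha => Finset.sum_le_sum fun a' ha' => hpt a ha a' ha'
      _ = C₁ * (∑ a ∈ I, ∑ a' ∈ I, χ a a' * ((n a : ℝ) / 2) + ∑ a ∈ I, ∑ a' ∈ I, χ a a' * ((n a' : ℝ) / 2)
            + ∑ a ∈ I, ∑ a' ∈ I, δ * ((n a : ℝ) * n a')) := by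
          simp only [Finset.mul_sum, mul_add, Finset.sum_add_distrib]
      _ ≤ C₁ * ((2 * D + 3) * (N / 2) + (2 * D + 3) * (N / 2) + δ * N ^ 2) := by
          rw [S3]
          refine mul_le_mul_of_nonneg_left ?_ hC₁
          linarith
      _ ≤ C₁ * (5 * (D * N) + δ * N ^ 2) := by
          refine mul_le_mul_of_nonneg_left ?_ hC₁
          nlinarith
      _ = _ := by
          rw [hp1, hp2]
          ring

theorem lin_gauss_integrable : Integrable fun ξ : E k => Real.exp (-‖ξ‖ ^ 2) := by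
  have h := (lin_integrable (0 : ST k)).norm
  refine h.congr (Filter.Eventually.of_forall fun ξ => ?_)
  simp only [norm_mul, Complex.norm_real, Real.norm_eq_abs, abs_of_pos (Real.exp_pos _), norm_car, mul_one]

theorem lin_car_cont (z : ST k) : Continuous fun ξ : E k => car ξ z := by
  unfold car
  fun_prop

theorem lin_H_cont (Y : Finset (ST k)) (ε : ST k → ℂ) : Continuous fun ξ : E k => ∑ z ∈ Y, ε z * car ξ z :=
  continuous_finsetSum _ fun z _ => continuous_const.mul (lin_car_cont z)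

theorem lin_H_bdd (Y : Finset (ST k)) (ε : ST k → ℂ) (ξ : E k) : ‖∑ z ∈ Y, ε z * car ξ z‖ ≤ ∑ z ∈ Y, ‖ε z‖ := by
  refine (norm_sum_le _ _).trans (le_of_eq ?_)
  refine Finset.sum_congr rfl fun z _ => ?_
  rw [norm_mul, norm_car, mul_one]

theorem lin_int_sq (Y : Finset (ST k)) (ε : ST k → ℂ) :
    Integrable fun ξ : E k => Real.exp (-‖ξ‖ ^ 2) * ‖∑ z ∈ Y, ε z * car ξ z‖ ^ 2 := by
  refine lin_gauss_integrable.mul_bdd (c := (∑ z ∈ Y, ‖ε z‖) ^ 2) ?_ (Filter.Eventually.of_forall fun ξ => ?_)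
  · exact ((lin_H_cont Y ε).norm.pow 2).aestronglyMeasurable
  · rw [Real.norm_eq_abs, abs_of_nonneg (by positivity)]
    exact pow_le_pow_left₀ (norm_nonneg _) (lin_H_bdd Y ε ξ) 2

/-- Cauchy-Schwarz in `L²(e^{-|ξ|²} dξ)` -/
theorem lin_cs (Y Y' : Finset (ST k)) (ε ε' : ST k → ℂ) (A B : ℝ) (hA0 : 0 < A) (hB0 : 0 < B)
    (hA : ∫ ξ : E k, Real.exp (-‖ξ‖ ^ 2) * ‖∑ z ∈ Y, ε z * car ξ z‖ ^ 2 ≤ A)
    (hB : ∫ ξ : E k, Real.exp (-‖ξ‖ ^ 2) * ‖∑ z ∈ Y', ε' z * car ξ z‖ ^ 2 ≤ B) :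
    ‖∫ ξ : E k, ((Real.exp (-‖ξ‖ ^ 2) : ℝ) : ℂ) * ((∑ z ∈ Y, ε z * car ξ z) * (starRingEnd ℂ) (∑ z ∈ Y', ε' z * car ξ z))‖
      ≤ Real.sqrt (A * B) := by
  obtain ⟨α, hα⟩ : ∃ α : ℝ, α = Real.sqrt A := ⟨_, rfl⟩
  obtain ⟨β, hβ⟩ : ∃ β : ℝ, β = Real.sqrt B := ⟨_, rfl⟩
  have hα0 : 0 < α := by rw [hα]; exact Real.sqrt_pos.2 hA0
  have hβ0 : 0 < β := by rw [hβ]; exact Real.sqrt_pos.2 hB0
  have hαA : α ^ 2 = A := by rw [hα]; exact Real.sq_sqrt hA0.le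
  have hβB : β ^ 2 = B := by rw [hβ]; exact Real.sq_sqrt hB0.le
  have hi := ((lin_int_sq Y ε).const_mul (β / α / 2)).add ((lin_int_sq Y' ε').const_mul (α / β / 2))
  refine (norm_integral_le_integral_norm _).trans ?_
  calc ∫ ξ : E k, ‖((Real.exp (-‖ξ‖ ^ 2) : ℝ) : ℂ) * ((∑ z ∈ Y, ε z * car ξ z) * (starRingEnd ℂ) (∑ z ∈ Y', ε' z * car ξ z))‖
      ≤ ∫ ξ : E k, (β / α / 2 * (Real.exp (-‖ξ‖ ^ 2) * ‖∑ z ∈ Y, ε z * car ξ z‖ ^ 2)
          + α / β / 2 * (Real.exp (-‖ξ‖ ^ 2) * ‖∑ z ∈ Y', ε' z * car ξ z‖ ^ 2)) := by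
        refine integral_mono_of_nonneg (Filter.Eventually.of_forall fun ξ => norm_nonneg _) hi (Filter.Eventually.of_forall fun ξ => ?_)
        simp only [norm_mul, RCLike.norm_conj, Complex.norm_real, Real.norm_eq_abs, abs_of_pos (Real.exp_pos _)]
        obtain ⟨x, hx⟩ : ∃ x : ℝ, x = ‖∑ z ∈ Y, ε z * car ξ z‖ := ⟨_, rfl⟩
        obtain ⟨y, hy⟩ : ∃ y : ℝ, y = ‖∑ z ∈ Y', ε' z * car ξ z‖ := ⟨_, rfl⟩
        rw [← hx, ← hy]
        have h1 : x * y ≤ β / α / 2 * x ^ 2 + α / β / 2 * y ^ 2 := by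
          have h2 : β / α / 2 * x ^ 2 + α / β / 2 * y ^ 2 - x * y = (β * x - α * y) ^ 2 / (2 * α * β) := by
            field_simp
            ring
          have h3 : 0 ≤ (β * x - α * y) ^ 2 / (2 * α * β) := by positivity
          linarith
        have := mul_le_mul_of_nonneg_left h1 (Real.exp_pos (-‖ξ‖ ^ 2)).le
        calc Real.exp (-‖ξ‖ ^ 2) * (x * y) ≤ Real.exp (-‖ξ‖ ^ 2) * (β / α / 2 * x ^ 2 + α / β / 2 * y ^ 2) := this
          _ = _ := by ring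
    _ = β / α / 2 * (∫ ξ : E k, Real.exp (-‖ξ‖ ^ 2) * ‖∑ z ∈ Y, ε z * car ξ z‖ ^ 2)
          + α / β / 2 * (∫ ξ : E k, Real.exp (-‖ξ‖ ^ 2) * ‖∑ z ∈ Y', ε' z * car ξ z‖ ^ 2) := by
        rw [integral_add ((lin_int_sq Y ε).const_mul _) ((lin_int_sq Y' ε').const_mul _), integral_const_mul, integral_const_mul]
    _ ≤ β / α / 2 * A + α / β / 2 * B :=
        add_le_add (mul_le_mul_of_nonneg_left hA (by positivity)) (mul_le_mul_of_nonneg_left hB (by positivity))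
    _ = Real.sqrt (A * B) := by
        rw [Real.sqrt_mul hA0.le, ← hα, ← hβ, ← hαA, ← hβB]
        field_simp
        ring

/-- **L-LIN-TOMAS: the discrete Tomas inequality.**  Slabs `Y_a = Y.filter (⌊z.2⌋ = a)`, `I = Y.image (⌊·.2⌋)`, `H_a = ∑_{Y_a} ε_z car ξ z`; `‖∑_a H_a‖² = ∑_a ∑_a' Re (H_a conj H_a')`; `g a a' = Re ∫ e^{-|ξ|²} H_a conj H_a'`.
`h1`: Cauchy-Schwarz in `L²(e^{-|ξ|²} dξ)` + `lin_slab`;   `h2`: `lin_cross` with `D = |a - a'| - 1`, `(1 + D²)^(-k/4) ≤ D^(-k/2)`;   `lin_sum_abs`. -/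
theorem lin_tomas (hk : 1 ≤ k) : ∃ C : ℝ, 0 ≤ C ∧ ∀ (Y : Finset (ST k)) (ε : ST k → ℂ), USep Y → (∀ z ∈ Y, ‖ε z‖ ≤ 1) →
    ∫ ξ : E k, Real.exp (-‖ξ‖ ^ 2) * ‖∑ z ∈ Y, ε z * car ξ z‖ ^ 2 ≤ C * (Y.card : ℝ) ^ (((k : ℝ) + 4) / ((k : ℝ) + 2)) := by
  classical
  obtain ⟨Cs, hCs0, hCs⟩ := lin_slab k
  obtain ⟨C₁, hC₁⟩ : ∃ C₁ : ℝ, C₁ = Cs + 1 + Real.pi ^ ((k : ℝ) / 2) := ⟨_, rfl⟩
  have hpi : 0 ≤ Real.pi ^ ((k : ℝ) / 2) := by positivity
  have hC₁0 : 0 ≤ C₁ := by rw [hC₁]; positivity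
  refine ⟨6 * C₁, by positivity, fun Y ε hY hε => ?_⟩
  obtain ⟨I, hI⟩ : ∃ I : Finset ℤ, I = Y.image fun z => ⌊z.2⌋ := ⟨_, rfl⟩
  obtain ⟨Ya, hYa⟩ : ∃ Ya : ℤ → Finset (ST k), Ya = fun a => Y.filter fun z => ⌊z.2⌋ = a := ⟨_, rfl⟩
  obtain ⟨G, hG⟩ : ∃ G : ℤ → ℤ → ℂ, G = fun a a' => ∫ ξ : E k, ((Real.exp (-‖ξ‖ ^ 2) : ℝ) : ℂ) *
      ((∑ z ∈ Ya a, ε z * car ξ z) * (starRingEnd ℂ) (∑ z ∈ Ya a', ε z * car ξ z)) := ⟨_, rfl⟩
  have hmaps : ∀ z ∈ Y, ⌊z.2⌋ ∈ I := fun z hz => by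
    rw [hI]
    exact Finset.mem_image_of_mem (fun z : ST k => ⌊z.2⌋) hz
  have hmem : ∀ a z, z ∈ Ya a ↔ z ∈ Y ∧ ⌊z.2⌋ = a := fun a z => by
    rw [hYa]
    exact Finset.mem_filter
  have hsum : ((∫ ξ : E k, Real.exp (-‖ξ‖ ^ 2) * ‖∑ z ∈ Y, ε z * car ξ z‖ ^ 2 : ℝ) : ℂ) = ∑ a ∈ I, ∑ a' ∈ I, G a a' := by
    rw [lin_sq_eq, hG]
    simp only [lin_gram]
    rw [← Finset.sum_fiberwise_of_maps_to (s := Y) (t := I) (g := fun z => ⌊z.2⌋) hmaps]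
    refine Finset.sum_congr rfl fun a _ => ?_
    conv_rhs => rw [Finset.sum_comm]
    rw [hYa]
    refine Finset.sum_congr rfl fun z _ => ?_
    exact (Finset.sum_fiberwise_of_maps_to (s := Y) (t := I) (g := fun z => ⌊z.2⌋) hmaps _).symm
  have hre : ∫ ξ : E k, Real.exp (-‖ξ‖ ^ 2) * ‖∑ z ∈ Y, ε z * car ξ z‖ ^ 2 = ∑ a ∈ I, ∑ a' ∈ I, (G a a').re := by
    have := congrArg Complex.re hsum
    simpa [Complex.re_sum] using this
  have hcard : Y.card = ∑ a ∈ I, (Ya a).card := by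
    rw [hYa]
    exact Finset.card_eq_sum_card_fiberwise hmaps
  have hpos : ∀ a ∈ I, 1 ≤ (Ya a).card := by
    intro a ha
    rw [hI] at ha
    obtain ⟨z, hz, hza⟩ := Finset.mem_image.1 ha
    exact Finset.card_pos.2 ⟨z, (hmem a z).2 ⟨hz, hza⟩⟩
  have hslab : ∀ a, ∫ ξ : E k, Real.exp (-‖ξ‖ ^ 2) * ‖∑ z ∈ Ya a, ε z * car ξ z‖ ^ 2 ≤ (Cs + 1) * (Ya a).card := by
    intro a
    refine (hCs (Ya a) ε ?_ ?_ ?_).trans ?_
    · intro z hz z' hz' hne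
      exact hY z ((hmem a z).1 hz).1 z' ((hmem a z').1 hz').1 hne
    · intro z hz z' hz'
      have h1 := ((hmem a z).1 hz).2
      have h2 := ((hmem a z').1 hz').2
      have a1 := Int.floor_le z.2
      have a2 := Int.lt_floor_add_one z.2
      have b1 := Int.floor_le z'.2
      have b2 := Int.lt_floor_add_one z'.2
      rw [h1] at a1 a2
      rw [h2] at b1 b2
      rw [abs_lt]
      constructor <;> linarith
    · intro z hz
      exact hε z ((hmem a z).1 hz).1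
    · refine mul_le_mul_of_nonneg_right (by linarith) (Nat.cast_nonneg _)
  rw [hre, hcard]
  refine lin_sum_abs hk C₁ hC₁0 I (fun a => (Ya a).card) (fun a a' => (G a a').re) ?_ ?_
  · intro a ha a' ha'
    have n1 : (1 : ℝ) ≤ (Ya a).card := by exact_mod_cast hpos a ha
    have n2 : (1 : ℝ) ≤ (Ya a').card := by exact_mod_cast hpos a' ha'
    have h1 := lin_cs (Ya a) (Ya a') ε ε ((Cs + 1) * (Ya a).card) ((Cs + 1) * (Ya a').card) (by positivity) (by positivity) (hslab a) (hslab a')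
    have e : (Cs + 1) * ((Ya a).card : ℝ) * ((Cs + 1) * ((Ya a').card : ℝ)) = (Cs + 1) ^ 2 * (((Ya a).card : ℝ) * (Ya a').card) := by ring
    rw [e, Real.sqrt_mul (by positivity), Real.sqrt_sq (by positivity)] at h1
    calc (G a a').re ≤ ‖G a a'‖ := Complex.re_le_norm _
      _ ≤ (Cs + 1) * Real.sqrt (((Ya a).card : ℝ) * (Ya a').card) := by rw [hG]; exact h1
      _ ≤ C₁ * Real.sqrt (((Ya a).card : ℝ) * (Ya a').card) := by
          refine mul_le_mul_of_nonneg_right ?_ (Real.sqrt_nonneg _)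
          rw [hC₁]
          linarith
  · intro a ha a' ha' h2
    obtain ⟨D, hD⟩ : ∃ D : ℝ, D = ((|a - a'| : ℤ) : ℝ) - 1 := ⟨_, rfl⟩
    have h2r : (2 : ℝ) ≤ ((|a - a'| : ℤ) : ℝ) := by exact_mod_cast h2
    have hD1 : 1 ≤ D := by rw [hD]; linarith
    have hD0 : 0 < D := by linarith
    have h1 := lin_cross (Ya a) (Ya a') ε ε hD0.le (by
      intro z hz z' hz'
      have h1 := ((hmem a z).1 hz).2
      have h2 := ((hmem a' z').1 hz').2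
      have a1 := Int.floor_le z.2
      have a2 := Int.lt_floor_add_one z.2
      have b1 := Int.floor_le z'.2
      have b2 := Int.lt_floor_add_one z'.2
      rw [h1] at a1 a2
      rw [h2] at b1 b2
      rw [hD]
      push_cast
      rcases abs_cases ((a : ℝ) - a') with ⟨e, _⟩ | ⟨e, _⟩
      · rw [e]
        exact le_trans (by linarith) (le_abs_self _)
      · rw [e]
        exact le_trans (by linarith) (neg_le_abs _))
      (fun z hz => hε z ((hmem a z).1 hz).1) (fun z hz => hε z ((hmem a' z).1 hz).1)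
    have h3 : (1 + D ^ 2) ^ (-(k : ℝ) / 4) ≤ D ^ (-(k : ℝ) / 2) := by
      have e : D ^ (-(k : ℝ) / 2) = (D ^ 2) ^ (-(k : ℝ) / 4) := by
        rw [← Real.rpow_natCast D 2, ← Real.rpow_mul hD0.le]
        congr 1
        push_cast
        ring
      rw [e]
      refine Real.rpow_le_rpow_of_nonpos (by positivity) (by linarith) ?_
      have : (0 : ℝ) ≤ k := Nat.cast_nonneg k
      linarith
    rw [← hD]
    calc (G a a').re ≤ ‖G a a'‖ := Complex.re_le_norm _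
      _ ≤ Real.pi ^ ((k : ℝ) / 2) * (1 + D ^ 2) ^ (-(k : ℝ) / 4) * (Ya a).card * (Ya a').card := by rw [hG]; exact h1
      _ ≤ C₁ * D ^ (-(k : ℝ) / 2) * (Ya a).card * (Ya a').card := by
          refine mul_le_mul_of_nonneg_right (mul_le_mul_of_nonneg_right ?_ (Nat.cast_nonneg _)) (Nat.cast_nonneg _)
          refine mul_le_mul ?_ h3 (by positivity) hC₁0
          rw [hC₁]
          linarith
      _ = _ := by ring

theorem lin_ch_split (z : ST k) (ξ : E k) (s : ℝ) : BD.ch (BD.pr z ((ξ, s - ‖ξ‖ ^ 2) : ST k)) = BD.ch (z.2 * s) * car ξ z := by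
  unfold car BD.ch BD.pr
  rw [← Complex.exp_add]
  congr 1
  push_cast
  ring

/-- the transformed integrand -/
noncomputable def linPhi (r : ℝ) (Y : Finset (ST k)) (ε : ST k → ℂ) (ξ : E k) (σ : ℝ) : ℝ :=
  Real.exp (-σ ^ 2) * (Real.exp (-‖ξ‖ ^ 2) * ‖∑ z ∈ Y, (ε z * BD.ch (z.2 * (r⁻¹ * σ))) * car ξ z‖ ^ 2)

theorem lin_thick_inner {r : ℝ} (hr : 0 < r) (Y : Finset (ST k)) (ε : ST k → ℂ) (ξ : E k) :
    ∫ τ : ℝ, Real.exp (-‖ξ‖ ^ 2) * Real.exp (-(r * (τ + ‖ξ‖ ^ 2)) ^ 2) * ‖∑ z ∈ Y, ε z * BD.ch (BD.pr z ((ξ, τ) : ST k))‖ ^ 2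
      = r⁻¹ * ∫ σ : ℝ, linPhi r Y ε ξ σ := by
  obtain ⟨h, hh⟩ : ∃ h : ℝ → ℝ, h = fun τ => Real.exp (-‖ξ‖ ^ 2) * Real.exp (-(r * (τ + ‖ξ‖ ^ 2)) ^ 2) *
      ‖∑ z ∈ Y, ε z * BD.ch (BD.pr z ((ξ, τ) : ST k))‖ ^ 2 := ⟨_, rfl⟩
  have e1 : ∫ τ, h τ = ∫ τ, h (τ - ‖ξ‖ ^ 2) := (integral_sub_right_eq_self h (‖ξ‖ ^ 2)).symm
  have e2 := Measure.integral_comp_mul_left (fun τ => h (τ - ‖ξ‖ ^ 2)) r⁻¹
  rw [inv_inv, abs_of_pos hr, smul_eq_mul] at e2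
  have e3 : ∀ σ, h (r⁻¹ * σ - ‖ξ‖ ^ 2) = linPhi r Y ε ξ σ := by
    intro σ
    rw [hh]
    unfold linPhi
    simp only [lin_ch_split]
    have a1 : r * (r⁻¹ * σ - ‖ξ‖ ^ 2 + ‖ξ‖ ^ 2) = σ := by
      field_simp
      ring
    rw [a1]
    have a2 : ∀ z : ST k, ε z * (BD.ch (z.2 * (r⁻¹ * σ)) * car ξ z) = ε z * BD.ch (z.2 * (r⁻¹ * σ)) * car ξ z := fun z => by ring
    simp only [a2]
    ring
  simp only [e3] at e2
  have e4 : (∫ τ : ℝ, Real.exp (-‖ξ‖ ^ 2) * Real.exp (-(r * (τ + ‖ξ‖ ^ 2)) ^ 2) * ‖∑ z ∈ Y, ε z * BD.ch (BD.pr z ((ξ, τ) : ST k))‖ ^ 2)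
      = ∫ τ, h τ := by rw [hh]
  rw [e4, e1, e2]
  field_simp

theorem lin_Phi_cont (r : ℝ) (Y : Finset (ST k)) (ε : ST k → ℂ) : Continuous fun p : E k × ℝ => linPhi r Y ε p.1 p.2 := by
  unfold linPhi car BD.ch
  fun_prop

theorem lin_Phi_integrable (r : ℝ) (Y : Finset (ST k)) (ε : ST k → ℂ) :
    Integrable (Function.uncurry (linPhi r Y ε)) ((volume : Measure (E k)).prod (volume : Measure ℝ)) := by
  have hg : Integrable fun σ : ℝ => Real.exp (-σ ^ 2) := by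
    have := integrable_exp_neg_mul_sq (b := 1) one_pos
    simpa using this
  have hm := ((lin_gauss_integrable (k := k)).mul_prod hg).mul_const ((∑ z ∈ Y, ‖ε z‖) ^ 2)
  refine hm.mono' (lin_Phi_cont r Y ε).aestronglyMeasurable (Filter.Eventually.of_forall fun p => ?_)
  simp only [Function.uncurry]
  unfold linPhi
  rw [Real.norm_eq_abs, abs_of_nonneg (by positivity)]
  have h1 : ‖∑ z ∈ Y, (ε z * BD.ch (z.2 * (r⁻¹ * p.2))) * car p.1 z‖ ≤ ∑ z ∈ Y, ‖ε z‖ := by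
    refine (lin_H_bdd Y _ p.1).trans (le_of_eq ?_)
    refine Finset.sum_congr rfl fun z _ => ?_
    rw [norm_mul, BD.norm_ch, mul_one]
  have h2 := pow_le_pow_left₀ (norm_nonneg _) h1 2
  calc Real.exp (-p.2 ^ 2) * (Real.exp (-‖p.1‖ ^ 2) * ‖∑ z ∈ Y, (ε z * BD.ch (z.2 * (r⁻¹ * p.2))) * car p.1 z‖ ^ 2)
      ≤ Real.exp (-p.2 ^ 2) * (Real.exp (-‖p.1‖ ^ 2) * (∑ z ∈ Y, ‖ε z‖) ^ 2) :=
        mul_le_mul_of_nonneg_left (mul_le_mul_of_nonneg_left h2 (Real.exp_pos _).le) (Real.exp_pos _).le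
    _ = _ := by ring

/-- **L-LIN-THICK: the neighbourhood of thickness `1/r` of the paraboloid `τ = -|ξ|²`.**  `volume` on `ST k` is the product measure: integrate in `τ` first, substitute `τ = -|ξ|² + σ/r` (`integral_comp_mul_add`-type lemmas),
`ch (pr z (ξ, -|ξ|² + σ/r)) = car ξ z * e^{i t σ/r}`; swap (Tonelli, nonnegative integrand); for fixed `σ`: `lin_tomas` with `ε_z e^{i z.2 σ/r}`; `∫ e^{-σ²} dσ = √π`. -/
theorem lin_thick (hk : 1 ≤ k) : ∃ C : ℝ, 0 ≤ C ∧ ∀ (r : ℝ) (Y : Finset (ST k)) (ε : ST k → ℂ), 0 < r → USep Y → (∀ z ∈ Y, ‖ε z‖ ≤ 1) →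
    ∫ w : ST k, Real.exp (-‖w.1‖ ^ 2) * Real.exp (-(r * (w.2 + ‖w.1‖ ^ 2)) ^ 2) * ‖∑ z ∈ Y, ε z * BD.ch (BD.pr z w)‖ ^ 2 ≤
      C * r⁻¹ * (Y.card : ℝ) ^ (((k : ℝ) + 4) / ((k : ℝ) + 2)) := by
  obtain ⟨C, hC0, hC⟩ := lin_tomas hk
  refine ⟨C * Real.sqrt Real.pi, by positivity, fun r Y ε hr hY hε => ?_⟩
  obtain ⟨M, hM⟩ : ∃ M : ℝ, M = C * (Y.card : ℝ) ^ (((k : ℝ) + 4) / ((k : ℝ) + 2)) := ⟨_, rfl⟩
  have hM0 : 0 ≤ M := by rw [hM]; positivity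
  have hgoal : C * Real.sqrt Real.pi * r⁻¹ * (Y.card : ℝ) ^ (((k : ℝ) + 4) / ((k : ℝ) + 2)) = r⁻¹ * (M * Real.sqrt Real.pi) := by
    rw [hM]
    ring
  rw [hgoal]
  by_cases hint : Integrable (fun w : ST k => Real.exp (-‖w.1‖ ^ 2) * Real.exp (-(r * (w.2 + ‖w.1‖ ^ 2)) ^ 2) * ‖∑ z ∈ Y, ε z * BD.ch (BD.pr z w)‖ ^ 2)
  swap
  · rw [integral_undef hint]
    positivity
  rw [show (volume : Measure (ST k)) = (volume : Measure (E k)).prod (volume : Measure ℝ) from rfl] at hint ⊢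
  rw [integral_prod _ hint]
  simp only [lin_thick_inner hr]
  rw [integral_const_mul, integral_integral_swap (lin_Phi_integrable r Y ε)]
  refine mul_le_mul_of_nonneg_left ?_ (by positivity)
  have hg : Integrable fun σ : ℝ => Real.exp (-σ ^ 2) := by
    have := integrable_exp_neg_mul_sq (b := 1) one_pos
    simpa using this
  have hgi : ∫ σ : ℝ, Real.exp (-σ ^ 2) = Real.sqrt Real.pi := by
    have := integral_gaussian 1
    simpa using this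
  calc ∫ σ : ℝ, ∫ ξ : E k, linPhi r Y ε ξ σ ≤ ∫ σ : ℝ, M * Real.exp (-σ ^ 2) := by
        refine integral_mono_of_nonneg (Filter.Eventually.of_forall fun σ => integral_nonneg fun ξ => ?_) (hg.const_mul M)
          (Filter.Eventually.of_forall fun σ => ?_)
        · unfold linPhi
          positivity
        · simp only
          unfold linPhi
          rw [integral_const_mul, mul_comm M]
          refine mul_le_mul_of_nonneg_left ?_ (Real.exp_pos _).le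
          rw [hM]
          refine hC Y _ hY fun z hz => ?_
          rw [norm_mul, BD.norm_ch, mul_one]
          exact hε z hz
    _ = M * Real.sqrt Real.pi := by rw [integral_const_mul, hgi]

section dens
variable {V : Type} [NormedAddCommGroup V] [InnerProductSpace ℝ V] [FiniteDimensional ℝ V] [MeasurableSpace V] [BorelSpace V]

omit [FiniteDimensional ℝ V] [MeasurableSpace V] [BorelSpace V] in
theorem lin_pr_sub (z y w : V × ℝ) : BD.pr (z - y) w = BD.pr z w + -(BD.pr y w) := by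
  unfold BD.pr
  rw [Prod.fst_sub, Prod.snd_sub, inner_sub_left]
  ring

omit [FiniteDimensional ℝ V] [MeasurableSpace V] [BorelSpace V] in
theorem lin_cont_chpr : Continuous fun p : (V × ℝ) × (V × ℝ) => BD.ch (BD.pr p.1 p.2) :=
  BD.bdb_continuous_ch.comp BD.bdb_continuous_pr

/-- product of two one-factor integrals -/
theorem lin_prod_int (f₁ : V → ℂ) (f₂ : ℝ → ℂ) (u : V × ℝ) (σ : ℝ) :
    ∫ w : V × ℝ, BD.ch (σ * BD.pr u w) * (f₁ w.1 * f₂ w.2) =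
      (∫ w : V, BD.ch (σ * inner ℝ u.1 w) * f₁ w) * ∫ w : ℝ, BD.ch (σ * inner ℝ u.2 w) * f₂ w := by
  have e := integral_prod_mul (μ := (volume : Measure V)) (ν := (volume : Measure ℝ))
    (fun w => BD.ch (σ * inner ℝ u.1 w) * f₁ w) (fun w => BD.ch (σ * inner ℝ u.2 w) * f₂ w)
  rw [← Measure.volume_eq_prod] at e
  rw [← e]
  refine integral_congr_ae (Filter.Eventually.of_forall fun w => ?_)
  show BD.ch (σ * BD.pr u w) * (f₁ w.1 * f₂ w.2) = BD.ch (σ * inner ℝ u.1 w.1) * f₁ w.1 * (BD.ch (σ * inner ℝ u.2 w.2) * f₂ w.2)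
  have : (inner ℝ u.2 w.2 : ℝ) = u.2 * w.2 := by simp [mul_comm]
  rw [BD.pr, mul_add, BD.bdb_ch_add, this]
  ring

theorem lin_density0_gen : ∃ C : ℝ, 0 ≤ C ∧ ∀ F : V × ℝ → ℂ, BD.FS (closedBall (0 : V × ℝ) 1) F → Integrable F →
    ∃ g : V × ℝ → ℂ, Continuous g ∧ (∀ w, ‖g w‖ ≤ C * ∫ z, ‖F z‖) ∧ (∀ w, w ∉ closedBall (0 : V × ℝ) 2 → g w = 0) ∧
      ∀ z, F z = ∫ w, BD.ch (BD.pr z w) * g w := by
  obtain ⟨φ₁, K₁, c₁, hφ₁c, hφ₁n, hφ₁1, hφ₁0, hK₁c, hK₁, hK₁d, hc₁, hinv₁⟩ := BD.exists_bump_pair V one_pos one_lt_two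
  obtain ⟨φ₂, K₂, c₂, hφ₂c, hφ₂n, hφ₂1, hφ₂0, hK₂c, hK₂, hK₂d, hc₂, hinv₂⟩ := BD.exists_bump_pair ℝ one_pos one_lt_two
  refine ⟨c₁ * c₂, by positivity, ?_⟩
  rintro F ⟨g₀, hg₀, hg₀0, hF⟩ hFint
  -- the product bump and its kernel
  have hφint : Integrable (fun w : V × ℝ => ((φ₁ w.1 : ℝ) : ℂ) * ((φ₂ w.2 : ℝ) : ℂ)) := by
    rw [Measure.volume_eq_prod]
    exact (BD.bde_int_phi hφ₁c hφ₁0).ofReal.mul_prod (BD.bde_int_phi hφ₂c hφ₂0).ofReal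
  have hKint : Integrable (fun u : V × ℝ => K₁ u.1 * K₂ u.2) := by
    rw [Measure.volume_eq_prod]
    exact (BD.bde_int_K hK₁c hK₁d).mul_prod (BD.bde_int_K hK₂c hK₂d)
  have hKrep : ∀ u : V × ℝ, K₁ u.1 * K₂ u.2 = ∫ w : V × ℝ, BD.ch (BD.pr u w) * (((φ₁ w.1 : ℝ) : ℂ) * ((φ₂ w.2 : ℝ) : ℂ)) := by
    intro u
    have := lin_prod_int (fun w => ((φ₁ w : ℝ) : ℂ)) (fun w => ((φ₂ w : ℝ) : ℂ)) u 1
    simp only [one_mul] at this
    rw [this, hK₁, hK₂]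
  have hφrep : ∀ w : V × ℝ, ((φ₁ w.1 : ℝ) : ℂ) * ((φ₂ w.2 : ℝ) : ℂ) =
      ((c₁ * c₂ : ℝ) : ℂ) * ∫ u : V × ℝ, BD.ch (-(BD.pr u w)) * (K₁ u.1 * K₂ u.2) := by
    intro w
    have h := lin_prod_int K₁ K₂ w (-1)
    have e1 : ∀ u : V × ℝ, BD.ch (-1 * BD.pr w u) = BD.ch (-(BD.pr u w)) := by
      intro u
      rw [BD.bdu_pr_comm w u]; congr 1; ring
    have e2 : ∀ u : V, BD.ch (-1 * inner ℝ w.1 u) = BD.ch (-inner ℝ u w.1) := by
      intro u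
      rw [real_inner_comm]; congr 1; ring
    have e3 : ∀ u : ℝ, BD.ch (-1 * inner ℝ w.2 u) = BD.ch (-inner ℝ u w.2) := by
      intro u
      rw [real_inner_comm]; congr 1; ring
    simp only [e1, e2, e3] at h
    rw [h, hinv₁, hinv₂]
    push_cast
    ring
  -- the transform of `F`
  have hFh : BD.FS (Set.univ : Set (V × ℝ)) (fun w : V × ℝ => ∫ y, BD.ch (BD.pr w y) * F (-y)) :=
    ⟨fun y => F (-y), hFint.comp_neg, fun w hw => absurd (Set.mem_univ w) hw, fun _ => rfl⟩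
  have hFh_eq : ∀ w : V × ℝ, ∫ y, BD.ch (BD.pr w y) * F (-y) = ∫ y, BD.ch (-(BD.pr y w)) * F y := by
    intro w
    rw [← integral_neg_eq_self]
    refine integral_congr_ae (Filter.Eventually.of_forall fun y => ?_)
    show BD.ch (BD.pr w (-y)) * F (- -y) = BD.ch (-(BD.pr y w)) * F y
    rw [neg_neg, BD.bdu_pr_comm w (-y)]
    congr 2
    unfold BD.pr
    simp only [Prod.fst_neg, Prod.snd_neg, inner_neg_left]
    ring
  have hFh_le : ∀ w : V × ℝ, ‖∫ y, BD.ch (-(BD.pr y w)) * F y‖ ≤ ∫ z, ‖F z‖ := by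
    intro w
    refine (norm_integral_le_integral_norm _).trans (le_of_eq ?_)
    congr 1
    ext y
    rw [norm_mul, BD.norm_ch, one_mul]
  refine ⟨fun w => ((c₁ * c₂ : ℝ) : ℂ) * ((((φ₁ w.1 : ℝ) : ℂ) * ((φ₂ w.2 : ℝ) : ℂ)) * ∫ y, BD.ch (-(BD.pr y w)) * F y), ?_, ?_, ?_, ?_⟩
  · have h1 : Continuous fun w : V × ℝ => ∫ y, BD.ch (-(BD.pr y w)) * F y := by
      have := hFh.continuous
      simpa only [hFh_eq] using this
    have h2 : Continuous fun w : V × ℝ => ((φ₁ w.1 : ℝ) : ℂ) * ((φ₂ w.2 : ℝ) : ℂ) :=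
      (Complex.continuous_ofReal.comp (hφ₁c.comp continuous_fst)).mul (Complex.continuous_ofReal.comp (hφ₂c.comp continuous_snd))
    exact continuous_const.mul (h2.mul h1)
  · intro w
    rw [norm_mul, norm_mul, norm_mul, Complex.norm_real, Complex.norm_real, Complex.norm_real, Real.norm_of_nonneg (by positivity : 0 ≤ c₁ * c₂),
      Real.norm_of_nonneg (hφ₁n _).1, Real.norm_of_nonneg (hφ₂n _).1]
    have h0 : 0 ≤ ∫ z, ‖F z‖ := integral_nonneg fun _ => norm_nonneg _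
    have h1 : φ₁ w.1 * φ₂ w.2 ≤ 1 := mul_le_one₀ (hφ₁n _).2 (hφ₂n _).1 (hφ₂n _).2
    have h2 : 0 ≤ φ₁ w.1 * φ₂ w.2 := mul_nonneg (hφ₁n _).1 (hφ₂n _).1
    have h3 : φ₁ w.1 * φ₂ w.2 * ‖∫ y, BD.ch (-(BD.pr y w)) * F y‖ ≤ 1 * ∫ z, ‖F z‖ :=
      mul_le_mul h1 (hFh_le w) (norm_nonneg _) zero_le_one
    rw [one_mul] at h3
    exact mul_le_mul_of_nonneg_left h3 (by positivity)
  · intro w hw
    rw [Metric.mem_closedBall, dist_zero_right, Prod.norm_def, max_le_iff, not_and_or, not_le, not_le] at hw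
    rcases hw with hw | hw
    · simp only [hφ₁0 _ hw.le]; simp
    · simp only [hφ₂0 _ hw.le]; simp
  · intro z
    -- first Fubini
    have hint1 : Integrable (Function.uncurry fun (w u : V × ℝ) => BD.ch (BD.pr (z - u) w) * (g₀ w * (K₁ u.1 * K₂ u.2))) (volume.prod volume) := by
      have h0 : Integrable (fun p : (V × ℝ) × (V × ℝ) => g₀ p.1 * (K₁ p.2.1 * K₂ p.2.2)) (volume.prod volume) := hg₀.mul_prod hKint
      refine h0.bdd_mul (c := 1) ?_ ?_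
      · have : Continuous fun p : (V × ℝ) × (V × ℝ) => BD.ch (BD.pr (z - p.2) p.1) :=
          lin_cont_chpr.comp ((continuous_const.sub continuous_snd).prodMk continuous_fst)
        exact this.aestronglyMeasurable
      · exact Filter.Eventually.of_forall fun p => (BD.norm_ch _).le
    have hint2 : Integrable (Function.uncurry fun (y w : V × ℝ) => BD.ch (BD.pr (z - y) w) * (F y * (((φ₁ w.1 : ℝ) : ℂ) * ((φ₂ w.2 : ℝ) : ℂ)))) (volume.prod volume) := by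
      have h0 : Integrable (fun p : (V × ℝ) × (V × ℝ) => F p.1 * (((φ₁ p.2.1 : ℝ) : ℂ) * ((φ₂ p.2.2 : ℝ) : ℂ))) (volume.prod volume) := hFint.mul_prod hφint
      refine h0.bdd_mul (c := 1) ?_ ?_
      · have : Continuous fun p : (V × ℝ) × (V × ℝ) => BD.ch (BD.pr (z - p.1) p.2) :=
          lin_cont_chpr.comp ((continuous_const.sub continuous_fst).prodMk continuous_snd)
        exact this.aestronglyMeasurable
      · exact Filter.Eventually.of_forall fun p => (BD.norm_ch _).le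
    calc F z = ∫ w, BD.ch (BD.pr z w) * g₀ w := hF z
      _ = ∫ w, ((c₁ * c₂ : ℝ) : ℂ) * ∫ u : V × ℝ, BD.ch (BD.pr (z - u) w) * (g₀ w * (K₁ u.1 * K₂ u.2)) := by
          refine integral_congr_ae (Filter.Eventually.of_forall fun w => ?_)
          show BD.ch (BD.pr z w) * g₀ w = ((c₁ * c₂ : ℝ) : ℂ) * ∫ u : V × ℝ, BD.ch (BD.pr (z - u) w) * (g₀ w * (K₁ u.1 * K₂ u.2))
          by_cases hw : w ∈ closedBall (0 : V × ℝ) 1
          · have hw' := hw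
            rw [Metric.mem_closedBall, dist_zero_right, Prod.norm_def, max_le_iff] at hw'
            have h1 := hφrep w
            rw [hφ₁1 _ hw'.1, hφ₂1 _ hw'.2] at h1
            have : ∀ u : V × ℝ, BD.ch (BD.pr (z - u) w) * (g₀ w * (K₁ u.1 * K₂ u.2)) =
                (BD.ch (BD.pr z w) * g₀ w) * (BD.ch (-(BD.pr u w)) * (K₁ u.1 * K₂ u.2)) := by
              intro u
              rw [lin_pr_sub, BD.bdb_ch_add]
              ring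
            simp only [this]
            rw [integral_const_mul, mul_left_comm, ← h1]
            simp
          · simp [hg₀0 w hw]
      _ = ((c₁ * c₂ : ℝ) : ℂ) * ∫ w, ∫ u : V × ℝ, BD.ch (BD.pr (z - u) w) * (g₀ w * (K₁ u.1 * K₂ u.2)) := integral_const_mul _ _
      _ = ((c₁ * c₂ : ℝ) : ℂ) * ∫ u : V × ℝ, ∫ w, BD.ch (BD.pr (z - u) w) * (g₀ w * (K₁ u.1 * K₂ u.2)) := by
          rw [integral_integral_swap hint1]
      _ = ((c₁ * c₂ : ℝ) : ℂ) * ∫ u : V × ℝ, (K₁ u.1 * K₂ u.2) * F (z - u) := by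
          congr 1
          refine integral_congr_ae (Filter.Eventually.of_forall fun u => ?_)
          show ∫ w, BD.ch (BD.pr (z - u) w) * (g₀ w * (K₁ u.1 * K₂ u.2)) = (K₁ u.1 * K₂ u.2) * F (z - u)
          rw [hF (z - u), ← integral_const_mul]
          refine integral_congr_ae (Filter.Eventually.of_forall fun w => ?_)
          show BD.ch (BD.pr (z - u) w) * (g₀ w * (K₁ u.1 * K₂ u.2)) = (K₁ u.1 * K₂ u.2) * (BD.ch (BD.pr (z - u) w) * g₀ w)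
          ring
      _ = ((c₁ * c₂ : ℝ) : ℂ) * ∫ y : V × ℝ, (K₁ (z - y).1 * K₂ (z - y).2) * F y := by
          congr 1
          rw [← integral_sub_left_eq_self (fun u : V × ℝ => (K₁ u.1 * K₂ u.2) * F (z - u)) volume z]
          refine integral_congr_ae (Filter.Eventually.of_forall fun y => ?_)
          show (K₁ (z - y).1 * K₂ (z - y).2) * F (z - (z - y)) = (K₁ (z - y).1 * K₂ (z - y).2) * F y
          rw [sub_sub_cancel]
      _ = ((c₁ * c₂ : ℝ) : ℂ) * ∫ y : V × ℝ, ∫ w : V × ℝ, BD.ch (BD.pr (z - y) w) * (F y * (((φ₁ w.1 : ℝ) : ℂ) * ((φ₂ w.2 : ℝ) : ℂ))) := by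
          congr 1
          refine integral_congr_ae (Filter.Eventually.of_forall fun y => ?_)
          show (K₁ (z - y).1 * K₂ (z - y).2) * F y = ∫ w : V × ℝ, BD.ch (BD.pr (z - y) w) * (F y * (((φ₁ w.1 : ℝ) : ℂ) * ((φ₂ w.2 : ℝ) : ℂ)))
          rw [hKrep, mul_comm, ← integral_const_mul]
          refine integral_congr_ae (Filter.Eventually.of_forall fun w => ?_)
          show F y * (BD.ch (BD.pr (z - y) w) * (((φ₁ w.1 : ℝ) : ℂ) * ((φ₂ w.2 : ℝ) : ℂ))) = BD.ch (BD.pr (z - y) w) * (F y * (((φ₁ w.1 : ℝ) : ℂ) * ((φ₂ w.2 : ℝ) : ℂ)))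
          ring
      _ = ((c₁ * c₂ : ℝ) : ℂ) * ∫ w : V × ℝ, ∫ y : V × ℝ, BD.ch (BD.pr (z - y) w) * (F y * (((φ₁ w.1 : ℝ) : ℂ) * ((φ₂ w.2 : ℝ) : ℂ))) := by
          rw [integral_integral_swap hint2]
      _ = ∫ w : V × ℝ, BD.ch (BD.pr z w) * (((c₁ * c₂ : ℝ) : ℂ) * ((((φ₁ w.1 : ℝ) : ℂ) * ((φ₂ w.2 : ℝ) : ℂ)) * ∫ y, BD.ch (-(BD.pr y w)) * F y)) := by
          rw [← integral_const_mul]
          refine integral_congr_ae (Filter.Eventually.of_forall fun w => ?_)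
          show ((c₁ * c₂ : ℝ) : ℂ) * ∫ y : V × ℝ, BD.ch (BD.pr (z - y) w) * (F y * (((φ₁ w.1 : ℝ) : ℂ) * ((φ₂ w.2 : ℝ) : ℂ))) =
            BD.ch (BD.pr z w) * (((c₁ * c₂ : ℝ) : ℂ) * ((((φ₁ w.1 : ℝ) : ℂ) * ((φ₂ w.2 : ℝ) : ℂ)) * ∫ y, BD.ch (-(BD.pr y w)) * F y))
          have : ∀ y : V × ℝ, BD.ch (BD.pr (z - y) w) * (F y * (((φ₁ w.1 : ℝ) : ℂ) * ((φ₂ w.2 : ℝ) : ℂ))) =
              (BD.ch (BD.pr z w) * (((φ₁ w.1 : ℝ) : ℂ) * ((φ₂ w.2 : ℝ) : ℂ))) * (BD.ch (-(BD.pr y w)) * F y) := by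
            intro y
            rw [lin_pr_sub, BD.bdb_ch_add]
            ring
          simp only [this]
          rw [integral_const_mul]
          ring

/-- affine substitution -/
theorem lin_subst {X : Type} [NormedAddCommGroup X] [NormedSpace ℝ X] (f : V × ℝ → X) (w₀ : V × ℝ) {ϱ : ℝ} (hϱ : 0 < ϱ) :
    ∫ w', f (w₀ + ϱ • w') = (ϱ ^ Module.finrank ℝ (V × ℝ))⁻¹ • ∫ w, f w := by
  have h1 := Measure.integral_comp_smul_of_nonneg (volume : Measure (V × ℝ)) (fun x => f (w₀ + x)) ϱ (hR := hϱ.le)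
  rw [h1, integral_add_left_eq_self]

omit [FiniteDimensional ℝ V] [MeasurableSpace V] [BorelSpace V] in
theorem lin_pr_smul_left (c : ℝ) (z w : V × ℝ) : BD.pr (c • z) w = c * BD.pr z w := by
  unfold BD.pr
  rw [Prod.smul_fst, Prod.smul_snd, real_inner_smul_left, smul_eq_mul]
  ring

omit [FiniteDimensional ℝ V] [MeasurableSpace V] [BorelSpace V] in
theorem lin_pr_smul_right (c : ℝ) (z w : V × ℝ) : BD.pr z (c • w) = c * BD.pr z w := by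
  rw [BD.bdu_pr_comm, lin_pr_smul_left, BD.bdu_pr_comm]

theorem lin_density_gen : ∃ C : ℝ, 0 ≤ C ∧ ∀ (w₀ : V × ℝ) (ϱ : ℝ) (F : V × ℝ → ℂ), 0 < ϱ → BD.FS (closedBall w₀ ϱ) F → Integrable F →
    ∃ g : V × ℝ → ℂ, Continuous g ∧ (∀ w, ‖g w‖ ≤ C * ∫ z, ‖F z‖) ∧ (∀ w, w ∉ closedBall w₀ (2 * ϱ) → g w = 0) ∧
      ∀ z, F z = ∫ w, BD.ch (BD.pr z w) * g w := by
  obtain ⟨C, hC, h0⟩ := lin_density0_gen (V := V)
  refine ⟨C, hC, ?_⟩
  rintro w₀ ϱ F hϱ ⟨g₀, hg₀, hg₀0, hF⟩ hFint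
  set d := Module.finrank ℝ (V × ℝ) with hd
  have hϱd : 0 < ϱ ^ d := pow_pos hϱ d
  have hϱi : 0 < ϱ⁻¹ := inv_pos.2 hϱ
  -- the rescaled function
  have hFt : BD.FS (closedBall (0 : V × ℝ) 1) (fun z => BD.ch (-(BD.pr (ϱ⁻¹ • z) w₀)) * F (ϱ⁻¹ • z)) := by
    refine ⟨fun w' => ((ϱ ^ d : ℝ) : ℂ) * g₀ (w₀ + ϱ • w'), ?_, ?_, ?_⟩
    · refine Integrable.const_mul ?_ _
      have h1 : Integrable fun x => g₀ (w₀ + x) := hg₀.comp_add_left w₀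
      exact h1.comp_smul hϱ.ne'
    · intro w hw
      show ((ϱ ^ d : ℝ) : ℂ) * g₀ (w₀ + ϱ • w) = 0
      rw [hg₀0, mul_zero]
      intro hmem
      apply hw
      rw [Metric.mem_closedBall, dist_eq_norm, add_sub_cancel_left, norm_smul, Real.norm_of_nonneg hϱ.le] at hmem
      rw [Metric.mem_closedBall, dist_zero_right]
      have : ϱ * ‖w‖ ≤ ϱ * 1 := by rw [mul_one]; exact hmem
      exact le_of_mul_le_mul_left this hϱ
    · intro z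
      have h1 := lin_subst (fun w => BD.ch (BD.pr (ϱ⁻¹ • z) w) * g₀ w) w₀ hϱ
      show BD.ch (-(BD.pr (ϱ⁻¹ • z) w₀)) * F (ϱ⁻¹ • z) = ∫ w, BD.ch (BD.pr z w) * (((ϱ ^ d : ℝ) : ℂ) * g₀ (w₀ + ϱ • w))
      rw [hF (ϱ⁻¹ • z)]
      have h2 : ∫ w, BD.ch (BD.pr (ϱ⁻¹ • z) w) * g₀ w = ((ϱ ^ d : ℝ) : ℂ) * ∫ w', BD.ch (BD.pr (ϱ⁻¹ • z) (w₀ + ϱ • w')) * g₀ (w₀ + ϱ • w') := by
        rw [h1, Complex.real_smul, ← mul_assoc, ← Complex.ofReal_mul, mul_inv_cancel₀ hϱd.ne', Complex.ofReal_one, one_mul]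
      rw [h2, ← integral_const_mul, ← integral_const_mul]
      refine integral_congr_ae (Filter.Eventually.of_forall fun w' => ?_)
      show BD.ch (-(BD.pr (ϱ⁻¹ • z) w₀)) * (((ϱ ^ d : ℝ) : ℂ) * (BD.ch (BD.pr (ϱ⁻¹ • z) (w₀ + ϱ • w')) * g₀ (w₀ + ϱ • w'))) =
        BD.ch (BD.pr z w') * (((ϱ ^ d : ℝ) : ℂ) * g₀ (w₀ + ϱ • w'))
      have e : BD.pr z w' = -(BD.pr (ϱ⁻¹ • z) w₀) + BD.pr (ϱ⁻¹ • z) (w₀ + ϱ • w') := by
        rw [BD.pr_add_right, lin_pr_smul_right, lin_pr_smul_left ϱ⁻¹ z w']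
        field_simp
        ring
      rw [e, BD.ch_add]
      ring
  have hFtint : Integrable (fun z => BD.ch (-(BD.pr (ϱ⁻¹ • z) w₀)) * F (ϱ⁻¹ • z)) := by
    have h1 : Integrable fun z => F (ϱ⁻¹ • z) := hFint.comp_smul hϱi.ne'
    refine h1.bdd_mul (c := 1) ?_ ?_
    · have : Continuous fun z : V × ℝ => BD.ch (-(BD.pr (ϱ⁻¹ • z) w₀)) := by
        have h2 : Continuous fun z : V × ℝ => BD.pr (ϱ⁻¹ • z) w₀ :=
          BD.bdb_continuous_pr.comp ((continuous_id.const_smul ϱ⁻¹).prodMk continuous_const)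
        exact BD.bdb_continuous_ch.comp h2.neg
      exact this.aestronglyMeasurable
    · exact Filter.Eventually.of_forall fun p => (BD.norm_ch _).le
  have hnorm : ∫ z, ‖BD.ch (-(BD.pr (ϱ⁻¹ • z) w₀)) * F (ϱ⁻¹ • z)‖ = ϱ ^ d * ∫ z, ‖F z‖ := by
    have h1 := Measure.integral_comp_smul_of_nonneg (volume : Measure (V × ℝ)) (fun x => ‖F x‖) ϱ⁻¹ (hR := hϱi.le)
    simp only [norm_mul, BD.norm_ch, one_mul]
    rw [h1, smul_eq_mul, inv_pow, inv_inv]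
  obtain ⟨gt, hgc, hgb, hg0, hgF⟩ := h0 _ hFt hFtint
  refine ⟨fun w => (((ϱ ^ d)⁻¹ : ℝ) : ℂ) * gt (ϱ⁻¹ • (w - w₀)), ?_, ?_, ?_, ?_⟩
  · exact continuous_const.mul (hgc.comp ((continuous_id.sub continuous_const).const_smul ϱ⁻¹))
  · intro w
    rw [norm_mul, Complex.norm_real, Real.norm_of_nonneg (inv_nonneg.2 hϱd.le)]
    calc (ϱ ^ d)⁻¹ * ‖gt (ϱ⁻¹ • (w - w₀))‖ ≤ (ϱ ^ d)⁻¹ * (C * (ϱ ^ d * ∫ z, ‖F z‖)) := by
          rw [← hnorm]
          exact mul_le_mul_of_nonneg_left (hgb _) (inv_nonneg.2 hϱd.le)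
      _ = C * ∫ z, ‖F z‖ := by field_simp
  · intro w hw
    simp only
    rw [hg0, mul_zero]
    intro hmem
    apply hw
    rw [Metric.mem_closedBall, dist_zero_right, norm_smul, Real.norm_of_nonneg hϱi.le] at hmem
    rw [Metric.mem_closedBall, dist_eq_norm]
    rw [inv_mul_le_iff₀ hϱ] at hmem
    linarith
  · intro z
    have h1 : F z = BD.ch (BD.pr z w₀) * (BD.ch (-(BD.pr (ϱ⁻¹ • (ϱ • z)) w₀)) * F (ϱ⁻¹ • (ϱ • z))) := by
      rw [smul_smul, inv_mul_cancel₀ hϱ.ne', one_smul, ← mul_assoc, ← BD.ch_add, add_neg_cancel]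
      simp [BD.ch]
    rw [h1, hgF (ϱ • z)]
    have h2 := lin_subst (fun w => BD.ch (BD.pr z w) * ((((ϱ ^ d)⁻¹ : ℝ) : ℂ) * gt (ϱ⁻¹ • (w - w₀)))) w₀ hϱ
    have h3 : ∫ w, BD.ch (BD.pr z w) * ((((ϱ ^ d)⁻¹ : ℝ) : ℂ) * gt (ϱ⁻¹ • (w - w₀))) =
        ((ϱ ^ d : ℝ) : ℂ) * ∫ w', BD.ch (BD.pr z (w₀ + ϱ • w')) * ((((ϱ ^ d)⁻¹ : ℝ) : ℂ) * gt (ϱ⁻¹ • (w₀ + ϱ • w' - w₀))) := by
      rw [h2, Complex.real_smul, ← mul_assoc, ← Complex.ofReal_mul, mul_inv_cancel₀ hϱd.ne', Complex.ofReal_one, one_mul]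
    rw [h3, ← integral_const_mul, ← integral_const_mul]
    refine integral_congr_ae (Filter.Eventually.of_forall fun w' => ?_)
    show BD.ch (BD.pr z w₀) * (BD.ch (BD.pr (ϱ • z) w') * gt w') =
      ((ϱ ^ d : ℝ) : ℂ) * (BD.ch (BD.pr z (w₀ + ϱ • w')) * ((((ϱ ^ d)⁻¹ : ℝ) : ℂ) * gt (ϱ⁻¹ • (w₀ + ϱ • w' - w₀))))
    rw [add_sub_cancel_left, smul_smul, inv_mul_cancel₀ hϱ.ne', one_smul, BD.pr_add_right, BD.ch_add, lin_pr_smul_right, lin_pr_smul_left]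
    have : ((ϱ ^ d : ℝ) : ℂ) * (((ϱ ^ d)⁻¹ : ℝ) : ℂ) = 1 := by
      rw [← Complex.ofReal_mul, mul_inv_cancel₀ hϱd.ne', Complex.ofReal_one]
    calc BD.ch (BD.pr z w₀) * (BD.ch (ϱ * BD.pr z w') * gt w') = (BD.ch (BD.pr z w₀) * (BD.ch (ϱ * BD.pr z w') * gt w')) * 1 := (mul_one _).symm
      _ = _ := by rw [← this]; ring

end dens

/-- **L-LIN-DENS0: bounded Fourier density, unit ball.**  `(φ₁, K₁, c₁)`, `(φ₂, K₂, c₂)` of `BD.exists_bump_pair` on `E k` and on `ℝ` with `r₁ = 1`, `r₂ = 2`; `φ w = φ₁ w.1 φ₂ w.2` (`= 1` on `closedBall 0 1`, `= 0` off `closedBall 0 2`: sup norm).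
`g w := c₁ c₂ φ w ∫ F y ch (-pr y w) dy`  (continuous in `w`: dominated convergence; `‖g w‖ ≤ c₁ c₂ ∫ ‖F‖`).   With `g₀` the density of `FS`: `F z = ∫ ch (pr z w') φ w' g₀ w'`, `φ w' = c₁ c₂ ∫ ch (-pr u w') K₁ u.1 K₂ u.2 du`, so (Fubini)
`F z = c₁ c₂ ∫ K(u) F(z - u) du = c₁ c₂ ∫ K(z - y) F y dy`, `K(z - y) = ∫ ch (pr (z - y) w) φ w dw`, Fubini again (`F`, `φ` integrable). -/
theorem lin_density0 (k : ℕ) : ∃ C : ℝ, 0 ≤ C ∧ ∀ F : ST k → ℂ, BD.FS (closedBall (0 : ST k) 1) F → Integrable F →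
    ∃ g : ST k → ℂ, Continuous g ∧ (∀ w, ‖g w‖ ≤ C * ∫ z, ‖F z‖) ∧ (∀ w, w ∉ closedBall (0 : ST k) 2 → g w = 0) ∧ ∀ z, F z = ∫ w, BD.ch (BD.pr z w) * g w :=
  lin_density0_gen

/-- **L-LIN-DENS: every ball, SAME constant** (scaling).  `F̃ z = ch (-pr (ϱ⁻¹ z) w₀) F (ϱ⁻¹ z) ∈ FS (closedBall 0 1)` (`FS.modulate`, `FS.lin` with `v = 0`, `a = b = ϱ⁻¹`, or directly from the definition of `FS` by the substitution `w = w₀ + ϱ w'`);
`∫ ‖F̃‖ = ϱ^(k+1) ∫ ‖F‖`;  `g w = ϱ^(-(k+1)) g̃ (ϱ⁻¹ (w - w₀))`. -/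
theorem lin_density (k : ℕ) : ∃ C : ℝ, 0 ≤ C ∧ ∀ (w₀ : ST k) (ϱ : ℝ) (F : ST k → ℂ), 0 < ϱ → BD.FS (closedBall w₀ ϱ) F → Integrable F →
    ∃ g : ST k → ℂ, Continuous g ∧ (∀ w, ‖g w‖ ≤ C * ∫ z, ‖F z‖) ∧ (∀ w, w ∉ closedBall w₀ (2 * ϱ) → g w = 0) ∧ ∀ z, F z = ∫ w, BD.ch (BD.pr z w) * g w :=
  lin_density_gen

theorem lin_car_eq (v : E k) (z : ST k) : car v z = BD.ch (BD.pr z ((v, -‖v‖ ^ 2) : ST k)) := by
  unfold car BD.ch BD.pr
  congr 1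
  rw [mul_comm]
  congr 2
  simp only
  ring

theorem lin_natX_eq (N : ℝ) (v : E k) (z : ST k) : natX N v z = BD.Lam (-v) N⁻¹ (N ^ 2)⁻¹ z := by
  unfold natX BD.Lam
  ext1
  · simp only [smul_neg, sub_eq_add_neg]
  · simp only [div_eq_inv_mul]

theorem lin_finrank_ST (k : ℕ) : Module.finrank ℝ (ST k) = k + 1 := by
  rw [Module.finrank_prod, finrank_euclideanSpace_fin, Module.finrank_self]

/-- the Fourier support of a packet -/
theorem lin_pk_fs {K : PCls} (hρ : 0 ≤ K.ρ) {A : PFam k ι} {s : Finset ι} {a : ι → ℝ} (h : A.In s K a) {T : ι} (hT : T ∈ s) :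
    BD.FS (closedBall ((A.v T, -‖A.v T‖ ^ 2) : ST k) ((1 + 2 * K.C₀) * K.ρ / A.N)) (A.pk T) := by
  have hN := h.one_le
  have hN0 : 0 < A.N := by linarith
  have hC := h.C₀_nonneg hT
  have h2 := (h.fs T hT).lin (-(A.v T)) (a := A.N⁻¹) (b := (A.N ^ 2)⁻¹) (by positivity) (by positivity)
  have h3 := h2.modulate ((A.v T, -‖A.v T‖ ^ 2) : ST k)
  have e : A.pk T = fun z => BD.ch (BD.pr z ((A.v T, -‖A.v T‖ ^ 2) : ST k)) * A.F T (BD.Lam (-(A.v T)) A.N⁻¹ (A.N ^ 2)⁻¹ z) := by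
    funext z
    unfold PFam.pk
    rw [lin_car_eq, lin_natX_eq]
  rw [e]
  refine h3.mono ?_
  rintro _ ⟨_, ⟨w, hw, rfl⟩, rfl⟩
  rw [mem_closedBall_zero_iff, Prod.norm_def, max_le_iff] at hw
  rw [Metric.mem_closedBall, dist_eq_norm, add_sub_cancel_left]
  unfold BD.LamT
  rw [Prod.norm_def]
  have hv := h.freq T hT
  have hNi : A.N⁻¹ ≤ 1 := inv_le_one_of_one_le₀ hN
  have hNi0 : 0 < A.N⁻¹ := by positivity
  apply max_le
  · simp only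
    rw [norm_smul, Real.norm_of_nonneg hNi0.le, div_eq_mul_inv, mul_comm]
    apply mul_le_mul_of_nonneg_right _ hNi0.le
    nlinarith [hw.1]
  · simp only
    rw [Real.norm_eq_abs]
    have h5 : |inner ℝ (-(A.v T)) w.1| ≤ K.C₀ * K.ρ := by
      refine (abs_real_inner_le_norm _ _).trans ?_
      rw [norm_neg]
      exact mul_le_mul hv hw.1 (norm_nonneg _) hC
    have h6 : |w.2| ≤ K.ρ := by simpa using hw.2
    have h7 : (A.N ^ 2)⁻¹ ≤ A.N⁻¹ := by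
      rw [pow_two, mul_inv]
      exact mul_le_of_le_one_left hNi0.le hNi
    calc |2 * A.N⁻¹ * inner ℝ (-(A.v T)) w.1 + (A.N ^ 2)⁻¹ * w.2|
        ≤ |2 * A.N⁻¹ * inner ℝ (-(A.v T)) w.1| + |(A.N ^ 2)⁻¹ * w.2| := abs_add_le _ _
      _ = 2 * A.N⁻¹ * |inner ℝ (-(A.v T)) w.1| + (A.N ^ 2)⁻¹ * |w.2| := by
          rw [abs_mul (2 * A.N⁻¹), abs_mul ((A.N ^ 2)⁻¹), abs_of_pos (by positivity : (0:ℝ) < 2 * A.N⁻¹), abs_of_pos (by positivity : (0:ℝ) < (A.N ^ 2)⁻¹)]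
      _ ≤ 2 * A.N⁻¹ * (K.C₀ * K.ρ) + A.N⁻¹ * K.ρ := by
          have : (A.N ^ 2)⁻¹ * |w.2| ≤ A.N⁻¹ * K.ρ := mul_le_mul h7 h6 (abs_nonneg _) hNi0.le
          have h8 : 2 * A.N⁻¹ * |inner ℝ (-(A.v T)) w.1| ≤ 2 * A.N⁻¹ * (K.C₀ * K.ρ) := mul_le_mul_of_nonneg_left h5 (by positivity)
          linarith
      _ = (1 + 2 * K.C₀) * K.ρ / A.N := by rw [div_eq_mul_inv]; ring

/-- **L-LIN-LOCAL: one localised packet.**  `car v z = ch (pr z (v, -|v|²))`, `natX N v = BD.Lam (-v) N⁻¹ (N⁻¹)²`: `A.pk T ∈ FS (closedBall (v, -|v|²) ((1 + 2 C₀) ρ / N))` (`FS.lin`, `FS.modulate`, `LamT`), `η((z - z₀)/(Cr N)) ∈ FS (closedBall 0 (1/(Cr N)))` (`FS.dilate`), `FS.mul`.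
`L¹` norm: `‖A.pk T z‖ ≤ a_T (1 + d_T z)^(-P') ≤ a_T (1 + d_T z₀)^(-P') (1 + (1 + 2 C₀)|z - z₀|/N)^(P')` (Peetre, `Pk/Api` A4), `‖η y‖ ≤ C_M (1 + |y|)^(-M)`, `M = P' + k + 2`, `BD.exists_lintegral_wt`. -/
theorem lin_local (K : PCls) (hρ : 0 ≤ K.ρ) (hP' : 0 ≤ K.P') (Cr : ℝ) (hCr : 0 < Cr) {η : ST k → ℂ} (hη : BD.FS (closedBall (0 : ST k) 1) η)
    (hηd : ∀ M : ℝ, ∃ C : ℝ, ∀ y, ‖η y‖ ≤ C * (1 + ‖y‖) ^ (-M)) :
    ∃ C : ℝ, 0 < C ∧ ∀ (ι : Type) (A : PFam k ι) (s : Finset ι) (a : ι → ℝ) (z₀ : ST k), A.In s K a → ∀ T ∈ s,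
      BD.FS (closedBall ((A.v T, -‖A.v T‖ ^ 2) : ST k) (C / A.N)) (fun z => η ((Cr * A.N)⁻¹ • (z - z₀)) * A.pk T z) ∧
      Integrable (fun z => η ((Cr * A.N)⁻¹ • (z - z₀)) * A.pk T z) ∧
      ∫ z, ‖η ((Cr * A.N)⁻¹ • (z - z₀)) * A.pk T z‖ ≤ C * A.N ^ ((k : ℝ) + 1) * a T * (1 + A.d T z₀) ^ (-K.P') := by
  obtain ⟨CM, hCM⟩ := hηd (K.P' + ((k : ℝ) + 2))
  have hCM0 : 0 ≤ CM := by
    have := hCM 0
    simp only [norm_zero, add_zero, Real.one_rpow, mul_one] at this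
    exact (norm_nonneg _).trans this
  set I : ℝ := ∫ y : ST k, (1 + ‖y‖) ^ (-((k : ℝ) + 2)) with hI
  have hIint : Integrable fun y : ST k => (1 + ‖y‖) ^ (-((k : ℝ) + 2)) := by
    apply integrable_one_add_norm
    rw [lin_finrank_ST]
    push_cast
    linarith
  have hI0 : 0 ≤ I := integral_nonneg fun y => by positivity
  set c0 : ℝ := max K.C₀ 0 with hc0
  have hc00 : 0 ≤ c0 := le_max_right _ _
  set B : ℝ := 1 + (1 + 2 * c0) * Cr with hB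
  have hB1 : 1 ≤ B := by
    have : 0 ≤ (1 + 2 * c0) * Cr := by positivity
    linarith
  set C1 : ℝ := (1 + 2 * c0) * K.ρ + 1 / Cr with hC1
  set C2 : ℝ := CM * B ^ K.P' * Cr ^ (k + 1) * I with hC2
  have hC10 : 0 ≤ C1 := by positivity
  have hC20 : 0 ≤ C2 := by positivity
  refine ⟨C1 + C2 + 1, by positivity, ?_⟩
  intro ι A s a z₀ h T hT
  have hN := h.one_le
  have hN0 : 0 < A.N := by linarith
  have hC := h.C₀_nonneg hT
  have hc0e : c0 = K.C₀ := max_eq_left hC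
  have ha := h.amp_nonneg hT
  have hR : 0 < Cr * A.N := by positivity
  have hFS : BD.FS (closedBall ((A.v T, -‖A.v T‖ ^ 2) : ST k) ((C1 + C2 + 1) / A.N)) (fun z => η ((Cr * A.N)⁻¹ • (z - z₀)) * A.pk T z) := by
    have h5 := (hη.dilate hR z₀).mul (lin_pk_fs hρ h hT)
    refine h5.mono ?_
    rintro _ ⟨x, hx, y, hy, rfl⟩
    rw [mem_closedBall_zero_iff] at hx
    rw [Metric.mem_closedBall, dist_eq_norm] at hy ⊢
    have e : x + y - ((A.v T, -‖A.v T‖ ^ 2) : ST k) = x + (y - ((A.v T, -‖A.v T‖ ^ 2) : ST k)) := by abel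
    rw [e]
    refine (norm_add_le _ _).trans ((add_le_add hx hy).trans ?_)
    rw [← hc0e, one_div, mul_inv, ← div_eq_mul_inv, ← add_div, ← one_div]
    apply div_le_div_of_nonneg_right _ hN0.le
    linarith
  have hbound : ∀ z, ‖η ((Cr * A.N)⁻¹ • (z - z₀)) * A.pk T z‖ ≤
      (CM * B ^ K.P' * a T * (1 + A.d T z₀) ^ (-K.P')) * (1 + ‖(Cr * A.N)⁻¹ • (z - z₀)‖) ^ (-((k : ℝ) + 2)) := by
    intro z
    set y := (Cr * A.N)⁻¹ • (z - z₀) with hy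
    have hyn : ‖z₀ - z‖ = Cr * A.N * ‖y‖ := by
      rw [hy, norm_smul, Real.norm_of_nonneg (inv_nonneg.2 hR.le), ← mul_assoc, mul_inv_cancel₀ hR.ne', one_mul, norm_sub_rev]
    have h1 := hCM y
    have h2 := h.norm_pk_le hT z
    have h3 := h.w_peetre hT hP' z z₀
    unfold PFam.w at h3
    have h4 : (1 + (1 + 2 * K.C₀) * ‖z₀ - z‖ / A.N) ^ K.P' ≤ B ^ K.P' * (1 + ‖y‖) ^ K.P' := by
      rw [← Real.mul_rpow (by positivity) (by positivity)]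
      apply Real.rpow_le_rpow (by positivity) _ hP'
      rw [hyn, hB, hc0e]
      have : (1 + 2 * K.C₀) * (Cr * A.N * ‖y‖) / A.N = (1 + 2 * K.C₀) * Cr * ‖y‖ := by field_simp
      rw [this]
      have h5 : 0 ≤ (1 + 2 * K.C₀) * Cr := by positivity
      nlinarith [norm_nonneg y]
    have hd0 : 0 ≤ (1 + A.d T z₀) ^ (-K.P') := Real.rpow_nonneg (by have := A.d_nonneg T z₀; positivity) _
    have hsplit : (1 + ‖y‖) ^ (-(K.P' + ((k : ℝ) + 2))) * (1 + ‖y‖) ^ K.P' = (1 + ‖y‖) ^ (-((k : ℝ) + 2)) := by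
      rw [← Real.rpow_add (by positivity)]
      congr 1
      ring
    rw [norm_mul]
    calc ‖η y‖ * ‖A.pk T z‖ ≤ (CM * (1 + ‖y‖) ^ (-(K.P' + ((k : ℝ) + 2)))) * (a T * (1 + A.d T z) ^ (-K.P')) :=
          mul_le_mul h1 h2 (norm_nonneg _) (by positivity)
      _ ≤ (CM * (1 + ‖y‖) ^ (-(K.P' + ((k : ℝ) + 2)))) * (a T * ((B ^ K.P' * (1 + ‖y‖) ^ K.P') * (1 + A.d T z₀) ^ (-K.P'))) := by
          apply mul_le_mul_of_nonneg_left _ (by positivity)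
          apply mul_le_mul_of_nonneg_left _ ha
          exact h3.trans (mul_le_mul_of_nonneg_right h4 hd0)
      _ = (CM * B ^ K.P' * a T * (1 + A.d T z₀) ^ (-K.P')) * ((1 + ‖y‖) ^ (-(K.P' + ((k : ℝ) + 2))) * (1 + ‖y‖) ^ K.P') := by ring
      _ = _ := by rw [hsplit]
  have hint0 : Integrable fun z : ST k => (1 + ‖(Cr * A.N)⁻¹ • (z - z₀)‖) ^ (-((k : ℝ) + 2)) :=
    (hIint.comp_smul (inv_ne_zero hR.ne')).comp_sub_right z₀
  have hval : ∫ z : ST k, (1 + ‖(Cr * A.N)⁻¹ • (z - z₀)‖) ^ (-((k : ℝ) + 2)) = (Cr * A.N) ^ (k + 1) * I := by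
    rw [integral_sub_right_eq_self (fun z : ST k => (1 + ‖(Cr * A.N)⁻¹ • z‖) ^ (-((k : ℝ) + 2))) z₀,
      Measure.integral_comp_smul_of_nonneg (volume : Measure (ST k)) (fun y : ST k => (1 + ‖y‖) ^ (-((k : ℝ) + 2))) (Cr * A.N)⁻¹ (hR := (inv_pos.2 hR).le),
      lin_finrank_ST, smul_eq_mul, inv_pow, inv_inv]
  have hint : Integrable (fun z => η ((Cr * A.N)⁻¹ • (z - z₀)) * A.pk T z) :=
    (hint0.const_mul _).mono' hFS.continuous.aestronglyMeasurable (Filter.Eventually.of_forall hbound)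
  refine ⟨hFS, hint, ?_⟩
  have hd0 : 0 ≤ (1 + A.d T z₀) ^ (-K.P') := Real.rpow_nonneg (by have := A.d_nonneg T z₀; positivity) _
  have hNk : A.N ^ ((k : ℝ) + 1) = A.N ^ (k + 1) := by
    rw [← Real.rpow_natCast]
    push_cast
    rfl
  calc ∫ z, ‖η ((Cr * A.N)⁻¹ • (z - z₀)) * A.pk T z‖
      ≤ ∫ z, (CM * B ^ K.P' * a T * (1 + A.d T z₀) ^ (-K.P')) * (1 + ‖(Cr * A.N)⁻¹ • (z - z₀)‖) ^ (-((k : ℝ) + 2)) :=
        integral_mono hint.norm (hint0.const_mul _) hbound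
    _ = (CM * B ^ K.P' * a T * (1 + A.d T z₀) ^ (-K.P')) * ((Cr * A.N) ^ (k + 1) * I) := by rw [integral_const_mul, hval]
    _ = C2 * A.N ^ ((k : ℝ) + 1) * a T * (1 + A.d T z₀) ^ (-K.P') := by rw [hNk, hC2, mul_pow]; ring
    _ ≤ (C1 + C2 + 1) * A.N ^ ((k : ℝ) + 1) * a T * (1 + A.d T z₀) ^ (-K.P') := by
        apply mul_le_mul_of_nonneg_right _ hd0
        apply mul_le_mul_of_nonneg_right _ ha
        apply mul_le_mul_of_nonneg_right _ (by positivity)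
        linarith

open scoped Classical in
/-- slot sums in a ball of radius `C₂/N` -/
theorem lin_slot_big (k : ℕ) {M : ℝ} (hM : (k : ℝ) + 1 < M) (C₂ : ℝ) (hC₂ : 0 ≤ C₂) :
    ∃ c : ℝ, 0 ≤ c ∧ ∀ (ι : Type) (A : PFam k ι) (s : Finset ι) (K : PCls) (a : ι → ℝ), A.In s K a → ∀ (ξ : E k) (z : ST k),
      ∑ T ∈ s.filter (fun T => ‖A.v T - ξ‖ ≤ C₂ / A.N), (1 + A.d T z) ^ (-M) ≤ c * K.m₀ := by
  obtain ⟨c₃, hc₃, h3⟩ := pkw_slot k hM
  refine ⟨(2 * C₂ + 1) ^ k * c₃, by positivity, ?_⟩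
  intro ι A s K a h ξ z
  have hN0 : 0 < A.N := by linarith [h.one_le]
  obtain ⟨t, ht1, ht2, ht3⟩ := BD.exists_sep_net ξ hC₂ (r := 1 / A.N) (by positivity)
  have hcard := BD.card_le_of_sep hC₂ (r := 1 / A.N) (by positivity) t ξ ht1 ht2
  rw [finrank_euclideanSpace_fin] at hcard
  have hnn : ∀ T, 0 ≤ (1 + A.d T z) ^ (-M) := fun T => Real.rpow_nonneg (by have := A.d_nonneg T z; positivity) _
  calc ∑ T ∈ s.filter (fun T => ‖A.v T - ξ‖ ≤ C₂ / A.N), (1 + A.d T z) ^ (-M)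
      ≤ ∑ T ∈ s, ∑ c ∈ t, (if ‖A.v T - c‖ ≤ 1 / A.N then (1 + A.d T z) ^ (-M) else 0) := by
        rw [Finset.sum_filter]
        refine Finset.sum_le_sum fun T _ => ?_
        have hnn2 : ∀ c ∈ t, 0 ≤ (if ‖A.v T - c‖ ≤ 1 / A.N then (1 + A.d T z) ^ (-M) else 0) := by
          intro c _
          split_ifs
          exacts [hnn T, le_rfl]
        split_ifs with hT2
        · obtain ⟨c, hc, hc2⟩ := ht3 (A.v T) (by rw [mul_one_div]; exact hT2)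
          refine le_trans ?_ (Finset.single_le_sum hnn2 hc)
          rw [if_pos hc2]
        · exact Finset.sum_nonneg hnn2
    _ = ∑ c ∈ t, ∑ T ∈ s.filter (fun T => ‖A.v T - c‖ ≤ 1 / A.N), (1 + A.d T z) ^ (-M) := by
        rw [Finset.sum_comm]
        refine Finset.sum_congr rfl fun c _ => ?_
        rw [Finset.sum_filter]
    _ ≤ ∑ _c ∈ t, c₃ * K.m₀ := Finset.sum_le_sum fun c _ => h3 ι A s K a h c z
    _ = t.card * (c₃ * K.m₀) := by rw [Finset.sum_const, nsmul_eq_mul]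
    _ ≤ (2 * C₂ + 1) ^ k * (c₃ * K.m₀) := mul_le_mul_of_nonneg_right hcard (by positivity)
    _ = _ := by ring

/-- **L-LIN-L2: the `L²` norm of the sum of the densities.**  Cauchy-Schwarz in `T` at fixed `w = (ξ,τ)` with the indicators of the balls `B_T`:
`(∑_T c_T 1_{B_T}(w))² ≤ (∑_T a_T² w_T(z₀) 1_{B_T}(w)) (∑_{T : |v_T - ξ| ≤ C₂/N} (1 + d_T z₀)^(-(2P' - P)))`, the second factor is `≤ C` (`pkw_slot` with exponent `2P' - P > k + 1`; the ball of radius `C₂/N` is covered by `≤ (2 C₂ + 3)^k` balls of radius `1/N`: `BD.exists_sep_net`, `BD.card_le_of_sep`);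
integrate: `volume B_T = c (C₂/N)^(k+1)` (`BD.exists_volume_closedBall`). -/
theorem lin_l2 (K : PCls) (P C₂ : ℝ) (hP : P + (k : ℝ) + 1 < 2 * K.P') (hC₂ : 0 ≤ C₂) :
    ∃ C : ℝ, 0 ≤ C ∧ ∀ (ι : Type) (A : PFam k ι) (s : Finset ι) (a : ι → ℝ) (z₀ : ST k), A.In s K a →
      ∫ w : ST k, (∑ T ∈ s, a T * (1 + A.d T z₀) ^ (-K.P') * (closedBall ((A.v T, -‖A.v T‖ ^ 2) : ST k) (C₂ / A.N)).indicator (fun _ => (1 : ℝ)) w) ^ 2 ≤
        C * A.N ^ (-((k : ℝ) + 1)) * A.sq P s a z₀ := by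
  classical
  obtain ⟨c, hc, hslot⟩ := lin_slot_big k (M := 2 * K.P' - P) (by linarith) C₂ hC₂
  set cv : ℝ := (volume (ball (0 : ST k) 1)).toReal with hcv
  have hcv0 : 0 ≤ cv := ENNReal.toReal_nonneg
  refine ⟨c * K.m₀ * (C₂ ^ (k + 1) * cv), by positivity, ?_⟩
  intro ι A s a z₀ h
  have hN0 : 0 < A.N := by linarith [h.one_le]
  set Bl : ι → Set (ST k) := fun T => closedBall ((A.v T, -‖A.v T‖ ^ 2) : ST k) (C₂ / A.N) with hBl
  have hD : ∀ T, 0 < 1 + A.d T z₀ := fun T => by have := A.d_nonneg T z₀; positivity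
  have hr : 0 ≤ C₂ / A.N := by positivity
  have hvol : ∀ T, (volume : Measure (ST k)).real (Bl T) = C₂ ^ (k + 1) * A.N ^ (-((k : ℝ) + 1)) * cv := by
    intro T
    rw [Measure.real, hBl]
    simp only
    rw [Measure.addHaar_closedBall volume _ hr, lin_finrank_ST, ENNReal.toReal_mul, ENNReal.toReal_ofReal (by positivity), div_pow]
    congr 1
    rw [Real.rpow_neg hN0.le, div_eq_mul_inv]
    congr 2
    rw [← Real.rpow_natCast]
    push_cast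
    rfl
  -- pointwise bound
  have hpt : ∀ w : ST k, (∑ T ∈ s, a T * (1 + A.d T z₀) ^ (-K.P') * (Bl T).indicator (fun _ => (1 : ℝ)) w) ^ 2 ≤
      (c * K.m₀) * ∑ T ∈ s, (a T ^ 2 * A.w P T z₀) * (Bl T).indicator (fun _ => (1 : ℝ)) w := by
    intro w
    have hχ : ∀ T, (Bl T).indicator (fun _ => (1 : ℝ)) w = if w ∈ Bl T then 1 else 0 := fun T => Set.indicator_apply _ _ _
    have h1 := Finset.sum_mul_sq_le_sq_mul_sq s
      (fun T => a T * (1 + A.d T z₀) ^ (-(P / 2)) * (Bl T).indicator (fun _ => (1 : ℝ)) w)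
      (fun T => (1 + A.d T z₀) ^ (-(K.P' - P / 2)) * (Bl T).indicator (fun _ => (1 : ℝ)) w)
    have e1 : ∀ T, a T * (1 + A.d T z₀) ^ (-(P / 2)) * (Bl T).indicator (fun _ => (1 : ℝ)) w *
        ((1 + A.d T z₀) ^ (-(K.P' - P / 2)) * (Bl T).indicator (fun _ => (1 : ℝ)) w) =
        a T * (1 + A.d T z₀) ^ (-K.P') * (Bl T).indicator (fun _ => (1 : ℝ)) w := by
      intro T
      have : (1 + A.d T z₀) ^ (-(P / 2)) * (1 + A.d T z₀) ^ (-(K.P' - P / 2)) = (1 + A.d T z₀) ^ (-K.P') := by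
        rw [← Real.rpow_add (hD T)]; congr 1; ring
      rw [← this, hχ]
      split_ifs <;> ring
    have e2 : ∀ T, (a T * (1 + A.d T z₀) ^ (-(P / 2)) * (Bl T).indicator (fun _ => (1 : ℝ)) w) ^ 2 =
        (a T ^ 2 * A.w P T z₀) * (Bl T).indicator (fun _ => (1 : ℝ)) w := by
      intro T
      have : ((1 + A.d T z₀) ^ (-(P / 2))) ^ 2 = (1 + A.d T z₀) ^ (-P) := by
        rw [← Real.rpow_natCast, ← Real.rpow_mul (hD T).le]; congr 1; push_cast; ring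
      unfold PFam.w
      rw [← this, hχ]
      split_ifs <;> ring
    have e3 : ∑ T ∈ s, ((1 + A.d T z₀) ^ (-(K.P' - P / 2)) * (Bl T).indicator (fun _ => (1 : ℝ)) w) ^ 2 ≤ c * K.m₀ := by
      refine le_trans ?_ (hslot ι A s K a h w.1 z₀)
      rw [Finset.sum_filter]
      refine Finset.sum_le_sum fun T _ => ?_
      have h2 : ((1 + A.d T z₀) ^ (-(K.P' - P / 2))) ^ 2 = (1 + A.d T z₀) ^ (-(2 * K.P' - P)) := by
        rw [← Real.rpow_natCast, ← Real.rpow_mul (hD T).le]; congr 1; push_cast; ring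
      have h3 : 0 ≤ (1 + A.d T z₀) ^ (-(2 * K.P' - P)) := Real.rpow_nonneg (hD T).le _
      rw [hχ]
      by_cases hw : w ∈ Bl T
      · have hw2 : ‖A.v T - w.1‖ ≤ C₂ / A.N := by
          rw [hBl] at hw
          simp only [Metric.mem_closedBall, dist_eq_norm] at hw
          have := (norm_fst_le _).trans hw
          rw [norm_sub_rev]
          exact this
        rw [if_pos hw, if_pos hw2, mul_one, h2]
      · rw [if_neg hw, mul_zero]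
        split_ifs
        · simpa using h3
        · simp
    simp only [e1, e2] at h1
    refine h1.trans ?_
    rw [mul_comm]
    refine mul_le_mul_of_nonneg_right e3 (Finset.sum_nonneg fun T _ => ?_)
    rw [hχ]
    have : 0 ≤ A.w P T z₀ := Real.rpow_nonneg (hD T).le _
    split_ifs <;> positivity
  have hintT : ∀ T, Integrable ((Bl T).indicator (fun _ => (1 : ℝ))) :=
    fun T => (integrable_indicator_iff measurableSet_closedBall).2 (integrableOn_const (by exact measure_closedBall_lt_top.ne) (by simp))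
  have hint : Integrable fun w : ST k => (c * K.m₀) * ∑ T ∈ s, (a T ^ 2 * A.w P T z₀) * (Bl T).indicator (fun _ => (1 : ℝ)) w :=
    (integrable_finsetSum s fun T _ => (hintT T).const_mul _).const_mul _
  calc ∫ w : ST k, (∑ T ∈ s, a T * (1 + A.d T z₀) ^ (-K.P') * (Bl T).indicator (fun _ => (1 : ℝ)) w) ^ 2
      ≤ ∫ w : ST k, (c * K.m₀) * ∑ T ∈ s, (a T ^ 2 * A.w P T z₀) * (Bl T).indicator (fun _ => (1 : ℝ)) w :=
        integral_mono_of_nonneg (Filter.Eventually.of_forall fun w => sq_nonneg _) hint (Filter.Eventually.of_forall hpt)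
    _ = (c * K.m₀) * ∑ T ∈ s, (a T ^ 2 * A.w P T z₀) * (C₂ ^ (k + 1) * A.N ^ (-((k : ℝ) + 1)) * cv) := by
        rw [integral_const_mul, integral_finsetSum s fun T _ => (hintT T).const_mul _]
        congr 1
        refine Finset.sum_congr rfl fun T _ => ?_
        rw [integral_const_mul, integral_indicator_const _ measurableSet_closedBall, hvol, smul_eq_mul, mul_one]
    _ = c * K.m₀ * (C₂ ^ (k + 1) * cv) * A.N ^ (-((k : ℝ) + 1)) * A.sq P s a z₀ := by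
        unfold PFam.sq
        rw [← Finset.sum_mul]
        ring

theorem lin_int_gauss_real (k : ℕ) : Integrable fun ξ : E k => Real.exp (-‖ξ‖ ^ 2) := by
  have h := (lin_integrable (k := k) 0).norm
  refine h.congr (Filter.Eventually.of_forall fun ξ => ?_)
  show ‖((Real.exp (-‖ξ‖ ^ 2) : ℝ) : ℂ) * car ξ 0‖ = Real.exp (-‖ξ‖ ^ 2)
  rw [norm_mul, norm_car, mul_one, Complex.norm_real, Real.norm_of_nonneg (Real.exp_pos _).le]

/-- the Gaussian weight of the `1/r`-neighbourhood of the paraboloid is integrable -/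
theorem lin_omega_int (k : ℕ) {r : ℝ} (hr : 0 < r) :
    Integrable fun w : ST k => Real.exp (-‖w.1‖ ^ 2) * Real.exp (-(r * (w.2 + ‖w.1‖ ^ 2)) ^ 2) := by
  have hcont : Continuous fun w : ST k => Real.exp (-‖w.1‖ ^ 2) * Real.exp (-(r * (w.2 + ‖w.1‖ ^ 2)) ^ 2) := by fun_prop
  have hG : Integrable fun τ : ℝ => Real.exp (-(r ^ 2) * τ ^ 2) := integrable_exp_neg_mul_sq (by positivity)
  have hsl : ∀ ξ : E k, Integrable fun τ : ℝ => Real.exp (-‖ξ‖ ^ 2) * Real.exp (-(r * (τ + ‖ξ‖ ^ 2)) ^ 2) := by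
    intro ξ
    refine Integrable.const_mul ?_ _
    refine (hG.comp_add_right (‖ξ‖ ^ 2)).congr (Filter.Eventually.of_forall fun τ => ?_)
    show Real.exp (-(r ^ 2) * (τ + ‖ξ‖ ^ 2) ^ 2) = Real.exp (-(r * (τ + ‖ξ‖ ^ 2)) ^ 2)
    congr 1
    ring
  rw [Measure.volume_eq_prod, integrable_prod_iff hcont.aestronglyMeasurable]
  refine ⟨Filter.Eventually.of_forall hsl, ?_⟩
  have e : (fun ξ : E k => ∫ τ : ℝ, ‖Real.exp (-‖ξ‖ ^ 2) * Real.exp (-(r * (τ + ‖ξ‖ ^ 2)) ^ 2)‖) =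
      fun ξ : E k => Real.exp (-‖ξ‖ ^ 2) * ∫ τ : ℝ, Real.exp (-(r ^ 2) * τ ^ 2) := by
    funext ξ
    rw [← integral_add_right_eq_self (fun τ : ℝ => Real.exp (-(r ^ 2) * τ ^ 2)) (‖ξ‖ ^ 2), ← integral_const_mul]
    refine integral_congr_ae (Filter.Eventually.of_forall fun τ => ?_)
    show ‖Real.exp (-‖ξ‖ ^ 2) * Real.exp (-(r * (τ + ‖ξ‖ ^ 2)) ^ 2)‖ = Real.exp (-‖ξ‖ ^ 2) * Real.exp (-(r ^ 2) * (τ + ‖ξ‖ ^ 2) ^ 2)
    rw [Real.norm_of_nonneg (by positivity)]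
    congr 2
    ring
  exact e ▸ (lin_int_gauss_real k).mul_const _

/-- lower bound of the Gaussian weight on the balls carrying the densities -/
theorem lin_omega_ge {c0 CL N : ℝ} (_hc0 : 0 ≤ c0) (hCL : 0 ≤ CL) (hN : 1 ≤ N) (v : E k) (hv : ‖v‖ ≤ c0) (w : ST k)
    (hw : w ∈ closedBall ((v, -‖v‖ ^ 2) : ST k) (2 * CL / N)) :
    Real.exp (-(c0 + 2 * CL) ^ 2) * Real.exp (-(2 * CL * (1 + 2 * c0 + 2 * CL)) ^ 2) ≤
      Real.exp (-‖w.1‖ ^ 2) * Real.exp (-(N * (w.2 + ‖w.1‖ ^ 2)) ^ 2) := by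
  have hN0 : 0 < N := by linarith
  rw [Metric.mem_closedBall, dist_eq_norm, Prod.norm_def, max_le_iff] at hw
  obtain ⟨h1, h2⟩ := hw
  simp only [Prod.fst_sub, Prod.snd_sub] at h1 h2
  rw [Real.norm_eq_abs, sub_neg_eq_add] at h2
  set δ := 2 * CL / N with hδ
  have hδ0 : 0 ≤ δ := by positivity
  have hδ1 : δ ≤ 2 * CL := div_le_self (by positivity) hN
  have hNδ : N * δ = 2 * CL := by rw [hδ]; field_simp
  have h3 : ‖w.1‖ ≤ ‖v‖ + δ := by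
    have := norm_add_le v (w.1 - v)
    rw [add_sub_cancel] at this
    linarith
  have h4 : |‖w.1‖ - ‖v‖| ≤ δ := (abs_norm_sub_norm_le _ _).trans h1
  have hw0 := norm_nonneg w.1
  have hv0 := norm_nonneg v
  have h5 : ‖w.1‖ ^ 2 ≤ (c0 + 2 * CL) ^ 2 := pow_le_pow_left₀ hw0 (by linarith) 2
  have h6 : |‖w.1‖ ^ 2 - ‖v‖ ^ 2| ≤ δ * (2 * c0 + 2 * CL) := by
    have : ‖w.1‖ ^ 2 - ‖v‖ ^ 2 = (‖w.1‖ - ‖v‖) * (‖w.1‖ + ‖v‖) := by ring
    rw [this, abs_mul, abs_of_nonneg (by positivity : 0 ≤ ‖w.1‖ + ‖v‖)]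
    exact mul_le_mul h4 (by linarith) (by positivity) hδ0
  have h7 : |N * (w.2 + ‖w.1‖ ^ 2)| ≤ 2 * CL * (1 + 2 * c0 + 2 * CL) := by
    rw [abs_mul, abs_of_pos hN0]
    have : |w.2 + ‖w.1‖ ^ 2| ≤ δ + δ * (2 * c0 + 2 * CL) := by
      have e : w.2 + ‖w.1‖ ^ 2 = (w.2 + ‖v‖ ^ 2) + (‖w.1‖ ^ 2 - ‖v‖ ^ 2) := by ring
      rw [e]
      exact (abs_add_le _ _).trans (add_le_add h2 h6)
    calc N * |w.2 + ‖w.1‖ ^ 2| ≤ N * (δ + δ * (2 * c0 + 2 * CL)) := mul_le_mul_of_nonneg_left this hN0.le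
      _ = (N * δ) * (1 + 2 * c0 + 2 * CL) := by ring
      _ = _ := by rw [hNδ]
  have h8 : (N * (w.2 + ‖w.1‖ ^ 2)) ^ 2 ≤ (2 * CL * (1 + 2 * c0 + 2 * CL)) ^ 2 := sq_le_sq' (by linarith [(abs_le.1 h7).1]) (abs_le.1 h7).2
  exact mul_le_mul (Real.exp_le_exp.2 (by linarith)) (Real.exp_le_exp.2 (by linarith)) (Real.exp_pos _).le (Real.exp_pos _).le

/-- Cauchy-Schwarz for real integrals -/
theorem lin_csR {α : Type} [MeasurableSpace α] {μ : Measure α} {f g : α → ℝ} (hf0 : ∀ x, 0 ≤ f x) (hg0 : ∀ x, 0 ≤ g x)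
    (hf : MemLp f 2 μ) (hg : MemLp g 2 μ) : ∫ x, f x * g x ∂μ ≤ Real.sqrt (∫ x, f x ^ 2 ∂μ) * Real.sqrt (∫ x, g x ^ 2 ∂μ) := by
  have h2 : ENNReal.ofReal 2 = 2 := by simp
  have h := integral_mul_le_Lp_mul_Lq_of_nonneg (μ := μ) Real.HolderConjugate.two_two (Filter.Eventually.of_forall hf0)
    (Filter.Eventually.of_forall hg0) (by rw [h2]; exact hf) (by rw [h2]; exact hg)
  simp only [Real.rpow_two] at h
  rw [Real.sqrt_eq_rpow, Real.sqrt_eq_rpow]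
  exact h

/-- **L-LIN-MAIN: the local linear estimate, dual form.**
`η` of `BD.exists_eta`, `θ z = η ((Cr N)⁻¹ (z - z₀))`, `|θ| ≥ 1` on `Y`.  `ε_z` unimodular with `ε_z θ(z) V(z) = |θ(z) V(z)|`.   `g_T` of `lin_density` for `θ f_T` (`lin_local`, `ϱ = C/N`), `G = ∑_T g_T`, `Φ w = ∑_z ε_z ch (pr z w)`:
`∑_z ‖V z‖ ≤ ∑_z ε_z θ(z) V(z) = ∫ G Φ ≤ (∫ ‖G‖²/ω)^(1/2) (∫ ω ‖Φ‖²)^(1/2)`, `ω w = e^{-|ξ|²} e^{-(N(τ + |ξ|²))²}`.   On the support of `G` (`|ξ - v| ≤ 2C/N`, `|τ + |v|²| ≤ 2C/N`, `|v| ≤ C₀`, `N ≥ 1`): `ω ≥ c > 0`.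
`‖G w‖ ≤ C N^(k+1) ∑_T a_T (1 + d_T z₀)^(-P') 1_{B_T}(w)`: `lin_l2` gives `∫ ‖G‖² ≤ C N^(k+1) B(z₀)²`;  `lin_thick` with `r = N`. -/
theorem lin_main (hk : 1 ≤ k) (K : PCls) (P Cr : ℝ) (hρ : 0 ≤ K.ρ) (hP' : 0 ≤ K.P') (hP : P + (k : ℝ) + 1 < 2 * K.P') (hCr : 0 < Cr) :
    ∃ C : ℝ, 0 < C ∧ ∀ (ι : Type) (A : PFam k ι) (s : Finset ι) (a : ι → ℝ) (Y : Finset (ST k)) (z₀ : ST k), A.In s K a → USep Y →
      (∀ z ∈ Y, ‖z - z₀‖ ≤ Cr * A.N) →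
      ∑ z ∈ Y, ‖A.fld s z‖ ≤ C * (Y.card : ℝ) ^ (1 - 1 / qk k) * A.N ^ ((k : ℝ) / 2) * Real.sqrt (A.sq P s a z₀) := by
  classical
  obtain ⟨η, hηFS, hη1, hηd, -⟩ := BD.exists_eta (E k)
  obtain ⟨CL, hCL, hloc⟩ := lin_local K hρ hP' Cr hCr hηFS hηd
  obtain ⟨CD, hCD, hdens⟩ := lin_density k
  obtain ⟨C2, hC2, hl2⟩ := lin_l2 (k := k) K P (2 * CL) hP (by positivity)
  obtain ⟨CT, hCT, hthick⟩ := lin_thick hk
  set c0 : ℝ := max K.C₀ 0 with hc0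
  have hc00 : 0 ≤ c0 := le_max_right _ _
  set cω : ℝ := Real.exp (-(c0 + 2 * CL) ^ 2) * Real.exp (-(2 * CL * (1 + 2 * c0 + 2 * CL)) ^ 2) with hcω
  have hcω0 : 0 < cω := by positivity
  refine ⟨CD * CL * (Real.sqrt cω)⁻¹ * Real.sqrt C2 * Real.sqrt CT + 1, by positivity, ?_⟩
  intro ι A s a Y z₀ h hY hball
  have hN := h.one_le
  have hN0 : 0 < A.N := by linarith
  have hR : 0 < Cr * A.N := by positivity
  set θ : ST k → ℂ := fun z => η ((Cr * A.N)⁻¹ • (z - z₀)) with hθ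
  set wc : ι → ST k := fun T => ((A.v T, -‖A.v T‖ ^ 2) : ST k) with hwc
  set Bl : ι → Set (ST k) := fun T => closedBall (wc T) (2 * CL / A.N) with hBl
  -- the densities
  have hex : ∀ T, ∃ g : ST k → ℂ, T ∈ s → (Continuous g ∧ (∀ w, ‖g w‖ ≤ CD * ∫ z, ‖θ z * A.pk T z‖) ∧ (∀ w, w ∉ Bl T → g w = 0) ∧
      ∀ z, θ z * A.pk T z = ∫ w, BD.ch (BD.pr z w) * g w) := by
    intro T
    by_cases hT : T ∈ s
    · obtain ⟨h1, h2, -⟩ := hloc ι A s a z₀ h T hT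
      obtain ⟨g, hg1, hg2, hg3, hg4⟩ := hdens (wc T) (CL / A.N) _ (by positivity) h1 h2
      refine ⟨g, fun _ => ⟨hg1, hg2, ?_, hg4⟩⟩
      intro w hw
      apply hg3
      rw [hBl] at hw
      simp only at hw
      rwa [mul_div_assoc] at hw
    · exact ⟨0, fun h' => absurd h' hT⟩
  choose g hg using hex
  have hgint : ∀ T ∈ s, Integrable (g T) := by
    intro T hT
    refine (hg T hT).1.integrable_of_hasCompactSupport ?_
    exact HasCompactSupport.intro (isCompact_closedBall (wc T) (2 * CL / A.N)) fun w hw => (hg T hT).2.2.1 w hw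
  -- unimodular factors
  have hexε : ∀ z : ST k, ∃ c : ℂ, ‖c‖ = 1 ∧ ((‖θ z * A.fld s z‖ : ℝ) : ℂ) = c * (θ z * A.fld s z) := fun z => RCLike.exists_norm_eq_mul_self _
  choose ε hε1 hε2 using hexε
  set Φ : ST k → ℂ := fun w => ∑ z ∈ Y, ε z * BD.ch (BD.pr z w) with hΦ
  set G : ST k → ℂ := fun w => ∑ T ∈ s, g T w with hG
  set S : ST k → ℝ := fun w => ∑ T ∈ s, a T * (1 + A.d T z₀) ^ (-K.P') * (Bl T).indicator (fun _ => (1 : ℝ)) w with hS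
  set ω : ST k → ℝ := fun w => Real.exp (-‖w.1‖ ^ 2) * Real.exp (-(A.N * (w.2 + ‖w.1‖ ^ 2)) ^ 2) with hω
  have hω0 : ∀ w, 0 < ω w := fun w => by positivity
  have hD : ∀ T, 0 < 1 + A.d T z₀ := fun T => by have := A.d_nonneg T z₀; positivity
  have hΦc : Continuous Φ := by
    refine continuous_finsetSum _ fun z _ => continuous_const.mul ?_
    exact BD.bdb_continuous_ch.comp (BD.bdu_pr_cont_right z)
  have hΦb : ∀ w, ‖Φ w‖ ≤ Y.card := by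
    intro w
    refine (norm_sum_le _ _).trans (le_of_eq ?_)
    calc ∑ z ∈ Y, ‖ε z * BD.ch (BD.pr z w)‖ = ∑ _z ∈ Y, (1 : ℝ) := by
          refine Finset.sum_congr rfl fun z _ => ?_
          rw [norm_mul, hε1, BD.norm_ch, one_mul]
      _ = Y.card := by simp
  -- step 1: the sum is an integral
  have hGint : Integrable G := integrable_finsetSum s hgint
  have hstep1 : ((∑ z ∈ Y, ‖θ z * A.fld s z‖ : ℝ) : ℂ) = ∫ w, G w * Φ w := by
    have e1 : ∀ z, θ z * A.fld s z = ∫ w, BD.ch (BD.pr z w) * G w := by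
      intro z
      unfold PFam.fld
      rw [Finset.mul_sum]
      have : ∀ w, BD.ch (BD.pr z w) * G w = ∑ T ∈ s, BD.ch (BD.pr z w) * g T w := fun w => by rw [hG]; simp only; rw [Finset.mul_sum]
      simp only [this]
      rw [integral_finsetSum s fun T hT => BD.bdu_int_ch (hgint T hT) z]
      exact Finset.sum_congr rfl fun T hT => (hg T hT).2.2.2 z
    push_cast
    have e2 : ∀ w, G w * Φ w = ∑ z ∈ Y, ε z * (BD.ch (BD.pr z w) * G w) := by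
      intro w
      rw [hΦ]
      simp only
      rw [Finset.mul_sum]
      refine Finset.sum_congr rfl fun z _ => ?_
      ring
    simp only [e2]
    rw [integral_finsetSum Y fun z _ => (BD.bdu_int_ch hGint z).const_mul _]
    refine Finset.sum_congr rfl fun z _ => ?_
    rw [integral_const_mul, ← e1, hε2]
  -- step 2: pointwise bound of the density
  have hGle : ∀ w, ‖G w‖ ≤ CD * CL * A.N ^ ((k : ℝ) + 1) * S w := by
    intro w
    rw [hS]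
    simp only
    rw [Finset.mul_sum]
    refine (norm_sum_le _ _).trans (Finset.sum_le_sum fun T hT => ?_)
    have ha := h.amp_nonneg hT
    rw [Set.indicator_apply]
    by_cases hw : w ∈ Bl T
    · rw [if_pos hw, mul_one]
      have h3 := (hloc ι A s a z₀ h T hT).2.2
      calc ‖g T w‖ ≤ CD * ∫ z, ‖θ z * A.pk T z‖ := (hg T hT).2.1 w
        _ ≤ CD * (CL * A.N ^ ((k : ℝ) + 1) * a T * (1 + A.d T z₀) ^ (-K.P')) := mul_le_mul_of_nonneg_left h3 hCD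
        _ = _ := by ring
    · rw [if_neg hw, mul_zero, mul_zero, (hg T hT).2.2.1 w hw, norm_zero]
  have hS0 : ∀ w, 0 ≤ S w := by
    intro w
    refine Finset.sum_nonneg fun T hT => ?_
    have ha := h.amp_nonneg hT
    have : 0 ≤ (1 + A.d T z₀) ^ (-K.P') := Real.rpow_nonneg (hD T).le _
    rw [Set.indicator_apply]
    split_ifs <;> positivity
  have hSω : ∀ w, S w ≤ (Real.sqrt cω)⁻¹ * (S w * Real.sqrt (ω w)) := by
    intro w
    rw [hS]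
    simp only
    rw [Finset.sum_mul, Finset.mul_sum]
    refine Finset.sum_le_sum fun T hT => ?_
    have ha := h.amp_nonneg hT
    have hd : 0 ≤ (1 + A.d T z₀) ^ (-K.P') := Real.rpow_nonneg (hD T).le _
    rw [Set.indicator_apply]
    by_cases hw : w ∈ Bl T
    · rw [if_pos hw, mul_one]
      have hv : ‖A.v T‖ ≤ c0 := (h.freq T hT).trans (le_max_left _ _)
      have h1 : cω ≤ ω w := lin_omega_ge hc00 hCL.le hN (A.v T) hv w hw
      have h2 : Real.sqrt cω ≤ Real.sqrt (ω w) := Real.sqrt_le_sqrt h1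
      have h3 : 0 < Real.sqrt cω := Real.sqrt_pos.2 hcω0
      have h4 : 1 ≤ (Real.sqrt cω)⁻¹ * Real.sqrt (ω w) := by
        rw [inv_mul_eq_div, one_le_div h3]
        exact h2
      calc a T * (1 + A.d T z₀) ^ (-K.P') = a T * (1 + A.d T z₀) ^ (-K.P') * 1 := (mul_one _).symm
        _ ≤ a T * (1 + A.d T z₀) ^ (-K.P') * ((Real.sqrt cω)⁻¹ * Real.sqrt (ω w)) := mul_le_mul_of_nonneg_left h4 (by positivity)
        _ = _ := by ring
    · rw [if_neg hw]; simp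
  -- integrability
  have hSmem : MemLp S 2 := by
    refine memLp_finsetSum s fun T _ => ?_
    exact (memLp_indicator_const 2 measurableSet_closedBall (1 : ℝ) (Or.inr measure_closedBall_lt_top.ne)).const_mul _
  have hωc : Continuous ω := by rw [hω]; fun_prop
  have hωint : Integrable ω := lin_omega_int k hN0
  have hF2int : Integrable fun w => ω w * ‖Φ w‖ ^ 2 := by
    refine (hωint.mul_const ((Y.card : ℝ) ^ 2)).mono' (hωc.mul (hΦc.norm.pow 2)).aestronglyMeasurable (Filter.Eventually.of_forall fun w => ?_)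
    rw [Real.norm_of_nonneg (by have := hω0 w; positivity)]
    exact mul_le_mul_of_nonneg_left (pow_le_pow_left₀ (norm_nonneg _) (hΦb w) 2) (hω0 w).le
  have hFmem : MemLp (fun w => Real.sqrt (ω w) * ‖Φ w‖) 2 := by
    refine (memLp_two_iff_integrable_sq ((hωc.sqrt).mul hΦc.norm).aestronglyMeasurable).2 ?_
    refine hF2int.congr (Filter.Eventually.of_forall fun w => ?_)
    show ω w * ‖Φ w‖ ^ 2 = (Real.sqrt (ω w) * ‖Φ w‖) ^ 2
    rw [mul_pow, Real.sq_sqrt (hω0 w).le]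
  have hcs := lin_csR hS0 (fun w => mul_nonneg (Real.sqrt_nonneg _) (norm_nonneg _)) hSmem hFmem
  have hI1 : ∫ w, S w ^ 2 ≤ C2 * A.N ^ (-((k : ℝ) + 1)) * A.sq P s a z₀ := hl2 ι A s a z₀ h
  have hI2 : ∫ w, (Real.sqrt (ω w) * ‖Φ w‖) ^ 2 ≤ CT * A.N⁻¹ * (Y.card : ℝ) ^ (((k : ℝ) + 4) / ((k : ℝ) + 2)) := by
    refine le_trans (le_of_eq ?_) (hthick A.N Y ε hN0 hY fun z _ => (hε1 z).le)
    refine integral_congr_ae (Filter.Eventually.of_forall fun w => ?_)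
    show (Real.sqrt (ω w) * ‖Φ w‖) ^ 2 = Real.exp (-‖w.1‖ ^ 2) * Real.exp (-(A.N * (w.2 + ‖w.1‖ ^ 2)) ^ 2) * ‖∑ z ∈ Y, ε z * BD.ch (BD.pr z w)‖ ^ 2
    rw [mul_pow, Real.sq_sqrt (hω0 w).le]
  -- step 3: assemble
  have hprodint : Integrable fun w => S w * (Real.sqrt (ω w) * ‖Φ w‖) := hSmem.integrable_mul hFmem
  have hstep3 : ∑ z ∈ Y, ‖θ z * A.fld s z‖ ≤ CD * CL * A.N ^ ((k : ℝ) + 1) * (Real.sqrt cω)⁻¹ * ∫ w, S w * (Real.sqrt (ω w) * ‖Φ w‖) := by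
    have h0 : 0 ≤ ∑ z ∈ Y, ‖θ z * A.fld s z‖ := Finset.sum_nonneg fun _ _ => norm_nonneg _
    have h1 : ∑ z ∈ Y, ‖θ z * A.fld s z‖ = ‖∫ w, G w * Φ w‖ := by
      rw [← hstep1, Complex.norm_real, Real.norm_of_nonneg h0]
    rw [h1, ← integral_const_mul]
    refine (norm_integral_le_integral_norm _).trans ?_
    refine integral_mono_of_nonneg (Filter.Eventually.of_forall fun w => norm_nonneg _) (hprodint.const_mul _) (Filter.Eventually.of_forall fun w => ?_)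
    show ‖G w * Φ w‖ ≤ CD * CL * A.N ^ ((k : ℝ) + 1) * (Real.sqrt cω)⁻¹ * (S w * (Real.sqrt (ω w) * ‖Φ w‖))
    rw [norm_mul]
    have hpos : 0 ≤ CD * CL * A.N ^ ((k : ℝ) + 1) := by positivity
    calc ‖G w‖ * ‖Φ w‖ ≤ (CD * CL * A.N ^ ((k : ℝ) + 1) * S w) * ‖Φ w‖ := mul_le_mul_of_nonneg_right (hGle w) (norm_nonneg _)
      _ ≤ (CD * CL * A.N ^ ((k : ℝ) + 1) * ((Real.sqrt cω)⁻¹ * (S w * Real.sqrt (ω w)))) * ‖Φ w‖ :=
          mul_le_mul_of_nonneg_right (mul_le_mul_of_nonneg_left (hSω w) hpos) (norm_nonneg _)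
      _ = _ := by ring
  have hlow : ∑ z ∈ Y, ‖A.fld s z‖ ≤ ∑ z ∈ Y, ‖θ z * A.fld s z‖ := by
    refine Finset.sum_le_sum fun z hz => ?_
    rw [norm_mul]
    have : 1 ≤ ‖θ z‖ := by
      apply hη1
      rw [norm_smul, Real.norm_of_nonneg (inv_nonneg.2 hR.le), inv_mul_le_iff₀ hR, mul_one]
      exact hball z hz
    exact le_mul_of_one_le_left (norm_nonneg _) this
  have hsq0 : 0 ≤ A.sq P s a z₀ := Finset.sum_nonneg fun T _ => mul_nonneg (sq_nonneg _) (Real.rpow_nonneg (hD T).le _)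
  have hn0 : (0 : ℝ) ≤ Y.card := Nat.cast_nonneg _
  have hk0 : (0 : ℝ) < k := by exact_mod_cast hk
  have hr1 : Real.sqrt (∫ w, S w ^ 2) ≤ Real.sqrt C2 * A.N ^ (-(((k : ℝ) + 1) / 2)) * Real.sqrt (A.sq P s a z₀) := by
    refine (Real.sqrt_le_sqrt hI1).trans (le_of_eq ?_)
    rw [Real.sqrt_mul (by positivity), Real.sqrt_mul hC2]
    congr 2
    rw [Real.sqrt_eq_rpow, ← Real.rpow_mul hN0.le]
    congr 1
    ring
  have hr2 : Real.sqrt (∫ w, (Real.sqrt (ω w) * ‖Φ w‖) ^ 2) ≤ Real.sqrt CT * A.N ^ (-(1 / 2 : ℝ)) * (Y.card : ℝ) ^ (1 - 1 / qk k) := by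
    refine (Real.sqrt_le_sqrt hI2).trans (le_of_eq ?_)
    rw [Real.sqrt_mul (by positivity), Real.sqrt_mul hCT]
    congr 1
    · congr 1
      rw [Real.sqrt_eq_rpow, ← Real.rpow_neg_one, ← Real.rpow_mul hN0.le]
      congr 1
      ring
    · rw [Real.sqrt_eq_rpow, ← Real.rpow_mul hn0]
      congr 1
      unfold qk
      field_simp
      ring
  have hNexp : A.N ^ ((k : ℝ) + 1) * A.N ^ (-(((k : ℝ) + 1) / 2)) * A.N ^ (-(1 / 2 : ℝ)) = A.N ^ ((k : ℝ) / 2) := by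
    rw [← Real.rpow_add hN0, ← Real.rpow_add hN0]
    congr 1
    ring
  have hfin : ∑ z ∈ Y, ‖A.fld s z‖ ≤ (CD * CL * (Real.sqrt cω)⁻¹ * Real.sqrt C2 * Real.sqrt CT) * (Y.card : ℝ) ^ (1 - 1 / qk k) * A.N ^ ((k : ℝ) / 2) * Real.sqrt (A.sq P s a z₀) := by
    have hpos : 0 ≤ CD * CL * A.N ^ ((k : ℝ) + 1) * (Real.sqrt cω)⁻¹ := by positivity
    calc ∑ z ∈ Y, ‖A.fld s z‖ ≤ CD * CL * A.N ^ ((k : ℝ) + 1) * (Real.sqrt cω)⁻¹ * ∫ w, S w * (Real.sqrt (ω w) * ‖Φ w‖) := hlow.trans hstep3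
      _ ≤ CD * CL * A.N ^ ((k : ℝ) + 1) * (Real.sqrt cω)⁻¹ * ((Real.sqrt C2 * A.N ^ (-(((k : ℝ) + 1) / 2)) * Real.sqrt (A.sq P s a z₀)) *
            (Real.sqrt CT * A.N ^ (-(1 / 2 : ℝ)) * (Y.card : ℝ) ^ (1 - 1 / qk k))) := by
          refine mul_le_mul_of_nonneg_left (hcs.trans ?_) hpos
          exact mul_le_mul hr1 hr2 (Real.sqrt_nonneg _) (by positivity)
      _ = (CD * CL * (Real.sqrt cω)⁻¹ * Real.sqrt C2 * Real.sqrt CT) * (Y.card : ℝ) ^ (1 - 1 / qk k) *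
            (A.N ^ ((k : ℝ) + 1) * A.N ^ (-(((k : ℝ) + 1) / 2)) * A.N ^ (-(1 / 2 : ℝ))) * Real.sqrt (A.sq P s a z₀) := by ring
      _ = _ := by rw [hNexp]
  refine hfin.trans ?_
  apply mul_le_mul_of_nonneg_right _ (Real.sqrt_nonneg _)
  apply mul_le_mul_of_nonneg_right _ (by positivity)
  apply mul_le_mul_of_nonneg_right _ (by positivity)
  linarith

/-- **the counting form** (`p:local-linear` as it is used: H packets l.1040, l.1283). -/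
theorem lin_count (hk : 1 ≤ k) (K : PCls) (P Cr : ℝ) (hρ : 0 ≤ K.ρ) (hP' : 0 ≤ K.P') (hP : P + (k : ℝ) + 1 < 2 * K.P') (hCr : 0 < Cr) :
    ∃ C : ℝ, 0 < C ∧ ∀ (ι : Type) (A : PFam k ι) (s : Finset ι) (a : ι → ℝ) (Y : Finset (ST k)) (z₀ : ST k) (lam β : ℝ), A.In s K a → USep Y →
      (∀ z ∈ Y, ‖z - z₀‖ ≤ Cr * A.N) → 0 < lam → 0 ≤ β → A.sq P s a z₀ ≤ β ^ 2 → (∀ z ∈ Y, lam ≤ ‖A.fld s z‖) →
      (Y.card : ℝ) ≤ C * (A.N ^ ((k : ℝ) / 2) * β / lam) ^ qk k := by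
  obtain ⟨C₀, hC₀, hmain⟩ := lin_main hk K P Cr hρ hP' hP hCr
  have hkR : (0 : ℝ) < k := by exact_mod_cast hk
  have hq : 0 < qk k := by unfold qk; positivity
  refine ⟨C₀ ^ qk k, Real.rpow_pos_of_pos hC₀ _, ?_⟩
  intro ι A s a Y z₀ lam β hIn hsep hball hlam hβ hsq hlow
  have hN : 0 < A.N := lt_of_lt_of_le one_pos hIn.one_le
  obtain ⟨M, hM⟩ : ∃ M : ℝ, M = A.N ^ ((k : ℝ) / 2) * β := ⟨_, rfl⟩
  have hNp : 0 < A.N ^ ((k : ℝ) / 2) := Real.rpow_pos_of_pos hN _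
  have hM0 : 0 ≤ M := by rw [hM]; positivity
  rw [← hM]
  have hR0 : 0 ≤ M / lam := by positivity
  rcases Nat.eq_zero_or_pos Y.card with h0 | hpos
  · rw [h0, Nat.cast_zero]
    have := Real.rpow_nonneg hR0 (qk k)
    have := Real.rpow_nonneg hC₀.le (qk k)
    positivity
  have hy : (0 : ℝ) < Y.card := by exact_mod_cast hpos
  obtain ⟨y, hydef⟩ : ∃ y : ℝ, y = Y.card := ⟨_, rfl⟩
  rw [← hydef] at hy ⊢
  have h1 := hmain ι A s a Y z₀ hIn hsep hball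
  rw [← hydef] at h1
  have h2 : lam * y ≤ ∑ z ∈ Y, ‖A.fld s z‖ := by
    calc lam * y = ∑ _z ∈ Y, lam := by rw [Finset.sum_const, nsmul_eq_mul, hydef]; ring
      _ ≤ ∑ z ∈ Y, ‖A.fld s z‖ := Finset.sum_le_sum hlow
  have h3 : Real.sqrt (A.sq P s a z₀) ≤ β := by
    calc Real.sqrt (A.sq P s a z₀) ≤ Real.sqrt (β ^ 2) := Real.sqrt_le_sqrt hsq
      _ = β := Real.sqrt_sq hβ
  have hyp : 0 < y ^ (1 - 1 / qk k) := Real.rpow_pos_of_pos hy _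
  have h4 : lam * y ≤ C₀ * y ^ (1 - 1 / qk k) * M := by
    refine (h2.trans h1).trans ?_
    rw [hM, mul_assoc, mul_assoc, mul_assoc]
    refine mul_le_mul_of_nonneg_left (mul_le_mul_of_nonneg_left (mul_le_mul_of_nonneg_left h3 hNp.le) hyp.le) hC₀.le
  have hsplit : y = y ^ (1 - 1 / qk k) * y ^ (1 / qk k) := by
    rw [← Real.rpow_add hy]
    simp
  have h5 : y ^ (1 / qk k) ≤ C₀ * (M / lam) := by
    have h6 : y ^ (1 - 1 / qk k) * (lam * y ^ (1 / qk k)) ≤ y ^ (1 - 1 / qk k) * (C₀ * M) := by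
      calc y ^ (1 - 1 / qk k) * (lam * y ^ (1 / qk k)) = lam * (y ^ (1 - 1 / qk k) * y ^ (1 / qk k)) := by ring
        _ = lam * y := by rw [← hsplit]
        _ ≤ C₀ * y ^ (1 - 1 / qk k) * M := h4
        _ = y ^ (1 - 1 / qk k) * (C₀ * M) := by ring
    have h7 : lam * y ^ (1 / qk k) ≤ C₀ * M := le_of_mul_le_mul_left h6 hyp
    rw [← mul_div_assoc, le_div_iff₀ hlam]
    linarith
  calc y = (y ^ (1 / qk k)) ^ qk k := by
        rw [← Real.rpow_mul hy.le, one_div, inv_mul_cancel₀ hq.ne', Real.rpow_one]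
    _ ≤ (C₀ * (M / lam)) ^ qk k := Real.rpow_le_rpow (Real.rpow_nonneg hy.le _) h5 hq.le
    _ = C₀ ^ qk k * (M / lam) ^ qk k := Real.mul_rpow hC₀.le hR0

end Claimed.Agent.R257
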