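import Claimed.Agent.R257.PK2.NcDefs

/-!
# R257 / PK2 / NcGeo : THE GEOMETRIC HALF OF `p:near-cauchy` (H packets.tex l.1196-1317: slots, typical directions, resampling, occupancy)      (architect helper266)

No analysis in this file: finite sums, the triangle inequality in native coordinates, one volume packing.   EXIT: `nc_geo`.
DATA: fine family `A` (scale `N`), coarse family `B` (scale `M = N/L`), window `W`, square weights `g T = β_T² ≥ 0`, children `cp T`, points `Y`.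
`ncI0 … z` = the coarse cells `T` with `d_T(z) ≤ ρ₆` which have an ATTACHED fine packet `T' ∈ cp T`, `d_{T'}(z) ≤ ρ₇`.       `ncTyp v g t c` = the TYPICAL elements `T₀` of `t`: `g`-mass of `{T ∈ t : |v_T - v_{T₀}| ≤ σ}` is `≥ c σ^k` for ALL `0 < σ ≤ 1`.
Every `sorry` is a leaf `L-NCG-*`: prove IN PLACE, statements verbatim, auxiliary lemmas directly above, prefix `nc_`.
-/

set_option autoImplicit false

namespace Claimed.Agent.R257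

open MeasureTheory Metric Set
open scoped ENNReal Classical

noncomputable section

variable {k : ℕ} {ι κ : Type}

/-- the incidence relation `I₀(z, T)` -/
def ncI0 (A : PFam k ι) (B : PFam k κ) (cp : κ → Finset ι) (W : Finset κ) (ρ₆ ρ₇ : ℝ) (z : ST k) : Finset κ :=
  W.filter fun T => B.d T z ≤ ρ₆ ∧ ∃ T' ∈ cp T, A.d T' z ≤ ρ₇

/-- the typical elements of `t` -/
def ncTyp (v : κ → E k) (g : κ → ℝ) (t : Finset κ) (c : ℝ) : Finset κ :=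
  t.filter fun T₀ => ∀ σ : ℝ, 0 < σ → σ ≤ 1 → c * σ ^ k ≤ ∑ T ∈ t.filter (fun T => ‖v T - v T₀‖ ≤ σ), g T

/-- the threshold constant of typicality -/
def ncτ (k : ℕ) (C₀ : ℝ) : ℝ := (2 * (2 * (C₀ + 1)) ^ k)⁻¹

/-- **L-NCG-GREEDY.**  Strong induction on `U.card`.  `U = ∅`: `S = ∅`.  Otherwise take `i₁ ∈ U` with `σ i₁` maximal (`Finset.exists_max_image`), `U' = U.filter (σ i₁ < ‖v · - v i₁‖)` (`i₁ ∉ U'` as `0 ≤ σ i₁`, so `U'.card < U.card`), `S'` for `U'`, `S = insert i₁ S'`.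
Separation of `i₁` and `j ∈ S' ⊆ U'`: `‖v j - v i₁‖ > σ i₁ = max (σ i₁) (σ j)`.   Covering: `T ∈ U \ U'` is covered by `i₁`. -/
theorem nc_greedy (U : Finset κ) (v : κ → E k) (σ : κ → ℝ) (hσ : ∀ i ∈ U, 0 ≤ σ i) :
    ∃ S : Finset κ, S ⊆ U ∧ (∀ i ∈ S, ∀ j ∈ S, i ≠ j → max (σ i) (σ j) < ‖v i - v j‖) ∧ ∀ T ∈ U, ∃ i ∈ S, ‖v T - v i‖ ≤ σ i := by
  induction U using Finset.strongInduction with
  | H U ih =>
    rcases U.eq_empty_or_nonempty with rfl | hne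
    · exact ⟨∅, Finset.Subset.refl _, by simp, by simp⟩
    obtain ⟨i₁, hi₁, hmax⟩ := Finset.exists_max_image U σ hne
    obtain ⟨U', hU'⟩ : ∃ U' : Finset κ, U' = U.filter (fun T => σ i₁ < ‖v T - v i₁‖) := ⟨_, rfl⟩
    have hsub : U' ⊆ U := by rw [hU']; exact Finset.filter_subset _ _
    have hmemU' : ∀ T, T ∈ U' ↔ T ∈ U ∧ σ i₁ < ‖v T - v i₁‖ := by
      intro T; rw [hU', Finset.mem_filter]
    have hi₁U' : i₁ ∉ U' := by
      intro h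
      have := ((hmemU' i₁).1 h).2
      rw [sub_self, norm_zero] at this
      linarith [hσ i₁ hi₁]
    have hss : U' ⊂ U := ⟨hsub, fun h => hi₁U' (h hi₁)⟩
    obtain ⟨S', hS'U, hS'sep, hS'cov⟩ := ih U' hss (fun i hi => hσ i (hsub hi))
    refine ⟨insert i₁ S', ?_, ?_, ?_⟩
    · intro x hx
      rcases Finset.mem_insert.1 hx with h | h
      · rw [h]; exact hi₁
      · exact hsub (hS'U h)
    · intro i hi j hj hij
      rcases Finset.mem_insert.1 hi with hi | hi <;> rcases Finset.mem_insert.1 hj with hj | hj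
      · exact absurd (hi.trans hj.symm) hij
      · have hjU' := hS'U hj
        have h1 := ((hmemU' j).1 hjU').2
        rw [hi, max_eq_left (hmax j (hsub hjU')), norm_sub_rev]
        exact h1
      · have hiU' := hS'U hi
        have h1 := ((hmemU' i).1 hiU').2
        rw [hj, max_eq_right (hmax i (hsub hiU'))]
        exact h1
      · exact hS'sep i hi j hj hij
    · intro T hT
      by_cases h : σ i₁ < ‖v T - v i₁‖
      · obtain ⟨i, hi, hle⟩ := hS'cov T ((hmemU' T).2 ⟨hT, h⟩)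
        exact ⟨i, Finset.mem_insert_of_mem hi, hle⟩
      · exact ⟨i₁, Finset.mem_insert_self _ _, not_lt.1 h⟩

/-- **L-NCG-PACK.**  The balls `ball (v i) (σ i / 2)`, `i ∈ S`, are pairwise disjoint (`‖v i - v j‖ > max ≥ (σ i + σ j)/2`) and contained in `ball 0 (C₀ + 1)`;  `volume (ball x r) = ofReal (r ^ k) * volume (ball 0 1)` (`Measure.addHaar_ball`, `finrank_euclideanSpace_fin`), `0 < volume (ball 0 1) < ∞`;
`measure_biUnion_finset`, `measure_mono`.   So `∑ (σ i / 2)^k ≤ (C₀ + 1)^k`.   (Model: the proof of `BD.card_le_of_sep`, `Lib/BD/Wt.lean` l.363.) -/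
theorem nc_pack (S : Finset κ) (v : κ → E k) (σ : κ → ℝ) {C₀ : ℝ} (hC₀ : 0 ≤ C₀) (hσ : ∀ i ∈ S, 0 < σ i ∧ σ i ≤ 1) (hv : ∀ i ∈ S, ‖v i‖ ≤ C₀)
    (hsep : ∀ i ∈ S, ∀ j ∈ S, i ≠ j → max (σ i) (σ j) < ‖v i - v j‖) : ∑ i ∈ S, σ i ^ k ≤ (2 * (C₀ + 1)) ^ k := by
  set m1 : ℝ := (volume : Measure (E k)).real (ball (0 : E k) 1) with hm1
  have hm10 : 0 < m1 := by
    rw [hm1, Measure.real]
    exact ENNReal.toReal_pos (measure_ball_pos _ _ (by norm_num)).ne' measure_ball_lt_top.ne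
  have hvol : ∀ (x : E k) (r : ℝ), 0 < r → (volume : Measure (E k)).real (ball x r) = r ^ k * m1 := by
    intro x r hr
    rw [hm1, Measure.real, Measure.real, Measure.addHaar_ball_of_pos volume x hr, ENNReal.toReal_mul, ENNReal.toReal_ofReal (by positivity),
      finrank_euclideanSpace_fin]
  have hdisj : (S : Set κ).PairwiseDisjoint (fun i => ball (v i) (σ i / 2)) := by
    intro i hi j hj hij
    apply ball_disjoint_ball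
    rw [dist_eq_norm]
    have h1 := hsep i hi j hj hij
    have h2 := le_max_left (σ i) (σ j)
    have h3 := le_max_right (σ i) (σ j)
    linarith
  have hsub : (⋃ i ∈ S, ball (v i) (σ i / 2)) ⊆ ball (0 : E k) (C₀ + 1) := by
    intro x hx
    simp only [mem_iUnion, exists_prop] at hx
    obtain ⟨i, hi, hx⟩ := hx
    rw [mem_ball, dist_eq_norm] at hx
    rw [mem_ball, dist_zero_right]
    have h1 : ‖x‖ ≤ ‖x - v i‖ + ‖v i‖ := by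
      have := norm_add_le (x - v i) (v i)
      rwa [sub_add_cancel] at this
    linarith [hv i hi, (hσ i hi).2]
  have h1 : ∑ i ∈ S, (volume : Measure (E k)).real (ball (v i) (σ i / 2)) ≤ (volume : Measure (E k)).real (ball (0 : E k) (C₀ + 1)) := by
    rw [← measureReal_biUnion_finset hdisj (fun i _ => measurableSet_ball)]
    exact measureReal_mono hsub measure_ball_lt_top.ne
  rw [hvol _ _ (by linarith)] at h1
  have h2 : ∑ i ∈ S, (volume : Measure (E k)).real (ball (v i) (σ i / 2)) = (∑ i ∈ S, σ i ^ k) / 2 ^ k * m1 := by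
    rw [Finset.sum_div, Finset.sum_mul]
    refine Finset.sum_congr rfl fun i hi => ?_
    rw [hvol _ _ (by linarith [(hσ i hi).1]), div_pow]
  rw [h2] at h1
  have h3 := le_of_mul_le_mul_right h1 hm10
  rw [div_le_iff₀ (by positivity)] at h3
  rw [mul_pow]
  linarith

/-- **L-NCG-TYP: the atypical elements have small mass** (H l.1212-1228, without dyadic grids).   `U = t \ ncTyp v g t c`; for `T₀ ∈ U` choose `σ T₀ ∈ (0,1]` with `∑_{T ∈ t, |v_T - v_{T₀}| ≤ σ T₀} g < c (σ T₀)^k`;  `S` of `nc_greedy`: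
`∑_U g ≤ ∑_{i ∈ S} ∑_{T ∈ t, |v_T - v_i| ≤ σ i} g ≤ c ∑_{i ∈ S} (σ i)^k ≤ c (2 (C₀+1))^k` (`nc_pack`).   (First inequality: `U ⊆ S.biUnion …`, `Finset.sum_le_sum_of_subset_of_nonneg`, `Finset.sum_biUnion_le`-type bound for nonnegative terms.) -/
theorem nc_typ (t : Finset κ) (v : κ → E k) (g : κ → ℝ) {C₀ c : ℝ} (hC₀ : 0 ≤ C₀) (hc : 0 ≤ c) (hg : ∀ T ∈ t, 0 ≤ g T) (hv : ∀ T ∈ t, ‖v T‖ ≤ C₀) :
    ∑ T ∈ t \ ncTyp v g t c, g T ≤ c * (2 * (C₀ + 1)) ^ k := by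
  set U : Finset κ := t \ ncTyp v g t c with hU
  have hex : ∀ T₀ ∈ U, ∃ σ : ℝ, 0 < σ ∧ σ ≤ 1 ∧ ∑ T ∈ t.filter (fun T => ‖v T - v T₀‖ ≤ σ), g T < c * σ ^ k := by
    intro T₀ hT₀
    rw [hU, Finset.mem_sdiff] at hT₀
    obtain ⟨h1, h2⟩ := hT₀
    by_contra hcon
    refine h2 (Finset.mem_filter.2 ⟨h1, fun σ hσ0 hσ1 => ?_⟩)
    by_contra h3
    exact hcon ⟨σ, hσ0, hσ1, not_le.1 h3⟩
  set σ : κ → ℝ := fun T₀ => if h : T₀ ∈ U then (hex T₀ h).choose else 1 with hσ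
  have hσs : ∀ T₀ ∈ U, 0 < σ T₀ ∧ σ T₀ ≤ 1 ∧ ∑ T ∈ t.filter (fun T => ‖v T - v T₀‖ ≤ σ T₀), g T < c * σ T₀ ^ k := by
    intro T₀ h
    simp only [hσ, dif_pos h]
    exact (hex T₀ h).choose_spec
  have hUt : U ⊆ t := Finset.sdiff_subset
  obtain ⟨S, hSU, hsep, hcov⟩ := nc_greedy U v σ fun i hi => (hσs i hi).1.le
  have hp := nc_pack S v σ hC₀ (fun i hi => ⟨(hσs i (hSU hi)).1, (hσs i (hSU hi)).2.1⟩) (fun i hi => hv i (hUt (hSU hi))) hsep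
  calc ∑ T ∈ U, g T ≤ ∑ T ∈ U, ∑ i ∈ S, (if ‖v T - v i‖ ≤ σ i then g T else 0) := by
        refine Finset.sum_le_sum fun T hT => ?_
        obtain ⟨i, hi, h⟩ := hcov T hT
        have hnn : ∀ j ∈ S, 0 ≤ (if ‖v T - v j‖ ≤ σ j then g T else 0) := by
          intro j _
          split_ifs
          exacts [hg T (hUt hT), le_rfl]
        refine le_trans (le_of_eq ?_) (Finset.single_le_sum hnn hi)
        rw [if_pos h]
    _ = ∑ i ∈ S, ∑ T ∈ U.filter (fun T => ‖v T - v i‖ ≤ σ i), g T := by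
        rw [Finset.sum_comm]
        exact Finset.sum_congr rfl fun i _ => (Finset.sum_filter _ _).symm
    _ ≤ ∑ i ∈ S, ∑ T ∈ t.filter (fun T => ‖v T - v i‖ ≤ σ i), g T := by
        refine Finset.sum_le_sum fun i _ => ?_
        exact Finset.sum_le_sum_of_subset_of_nonneg (Finset.filter_subset_filter _ hUt) fun T hT _ => hg T (Finset.mem_filter.1 hT).1
    _ ≤ ∑ i ∈ S, c * σ i ^ k := Finset.sum_le_sum fun i hi => (hσs i (hSU hi)).2.2.le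
    _ = c * ∑ i ∈ S, σ i ^ k := by rw [Finset.mul_sum]
    _ ≤ _ := mul_le_mul_of_nonneg_left hp hc

/-- **L-NCG-PAIR: two points in one coarse cell.**  `natX M v (y - z) = (natX M v y - u) - (natX M v z - u)` (`natX_sub`) has norm `≤ 2ρ`; components (sup norm of the pair, `natX` unfolded, `M > 0`). -/
theorem nc_pair (B : PFam k κ) (hN : 0 < B.N) {T : κ} {z y : ST k} {ρ : ℝ} (h1 : B.d T z ≤ ρ) (h2 : B.d T y ≤ ρ) :
    ‖(y.1 - z.1) - (2 * (y.2 - z.2)) • B.v T‖ ≤ 2 * ρ * B.N ∧ |y.2 - z.2| ≤ 2 * ρ * B.N ^ 2 := by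
  unfold PFam.d at h1 h2
  have h3 : ‖natX B.N (B.v T) (y - z)‖ ≤ 2 * ρ := by
    rw [natX_sub]
    calc ‖natX B.N (B.v T) y - natX B.N (B.v T) z‖
        = ‖(natX B.N (B.v T) y - B.u T) - (natX B.N (B.v T) z - B.u T)‖ := by congr 1; abel
      _ ≤ ‖natX B.N (B.v T) y - B.u T‖ + ‖natX B.N (B.v T) z - B.u T‖ := norm_sub_le _ _
      _ ≤ 2 * ρ := by linarith
  have h4 := (norm_fst_le _).trans h3
  have h5 := (norm_snd_le _).trans h3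
  unfold natX at h4 h5
  simp only [Prod.fst_sub, Prod.snd_sub] at h4 h5
  constructor
  · rw [norm_smul, norm_inv, Real.norm_eq_abs, abs_of_pos hN, inv_mul_le_iff₀ hN] at h4
    linarith
  · rw [Real.norm_eq_abs, abs_div, abs_of_pos (by positivity : 0 < B.N ^ 2), div_le_iff₀ (by positivity)] at h5
    exact h5

/-- **L-NCG-COARSE: the coarse hit** (H (p:coarse-hit), (p:slot-upper)).   If the filter is empty: `0 ≤` right side.   Otherwise `τ = |y.2 - z.2| ≤ 2 ρ₆ M²` and all its `T` have `‖v_T - ξ₀‖ ≤ ρ₆ M/τ`, `ξ₀ = (2 (y.2 - z.2))⁻¹ • (y.1 - z.1)` (`nc_pair`).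
Net of that ball at the scale `r = 1/M` (`BD.exists_sep_net` with `A = ρ₆ M²/τ ≥ 1/2`; `BD.card_le_of_sep`: `≤ (2A + 1)^k ≤ (4A)^k` centres);  per centre `ξ`:  `#{T : ‖v_T - ξ‖ ≤ 1/M, d_T(z) ≤ ρ₆} (1+ρ₆)^(-(k+2)) ≤ c₃ m₀` (`pkw_slot` with `P' = k + 2`).
So the sum is `≤ h (4 ρ₆ M²/τ)^k c₃ m₀ (2ρ₆)^(k+2)`;   `Λ₁ = 4^k 2^(k+2) c₃ m₀ + 1`. -/
theorem nc_hit_coarse (k : ℕ) (K : PCls) : ∃ Λ₁ : ℝ, 0 < Λ₁ ∧ ∀ (κ : Type) (B : PFam k κ) (W : Finset κ) (α g : κ → ℝ) (z y : ST k) (ρ₆ h : ℝ), B.In W K α → 1 ≤ ρ₆ → 0 ≤ h →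
    (∀ T ∈ W, g T ≤ h) → z.2 ≠ y.2 →
    ∑ T ∈ W.filter (fun T => B.d T z ≤ ρ₆ ∧ B.d T y ≤ ρ₆), g T ≤ Λ₁ * ρ₆ ^ (2 * k + 2) * h * (B.N ^ 2 / |y.2 - z.2|) ^ k := by
  obtain ⟨c₃, hc₃, H⟩ := pkw_slot k (P' := (k : ℝ) + 2) (by linarith)
  refine ⟨4 ^ k * 2 ^ (k + 2) * c₃ * K.m₀ + 1, by positivity, fun κ B W α g z y ρ₆ h hB hρ hh hg hzy => ?_⟩
  have hM : 1 ≤ B.N := hB.one_le
  have hM0 : 0 < B.N := by linarith
  set F : Finset κ := W.filter (fun T => B.d T z ≤ ρ₆ ∧ B.d T y ≤ ρ₆) with hF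
  set τ : ℝ := |y.2 - z.2| with hτ
  have hΔ : y.2 - z.2 ≠ 0 := sub_ne_zero.2 (Ne.symm hzy)
  have hτ0 : 0 < τ := abs_pos.2 hΔ
  have hFW : F ⊆ W := Finset.filter_subset _ _
  have hcard : (F.card : ℝ) ≤ (4 ^ k * 2 ^ (k + 2) * c₃ * K.m₀) * ρ₆ ^ (2 * k + 2) * (B.N ^ 2 / τ) ^ k := by
    rcases F.eq_empty_or_nonempty with he | ⟨T₁, hT₁⟩
    · rw [he]
      simp only [Finset.card_empty, Nat.cast_zero]
      positivity
    have hτle : τ ≤ 2 * ρ₆ * B.N ^ 2 := (nc_pair B hM0 (Finset.mem_filter.1 hT₁).2.1 (Finset.mem_filter.1 hT₁).2.2).2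
    set ξ₀ : E k := (2 * (y.2 - z.2))⁻¹ • (y.1 - z.1) with hξ₀
    set Aa : ℝ := ρ₆ * B.N ^ 2 / τ with hAa
    have hAa0 : 0 ≤ Aa := by positivity
    have hAa2 : 1 ≤ 2 * Aa := by
      rw [hAa, mul_div_assoc', le_div_iff₀ hτ0]
      linarith
    have hr0 : 0 < 1 / B.N := by positivity
    have hball : ∀ T ∈ F, ‖B.v T - ξ₀‖ ≤ Aa * (1 / B.N) := by
      intro T hT
      have p1 := (nc_pair B hM0 (Finset.mem_filter.1 hT).2.1 (Finset.mem_filter.1 hT).2.2).1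
      have e : B.v T - ξ₀ = -((2 * (y.2 - z.2))⁻¹ • ((y.1 - z.1) - (2 * (y.2 - z.2)) • B.v T)) := by
        rw [hξ₀, smul_sub (2 * (y.2 - z.2))⁻¹ (y.1 - z.1) ((2 * (y.2 - z.2)) • B.v T), smul_smul,
          inv_mul_cancel₀ (mul_ne_zero two_ne_zero hΔ), one_smul]
        abel
      rw [e, norm_neg, norm_smul, norm_inv, Real.norm_eq_abs, abs_mul, abs_two, inv_mul_le_iff₀ (by positivity)]
      calc _ ≤ 2 * ρ₆ * B.N := p1
        _ = 2 * τ * (Aa * (1 / B.N)) := by rw [hAa]; field_simp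
    obtain ⟨t, ht1, ht2, ht3⟩ := BD.exists_sep_net ξ₀ hAa0 hr0
    have htc := BD.card_le_of_sep hAa0 hr0 t ξ₀ ht1 ht2
    rw [finrank_euclideanSpace_fin] at htc
    have htc' : (t.card : ℝ) ≤ (4 * Aa) ^ k := htc.trans (pow_le_pow_left₀ (by positivity) (by linarith) k)
    have hslot : ∀ c ∈ t, ((F.filter fun T => ‖B.v T - c‖ ≤ 1 / B.N).card : ℝ) ≤ c₃ * K.m₀ * (2 * ρ₆) ^ (k + 2) := by
      intro c _
      have h1 := H κ B W K α hB c z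
      have h2 : ((F.filter fun T => ‖B.v T - c‖ ≤ 1 / B.N).card : ℝ) * (2 * ρ₆) ^ (-((k : ℝ) + 2))
          ≤ ∑ T ∈ W.filter (fun T => ‖B.v T - c‖ ≤ 1 / B.N), (1 + B.d T z) ^ (-((k : ℝ) + 2)) := by
        rw [← nsmul_eq_mul, ← Finset.sum_const]
        refine (Finset.sum_le_sum fun T hT => ?_).trans
          (Finset.sum_le_sum_of_subset_of_nonneg (Finset.filter_subset_filter _ hFW) fun T _ _ => Real.rpow_nonneg (by have := B.d_nonneg T z; linarith) _)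
        have hd := (Finset.mem_filter.1 (Finset.mem_filter.1 hT).1).2.1
        exact Real.rpow_le_rpow_of_nonpos (by have := B.d_nonneg T z; linarith) (by linarith) (by have : (0:ℝ) ≤ k := Nat.cast_nonneg k; linarith)
      have h3 : (2 * ρ₆) ^ (-((k : ℝ) + 2)) = ((2 * ρ₆) ^ (k + 2))⁻¹ := by
        rw [Real.rpow_neg (by positivity), ← Real.rpow_natCast]
        push_cast
        rfl
      rw [h3, ← div_eq_mul_inv, div_le_iff₀ (by positivity)] at h2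
      exact h2.trans (mul_le_mul_of_nonneg_right h1 (by positivity))
    have hcov : F ⊆ t.biUnion fun c => F.filter fun T => ‖B.v T - c‖ ≤ 1 / B.N := by
      intro T hT
      obtain ⟨c, hc, hcT⟩ := ht3 (B.v T) (hball T hT)
      exact Finset.mem_biUnion.2 ⟨c, hc, Finset.mem_filter.2 ⟨hT, hcT⟩⟩
    calc (F.card : ℝ) ≤ ((t.biUnion fun c => F.filter fun T => ‖B.v T - c‖ ≤ 1 / B.N).card : ℝ) := by exact_mod_cast Finset.card_le_card hcov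
      _ ≤ ((∑ c ∈ t, (F.filter fun T => ‖B.v T - c‖ ≤ 1 / B.N).card : ℕ) : ℝ) := by exact_mod_cast Finset.card_biUnion_le
      _ = ∑ c ∈ t, ((F.filter fun T => ‖B.v T - c‖ ≤ 1 / B.N).card : ℝ) := by push_cast; rfl
      _ ≤ ∑ _c ∈ t, c₃ * K.m₀ * (2 * ρ₆) ^ (k + 2) := Finset.sum_le_sum hslot
      _ = t.card * (c₃ * K.m₀ * (2 * ρ₆) ^ (k + 2)) := by rw [Finset.sum_const, nsmul_eq_mul]
      _ ≤ (4 * Aa) ^ k * (c₃ * K.m₀ * (2 * ρ₆) ^ (k + 2)) := mul_le_mul_of_nonneg_right htc' (by positivity)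
      _ = _ := by
          rw [hAa, mul_div_assoc, mul_pow, mul_pow, mul_pow]
          ring
  have hq : 0 ≤ ρ₆ ^ (2 * k + 2) * (B.N ^ 2 / τ) ^ k := by positivity
  calc ∑ T ∈ F, g T ≤ ∑ _T ∈ F, h := Finset.sum_le_sum fun T hT => hg T (hFW hT)
    _ = F.card * h := by rw [Finset.sum_const, nsmul_eq_mul]
    _ ≤ ((4 ^ k * 2 ^ (k + 2) * c₃ * K.m₀) * ρ₆ ^ (2 * k + 2) * (B.N ^ 2 / τ) ^ k) * h := mul_le_mul_of_nonneg_right hcard hh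
    _ ≤ _ := by nlinarith [mul_nonneg hq hh]

/-- **L-NCG-FINE: the fine hit** (H l.1252-1262).   `d_{T'}(y) ≤ d_{T'}(z) + ‖natX N v' (y - z)‖` (`PFam.d_le_add`).   With `τ = |y.2 - z.2|`, `M = B.N`, `N = L M`:  time component `τ/N² ≤ 2ρ₆ M²/N² = 2ρ₆/L² ≤ 1`;
space component `‖Δx - 2Δt v'‖ ≤ ‖Δx - 2Δt v_{T₀}‖ + 2τ ‖v_{T₀} - v_T‖ + 2τ ‖v_T - v'‖ ≤ 2ρ₆ M + 2N + 2 C₁ τ/M ≤ 2ρ₆ (1 + 2C₁) M + 2N ≤ 3N`  (`nc_pair` for `T₀`). -/
theorem nc_hit_fine {A : PFam k ι} {B : PFam k κ} {L C₁ ρ₆ ρ₇ : ℝ} (hN : B.N = A.N / L) (hL : 1 ≤ L) (hBN : 1 ≤ B.N) (hC₁ : 0 ≤ C₁) (hρ₆ : 1 ≤ ρ₆) (hgeo : 2 * (1 + 2 * C₁) * ρ₆ ≤ L)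
    {T₀ T : κ} {T' : ι} {z y : ST k} (h1 : B.d T₀ z ≤ ρ₆) (h2 : B.d T₀ y ≤ ρ₆) (hτ : A.N ≤ |y.2 - z.2|) (hv : ‖B.v T - B.v T₀‖ ≤ A.N / |y.2 - z.2|)
    (hv' : ‖A.v T' - B.v T‖ ≤ C₁ / B.N) (hz : A.d T' z ≤ ρ₇) : A.d T' y ≤ ρ₇ + 3 := by
  have hM0 : 0 < B.N := by linarith
  have hL0 : 0 < L := by linarith
  have hNLM : A.N = L * B.N := by rw [hN]; field_simp
  have hN0 : 0 < A.N := by rw [hNLM]; positivity
  obtain ⟨p1, p2⟩ := nc_pair B hM0 h1 h2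
  set τ : ℝ := |y.2 - z.2| with hτd
  have hτ0 : 0 < τ := by linarith
  refine (A.d_le_add T' z y).trans (add_le_add hz ?_)
  unfold natX
  rw [Prod.norm_def]
  refine max_le ?_ ?_
  · simp only [Prod.fst_sub, Prod.snd_sub]
    rw [norm_smul, norm_inv, Real.norm_of_nonneg hN0.le, inv_mul_le_iff₀ hN0]
    have e : (y.1 - z.1) - (2 * (y.2 - z.2)) • A.v T'
        = ((y.1 - z.1) - (2 * (y.2 - z.2)) • B.v T₀) - (2 * (y.2 - z.2)) • (B.v T - B.v T₀) - (2 * (y.2 - z.2)) • (A.v T' - B.v T) := by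
      simp only [smul_sub]
      abel
    have hn : ∀ x : E k, ‖(2 * (y.2 - z.2)) • x‖ = 2 * τ * ‖x‖ := by
      intro x
      rw [norm_smul, Real.norm_eq_abs, abs_mul, abs_two]
    rw [e]
    refine (norm_sub_le _ _).trans ?_
    have a1 := norm_sub_le ((y.1 - z.1) - (2 * (y.2 - z.2)) • B.v T₀) ((2 * (y.2 - z.2)) • (B.v T - B.v T₀))
    rw [hn] at a1 ⊢
    have a2 : 2 * τ * ‖B.v T - B.v T₀‖ ≤ 2 * A.N := by
      calc 2 * τ * ‖B.v T - B.v T₀‖ ≤ 2 * τ * (A.N / τ) := mul_le_mul_of_nonneg_left hv (by positivity)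
        _ = 2 * A.N := by field_simp
    have a3 : 2 * τ * ‖A.v T' - B.v T‖ ≤ 4 * ρ₆ * C₁ * B.N := by
      calc 2 * τ * ‖A.v T' - B.v T‖ ≤ 2 * (2 * ρ₆ * B.N ^ 2) * (C₁ / B.N) :=
            mul_le_mul (by linarith) hv' (norm_nonneg _) (by positivity)
        _ = 4 * ρ₆ * C₁ * B.N := by field_simp; ring
    have a4 : 2 * (1 + 2 * C₁) * ρ₆ * B.N ≤ A.N := by
      rw [hNLM]
      exact mul_le_mul_of_nonneg_right hgeo hM0.le
    nlinarith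
  · simp only [Prod.snd_sub]
    rw [Real.norm_eq_abs, abs_div, abs_of_nonneg (by positivity : (0:ℝ) ≤ A.N ^ 2), div_le_iff₀ (by positivity)]
    have b1 : 2 * ρ₆ ≤ L := by nlinarith
    have b2 : 2 * ρ₆ * B.N ^ 2 ≤ A.N ^ 2 := by
      rw [hNLM, mul_pow]
      have : 2 * ρ₆ ≤ L ^ 2 := by nlinarith
      exact mul_le_mul_of_nonneg_right this (by positivity)
    have b3 : 0 ≤ A.N ^ 2 := by positivity
    linarith

/-- **L-NCG-NEAR.**  `‖Δx‖ ≤ ‖Δx - 2Δt v‖ + 2 |Δt| ‖v‖ ≤ 2ρ₆ M + 2 C₀ N` (`nc_pair`, `In.freq`), `|Δt| ≤ N`, `0 ≤ C₀` (`In.C₀_nonneg`). -/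
theorem nc_near_geo {B : PFam k κ} {W : Finset κ} {K : PCls} {α : κ → ℝ} (hB : B.In W K α) {T : κ} (hT : T ∈ W) {z y : ST k} {ρ₆ N : ℝ} (h1 : B.d T z ≤ ρ₆) (h2 : B.d T y ≤ ρ₆)
    (hN : 2 * ρ₆ * B.N ≤ N) (hτ : |y.2 - z.2| ≤ N) : ‖y - z‖ ≤ (2 * K.C₀ + 1) * N := by
  have hBN : 0 < B.N := lt_of_lt_of_le one_pos hB.one_le
  have hC := hB.C₀_nonneg hT
  have hN0 : 0 ≤ N := (abs_nonneg _).trans hτ
  obtain ⟨hp, -⟩ := nc_pair B hBN h1 h2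
  have hv := hB.freq T hT
  rw [Prod.norm_def]
  refine max_le ?_ ?_
  · simp only [Prod.fst_sub]
    calc ‖y.1 - z.1‖ = ‖((y.1 - z.1) - (2 * (y.2 - z.2)) • B.v T) + (2 * (y.2 - z.2)) • B.v T‖ := by congr 1; abel
      _ ≤ ‖(y.1 - z.1) - (2 * (y.2 - z.2)) • B.v T‖ + ‖(2 * (y.2 - z.2)) • B.v T‖ := norm_add_le _ _
      _ ≤ N + 2 * N * K.C₀ := by
          refine add_le_add (hp.trans hN) ?_
          rw [norm_smul, Real.norm_eq_abs, abs_mul, abs_two]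
          exact mul_le_mul (by linarith) hv (norm_nonneg _) (by linarith)
      _ = (2 * K.C₀ + 1) * N := by ring
  · simp only [Prod.snd_sub, Real.norm_eq_abs]
    nlinarith

/-- double counting -/
theorem nc_dc {β : Type} (S : Finset κ) (Y : Finset β) (g : κ → ℝ) (Q : κ → β → Prop) :
    ∑ T ∈ S, g T * ((Y.filter (Q T)).card : ℝ) = ∑ y ∈ Y, ∑ T ∈ S.filter (fun T => Q T y), g T := by
  have h1 : ∀ T ∈ S, g T * ((Y.filter (Q T)).card : ℝ) = ∑ y ∈ Y, if Q T y then g T else 0 := by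
    intro T _
    rw [Finset.card_filter]
    push_cast
    rw [Finset.mul_sum]
    refine Finset.sum_congr rfl fun y _ => ?_
    split_ifs <;> simp
  rw [Finset.sum_congr rfl h1, Finset.sum_comm]
  exact Finset.sum_congr rfl fun y _ => (Finset.sum_filter _ _).symm

theorem nc_τ_pos (k : ℕ) {C₀ : ℝ} (hC₀ : 0 ≤ C₀) : 0 < ncτ k C₀ := by
  unfold ncτ
  positivity

/-- **L-NCG-FAR: the far part of the expected occupancy** (H (p:far-occupancy)).   `t = ncI0 … z`, `m₀ = ∑_t g`, `typ = ncTyp B.v g t (ncτ k C₀ * m₀)`, `M = B.N`, `N = A.N = L M`.   For `T ∈ t` choose `att T ∈ cp T` with `d_{att T}(z) ≤ ρ₇`.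
Exchange the sums (`Finset.card_filter`/`Finset.sum_comm`): left side `= ∑_{y ∈ Y, τ_y ≥ N} c(y)`, `c(y) = ∑_{T ∈ typ, d_T(y) ≤ ρ₆} g T`.     `P_f(y) := ∑_{T ∈ t, d_{att T}(y) ≤ ρ₇ + 3} g T`;   `∑_{y ∈ Y} P_f(y) = ∑_{T ∈ t} g T #{y ∈ Y : d_{att T}(y) ≤ ρ₇+3} ≤ m₀ Ω`.
CLAIM `ncτ m₀ c(y) ≤ Λ₁ ρ₆^(2k+2) H² L^(-k) P_f(y)` for `τ_y ≥ N`.   If no `T ∈ typ` sees `y`: `c(y) = 0`.   Otherwise fix such a `T₀`; `σ = N/τ ∈ (0,1]`; typicality: `ncτ m₀ σ^k ≤ ∑_{T ∈ t, |v_T - v_{T₀}| ≤ σ} g T ≤ P_f(y)` (`nc_hit_fine` for every such `T`);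
`c(y) ≤ Λ₁ ρ₆^(2k+2) H² M^(-k) (M²/τ)^k = Λ₁ ρ₆^(2k+2) H² L^(-k) σ^k` (`nc_hit_coarse`, `typ ⊆ t ⊆ {d_T(z) ≤ ρ₆}`, `h = H² M^(-k)`).
Sum over `y`, divide by `ncτ m₀` (if `m₀ = 0` all `g T = 0` on `t`: left side `0`).   `Λ = Λ₁ / ncτ k K.C₀`. -/
theorem nc_far (K : PCls) (hC₀ : 0 ≤ K.C₀) (C₁ : ℝ) (hC₁ : 0 ≤ C₁) : ∃ Λ : ℝ, 0 < Λ ∧ ∀ (ι κ : Type) (A : PFam k ι) (B : PFam k κ) (s : Finset ι) (W : Finset κ) (α g : κ → ℝ) (cp : κ → Finset ι)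
    (Y : Finset (ST k)) (z : ST k) (L H Ω ρ₆ ρ₇ : ℝ), B.In W K α → B.N = A.N / L → 1 ≤ L → 2 * (1 + 2 * C₁) * ρ₆ ≤ L → 1 ≤ ρ₆ → 0 ≤ Ω →
    (∀ T ∈ W, 0 ≤ g T ∧ g T ≤ H ^ 2 * B.N ^ (-(k : ℝ))) →
    (∀ T ∈ W, ∀ T' ∈ cp T, T' ∈ s ∧ ‖A.v T' - B.v T‖ ≤ C₁ / B.N) →
    (∀ T' ∈ s, ((Y.filter fun y => A.d T' y ≤ ρ₇ + 3).card : ℝ) ≤ Ω) →
    ∑ T ∈ ncTyp B.v g (ncI0 A B cp W ρ₆ ρ₇ z) (ncτ k K.C₀ * ∑ T ∈ ncI0 A B cp W ρ₆ ρ₇ z, g T), g T * ((Y.filter fun y => A.N ≤ |y.2 - z.2| ∧ B.d T y ≤ ρ₆).card : ℝ)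
      ≤ Λ * ρ₆ ^ (2 * k + 2) * H ^ 2 * L ^ (-(k : ℝ)) * Ω := by
  obtain ⟨Λ₁, hΛ₁, HC⟩ := nc_hit_coarse k K
  have hτ0 := nc_τ_pos k hC₀
  refine ⟨Λ₁ / ncτ k K.C₀, by positivity, fun ι κ A B s W α g cp Y z L H Ω ρ₆ ρ₇ hB hN hL hgeo hρ₆ hΩ hg hcap hocc => ?_⟩
  have hM : 1 ≤ B.N := hB.one_le
  have hM0 : 0 < B.N := by linarith
  have hL0 : 0 < L := by linarith
  have hNLM : A.N = L * B.N := by rw [hN]; field_simp
  have hN0 : 0 < A.N := by rw [hNLM]; positivity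
  set t : Finset κ := ncI0 A B cp W ρ₆ ρ₇ z with ht
  have htW : t ⊆ W := Finset.filter_subset _ _
  have htm : ∀ T ∈ t, B.d T z ≤ ρ₆ ∧ ∃ T' ∈ cp T, A.d T' z ≤ ρ₇ := fun T hT => (Finset.mem_filter.1 hT).2
  set m₀ : ℝ := ∑ T ∈ t, g T with hm₀
  have hgt : ∀ T ∈ t, 0 ≤ g T := fun T hT => (hg T (htW hT)).1
  have hm₀0 : 0 ≤ m₀ := Finset.sum_nonneg hgt
  set typ : Finset κ := ncTyp B.v g t (ncτ k K.C₀ * m₀) with htyp
  have htt : typ ⊆ t := Finset.filter_subset _ _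
  set Q : ℝ := Λ₁ * ρ₆ ^ (2 * k + 2) * H ^ 2 * L ^ (-(k : ℝ)) with hQ
  have hQ0 : 0 ≤ Q := by positivity
  -- the trivial case
  rcases hm₀0.eq_or_lt with hz0 | hpos
  · have hg0 : ∀ T ∈ t, g T = 0 := (Finset.sum_eq_zero_iff_of_nonneg hgt).1 hz0.symm
    have : ∑ T ∈ typ, g T * ((Y.filter fun y => A.N ≤ |y.2 - z.2| ∧ B.d T y ≤ ρ₆).card : ℝ) = 0 :=
      Finset.sum_eq_zero fun T hT => by rw [hg0 T (htt hT), zero_mul]
    rw [this]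
    positivity
  -- attached fine packets
  have hne : t.Nonempty := by
    by_contra h
    rw [Finset.not_nonempty_iff_eq_empty] at h
    rw [hm₀, h, Finset.sum_empty] at hpos
    exact lt_irrefl _ hpos
  obtain ⟨T₁, hT₁⟩ := hne
  obtain ⟨T'₁, -, -⟩ := (htm T₁ hT₁).2
  set att : κ → ι := fun T => if h : T ∈ t then (htm T h).2.choose else T'₁ with hatt
  have hatts : ∀ T ∈ t, att T ∈ cp T ∧ A.d (att T) z ≤ ρ₇ := by
    intro T h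
    simp only [hatt, dif_pos h]
    exact (htm T h).2.choose_spec
  set Yf : Finset (ST k) := Y.filter fun y => A.N ≤ |y.2 - z.2| with hYf
  set cy : ST k → ℝ := fun y => ∑ T ∈ typ.filter (fun T => B.d T y ≤ ρ₆), g T with hcy
  set Pf : ST k → ℝ := fun y => ∑ T ∈ t.filter (fun T => A.d (att T) y ≤ ρ₇ + 3), g T with hPf
  have hPf0 : ∀ y, 0 ≤ Pf y := fun y => Finset.sum_nonneg fun T hT => hgt T (Finset.mem_filter.1 hT).1
  have hlhs : ∑ T ∈ typ, g T * ((Y.filter fun y => A.N ≤ |y.2 - z.2| ∧ B.d T y ≤ ρ₆).card : ℝ) = ∑ y ∈ Yf, cy y := by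
    rw [← nc_dc typ Yf g fun T y => B.d T y ≤ ρ₆]
    refine Finset.sum_congr rfl fun T _ => ?_
    rw [hYf, Finset.filter_filter]
  have hPsum : ∑ y ∈ Y, Pf y ≤ m₀ * Ω := by
    rw [← nc_dc t Y g fun T y => A.d (att T) y ≤ ρ₇ + 3, hm₀, Finset.sum_mul]
    refine Finset.sum_le_sum fun T hT => mul_le_mul_of_nonneg_left ?_ (hgt T hT)
    exact hocc (att T) (hcap T (htW hT) (att T) (hatts T hT).1).1
  have hclaim : ∀ y ∈ Yf, ncτ k K.C₀ * m₀ * cy y ≤ Q * Pf y := by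
    intro y hy
    have hτy : A.N ≤ |y.2 - z.2| := (Finset.mem_filter.1 hy).2
    set τ : ℝ := |y.2 - z.2| with hτ
    have hτ0' : 0 < τ := by linarith
    rcases (typ.filter (fun T => B.d T y ≤ ρ₆)).eq_empty_or_nonempty with he | ⟨T₀, hT₀⟩
    · simp only [hcy, he, Finset.sum_empty, mul_zero]
      exact mul_nonneg hQ0 (hPf0 y)
    obtain ⟨hT₀t, hT₀y⟩ := Finset.mem_filter.1 hT₀
    have hT₀z : B.d T₀ z ≤ ρ₆ := (htm T₀ (htt hT₀t)).1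
    set σ : ℝ := A.N / τ with hσ
    have hσ0 : 0 < σ := by positivity
    have hσ1 : σ ≤ 1 := (div_le_one hτ0').2 hτy
    have h1 : ncτ k K.C₀ * m₀ * σ ^ k ≤ Pf y := by
      refine ((Finset.mem_filter.1 hT₀t).2 σ hσ0 hσ1).trans ?_
      refine Finset.sum_le_sum_of_subset_of_nonneg ?_ fun T hT _ => hgt T (Finset.mem_filter.1 hT).1
      intro T hT
      obtain ⟨hTt, hTv⟩ := Finset.mem_filter.1 hT
      refine Finset.mem_filter.2 ⟨hTt, ?_⟩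
      exact nc_hit_fine hN hL hM hC₁ hρ₆ hgeo hT₀z hT₀y hτy hTv (hcap T (htW hTt) (att T) (hatts T hTt).1).2 (hatts T hTt).2
    have hzy : z.2 ≠ y.2 := by
      intro e
      rw [hτ, e, sub_self, abs_zero] at hτ0'
      exact lt_irrefl _ hτ0'
    have h2 : cy y ≤ Λ₁ * ρ₆ ^ (2 * k + 2) * (H ^ 2 * B.N ^ (-(k : ℝ))) * (B.N ^ 2 / τ) ^ k := by
      refine le_trans ?_ (HC κ B W α g z y ρ₆ (H ^ 2 * B.N ^ (-(k : ℝ))) hB hρ₆ (by positivity) (fun T hT => (hg T hT).2) hzy)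
      refine Finset.sum_le_sum_of_subset_of_nonneg ?_ fun T hT _ => (hg T (Finset.mem_filter.1 hT).1).1
      intro T hT
      obtain ⟨hTt, hTy⟩ := Finset.mem_filter.1 hT
      exact Finset.mem_filter.2 ⟨htW (htt hTt), (htm T (htt hTt)).1, hTy⟩
    have h3 : Λ₁ * ρ₆ ^ (2 * k + 2) * (H ^ 2 * B.N ^ (-(k : ℝ))) * (B.N ^ 2 / τ) ^ k = Q * σ ^ k := by
      rw [hQ, hσ, hNLM, Real.rpow_neg hM0.le, Real.rpow_neg hL0.le, Real.rpow_natCast, Real.rpow_natCast, div_pow, div_pow, mul_pow]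
      field_simp
      ring
    rw [h3] at h2
    calc ncτ k K.C₀ * m₀ * cy y ≤ ncτ k K.C₀ * m₀ * (Q * σ ^ k) := mul_le_mul_of_nonneg_left h2 (by positivity)
      _ = Q * (ncτ k K.C₀ * m₀ * σ ^ k) := by ring
      _ ≤ Q * Pf y := mul_le_mul_of_nonneg_left h1 hQ0
  have hsum : ncτ k K.C₀ * m₀ * ∑ y ∈ Yf, cy y ≤ Q * (m₀ * Ω) := by
    rw [Finset.mul_sum]
    calc ∑ y ∈ Yf, ncτ k K.C₀ * m₀ * cy y ≤ ∑ y ∈ Yf, Q * Pf y := Finset.sum_le_sum hclaim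
      _ = Q * ∑ y ∈ Yf, Pf y := by rw [Finset.mul_sum]
      _ ≤ Q * ∑ y ∈ Y, Pf y :=
          mul_le_mul_of_nonneg_left (Finset.sum_le_sum_of_subset_of_nonneg (Finset.filter_subset _ _) fun y _ _ => hPf0 y) hQ0
      _ ≤ Q * (m₀ * Ω) := mul_le_mul_of_nonneg_left hPsum hQ0
  rw [hlhs]
  have h5 : m₀ * (ncτ k K.C₀ * ∑ y ∈ Yf, cy y) ≤ m₀ * (Q * Ω) := by nlinarith
  have h6 := le_of_mul_le_mul_left h5 hpos
  have h7 : Λ₁ / ncτ k K.C₀ * ρ₆ ^ (2 * k + 2) * H ^ 2 * L ^ (-(k : ℝ)) * Ω = Q * Ω / ncτ k K.C₀ := by rw [hQ]; ring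
  rw [h7, le_div_iff₀ hτ0]
  linarith

/-- **L-NCG-OCC: the lower occupancy** (H l.1296-1312; abstract).   `n_T = #{y ∈ Y : T ∈ I y}`.   `∑_{T ∈ W} g n_T = ∑_{z ∈ Y} ∑_{T ∈ I z} g ≥ #Y μ`;   Cauchy-Schwarz (`Finset.sum_mul_sq_le_sq_mul_sq` with `√g`, `√g n`, or `Finset.inner_mul_le_norm_mul_norm`):
`(∑ g n)² ≤ (∑ g)(∑ g n²)`,   `∑_{T ∈ W} g n_T² = ∑_{z ∈ Y} ∑_{T ∈ I z} g n_T ≤ #Y Oc`.   So `(#Y μ)² ≤ G #Y Oc`. -/
theorem nc_occ (Y : Finset (ST k)) (W : Finset κ) (g : κ → ℝ) (I : ST k → Finset κ) (hI : ∀ z ∈ Y, I z ⊆ W) (hg : ∀ T ∈ W, 0 ≤ g T) {μ G Oc : ℝ} (hμ : 0 < μ) (hOc : 0 ≤ Oc)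
    (hm : ∀ z ∈ Y, μ ≤ ∑ T ∈ I z, g T) (hG : ∑ T ∈ W, g T ≤ G) (hO : ∀ z ∈ Y, ∑ T ∈ I z, g T * ((Y.filter fun y => T ∈ I y).card : ℝ) ≤ Oc) :
    (Y.card : ℝ) ≤ G * Oc / μ ^ 2 := by
  set n : κ → ℝ := fun T => ((Y.filter fun y => T ∈ I y).card : ℝ) with hn
  have hdc : ∀ h : κ → ℝ, ∑ T ∈ W, h T * n T = ∑ z ∈ Y, ∑ T ∈ I z, h T := by
    intro h
    have h1 : ∀ T ∈ W, h T * n T = ∑ z ∈ Y, if T ∈ I z then h T else 0 := by
      intro T _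
      simp only [hn]
      rw [Finset.card_filter]
      push_cast
      rw [Finset.mul_sum]
      refine Finset.sum_congr rfl fun z _ => ?_
      split_ifs <;> simp
    rw [Finset.sum_congr rfl h1, Finset.sum_comm]
    refine Finset.sum_congr rfl fun z hz => ?_
    rw [← Finset.sum_filter]
    congr 1
    ext T
    simp only [Finset.mem_filter]
    exact ⟨fun h => h.2, fun h => ⟨hI z hz h, h⟩⟩
  rcases Y.eq_empty_or_nonempty with he | hne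
  · rw [he]
    simp only [Finset.card_empty, Nat.cast_zero]
    have : 0 ≤ G := (Finset.sum_nonneg hg).trans hG
    positivity
  have hY0 : (0 : ℝ) < Y.card := by exact_mod_cast Finset.card_pos.2 hne
  have h1 : (Y.card : ℝ) * μ ≤ ∑ T ∈ W, g T * n T := by
    rw [hdc g, ← nsmul_eq_mul, ← Finset.sum_const]
    exact Finset.sum_le_sum hm
  have h2 : ∑ T ∈ W, g T * n T ^ 2 ≤ Y.card * Oc := by
    have : ∑ T ∈ W, g T * n T ^ 2 = ∑ T ∈ W, (g T * n T) * n T := Finset.sum_congr rfl fun T _ => by ring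
    rw [this, hdc fun T => g T * n T, ← nsmul_eq_mul, ← Finset.sum_const]
    exact Finset.sum_le_sum hO
  have h3 : (∑ T ∈ W, g T * n T) ^ 2 ≤ (∑ T ∈ W, g T) * ∑ T ∈ W, g T * n T ^ 2 := by
    have := Finset.sum_mul_sq_le_sq_mul_sq W (fun T => Real.sqrt (g T)) (fun T => Real.sqrt (g T) * n T)
    have e1 : ∑ T ∈ W, Real.sqrt (g T) * (Real.sqrt (g T) * n T) = ∑ T ∈ W, g T * n T :=
      Finset.sum_congr rfl fun T hT => by rw [← mul_assoc, Real.mul_self_sqrt (hg T hT)]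
    have e2 : ∑ T ∈ W, Real.sqrt (g T) ^ 2 = ∑ T ∈ W, g T := Finset.sum_congr rfl fun T hT => Real.sq_sqrt (hg T hT)
    have e3 : ∑ T ∈ W, (Real.sqrt (g T) * n T) ^ 2 = ∑ T ∈ W, g T * n T ^ 2 :=
      Finset.sum_congr rfl fun T hT => by rw [mul_pow, Real.sq_sqrt (hg T hT)]
    rwa [e1, e2, e3] at this
  have hgn : 0 ≤ ∑ T ∈ W, g T * n T ^ 2 := Finset.sum_nonneg fun T hT => mul_nonneg (hg T hT) (sq_nonneg _)
  have h4 : ((Y.card : ℝ) * μ) ^ 2 ≤ G * (Y.card * Oc) := by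
    calc ((Y.card : ℝ) * μ) ^ 2 ≤ (∑ T ∈ W, g T * n T) ^ 2 := pow_le_pow_left₀ (by positivity) h1 2
      _ ≤ (∑ T ∈ W, g T) * ∑ T ∈ W, g T * n T ^ 2 := h3
      _ ≤ G * (Y.card * Oc) := mul_le_mul hG h2 hgn ((Finset.sum_nonneg hg).trans hG)
  rw [le_div_iff₀ (by positivity)]
  have h5 : (Y.card : ℝ) * ((Y.card : ℝ) * μ ^ 2) ≤ Y.card * (G * Oc) := by nlinarith
  exact le_of_mul_le_mul_left h5 hY0

/-- **L-NCG-GEO: EXIT of the geometric half.**   `I z = ncTyp B.v g (ncI0 … z) (ncτ k C₀ * m₀(z))`.   `nc_typ` (`c = ncτ m₀(z)`, `c (2(C₀+1))^k = m₀(z)/2`): `∑_{I z} g ≥ m₀(z)/2 ≥ μ/2`.   `nc_occ` with `μ/2`.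
`Oc`: `T ∈ I y ⟹ d_T(y) ≤ ρ₆`; split `Y` into `|y.2 - z.2| < N` (then `‖y - z‖ ≤ (2C₀+1) N` by `nc_near_geo`, `2ρ₆ M ≤ L M = N`: at most `Nn` points; `∑_{I z} g ≤ mx`) and `≥ N` (`nc_far`). -/
theorem nc_geo (K : PCls) (hC₀ : 0 ≤ K.C₀) (C₁ : ℝ) (hC₁ : 0 ≤ C₁) : ∃ Λ : ℝ, 0 < Λ ∧ ∀ (ι κ : Type) (A : PFam k ι) (B : PFam k κ) (s : Finset ι) (W : Finset κ) (α g : κ → ℝ) (cp : κ → Finset ι)
    (Y : Finset (ST k)) (L H μ mx G Ω Nn ρ₆ ρ₇ : ℝ), B.In W K α → B.N = A.N / L → 1 ≤ L → 2 * (1 + 2 * C₁) * ρ₆ ≤ L → 1 ≤ ρ₆ → 0 ≤ Ω → 0 < μ → 0 ≤ mx → 0 ≤ Nn →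
    (∀ T ∈ W, 0 ≤ g T ∧ g T ≤ H ^ 2 * B.N ^ (-(k : ℝ))) →
    (∀ T ∈ W, ∀ T' ∈ cp T, T' ∈ s ∧ ‖A.v T' - B.v T‖ ≤ C₁ / B.N) →
    (∀ T' ∈ s, ((Y.filter fun y => A.d T' y ≤ ρ₇ + 3).card : ℝ) ≤ Ω) →
    (∀ z ∈ Y, ((Y.filter fun y => ‖y - z‖ ≤ (2 * K.C₀ + 1) * A.N).card : ℝ) ≤ Nn) →
    (∀ z ∈ Y, μ ≤ ∑ T ∈ ncI0 A B cp W ρ₆ ρ₇ z, g T) →
    (∀ z ∈ Y, ∑ T ∈ W.filter (fun T => B.d T z ≤ ρ₆), g T ≤ mx) →
    ∑ T ∈ W, g T ≤ G →
    (Y.card : ℝ) ≤ 4 * G / μ ^ 2 * (mx * Nn + Λ * ρ₆ ^ (2 * k + 2) * H ^ 2 * L ^ (-(k : ℝ)) * Ω) := by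
  obtain ⟨Λ, hΛ, HF⟩ := nc_far (k := k) K hC₀ C₁ hC₁
  have hτ0 := nc_τ_pos k hC₀
  refine ⟨Λ, hΛ, fun ι κ A B s W α g cp Y L H μ mx G Ω Nn ρ₆ ρ₇ hB hN hL hgeo hρ₆ hΩ hμ0 hmx0 hNn0 hg hcap hocc hnn hμ hmx hG => ?_⟩
  have hM : 1 ≤ B.N := hB.one_le
  have hM0 : 0 < B.N := by linarith
  have hL0 : 0 < L := by linarith
  have hNLM : A.N = L * B.N := by rw [hN]; field_simp
  set t : ST k → Finset κ := fun z => ncI0 A B cp W ρ₆ ρ₇ z with ht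
  have htW : ∀ z, t z ⊆ W := fun z => Finset.filter_subset _ _
  have htd : ∀ z, ∀ T ∈ t z, B.d T z ≤ ρ₆ := fun z T hT => (Finset.mem_filter.1 hT).2.1
  set I : ST k → Finset κ := fun z => ncTyp B.v g (t z) (ncτ k K.C₀ * ∑ T ∈ t z, g T) with hI
  have hIt : ∀ z, I z ⊆ t z := fun z => Finset.filter_subset _ _
  have hgW : ∀ T ∈ W, 0 ≤ g T := fun T hT => (hg T hT).1
  set Oc : ℝ := mx * Nn + Λ * ρ₆ ^ (2 * k + 2) * H ^ 2 * L ^ (-(k : ℝ)) * Ω with hOc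
  have hOc0 : 0 ≤ Oc := by positivity
  have hm : ∀ z ∈ Y, μ / 2 ≤ ∑ T ∈ I z, g T := by
    intro z hz
    have hm0 : 0 ≤ ∑ T ∈ t z, g T := Finset.sum_nonneg fun T hT => hgW T (htW z hT)
    have h1 := nc_typ (t z) B.v g hC₀ (mul_nonneg hτ0.le hm0) (fun T hT => hgW T (htW z hT)) (fun T hT => hB.freq T (htW z hT))
    have h2 : ncτ k K.C₀ * (∑ T ∈ t z, g T) * (2 * (K.C₀ + 1)) ^ k = (∑ T ∈ t z, g T) / 2 := by
      unfold ncτ
      have : (2 * (K.C₀ + 1)) ^ k ≠ 0 := by positivity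
      field_simp
    rw [h2] at h1
    have h3 := Finset.sum_sdiff (f := g) (hIt z)
    have h4 := hμ z hz
    linarith
  have hO : ∀ z ∈ Y, ∑ T ∈ I z, g T * ((Y.filter fun y => T ∈ I y).card : ℝ) ≤ Oc := by
    intro z hz
    have h1 : ∀ T ∈ I z, ((Y.filter fun y => T ∈ I y).card : ℝ)
        ≤ Nn + ((Y.filter fun y => A.N ≤ |y.2 - z.2| ∧ B.d T y ≤ ρ₆).card : ℝ) := by
      intro T hT
      have hsub : (Y.filter fun y => T ∈ I y) ⊆ (Y.filter fun y => ‖y - z‖ ≤ (2 * K.C₀ + 1) * A.N) ∪ (Y.filter fun y => A.N ≤ |y.2 - z.2| ∧ B.d T y ≤ ρ₆) := by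
        intro y hy
        obtain ⟨hyY, hyI⟩ := Finset.mem_filter.1 hy
        have hdy : B.d T y ≤ ρ₆ := htd y T (hIt y hyI)
        rcases le_or_gt A.N |y.2 - z.2| with h | h
        · exact Finset.mem_union_right _ (Finset.mem_filter.2 ⟨hyY, h, hdy⟩)
        · refine Finset.mem_union_left _ (Finset.mem_filter.2 ⟨hyY, ?_⟩)
          refine nc_near_geo hB (htW z (hIt z hT)) (htd z T (hIt z hT)) hdy ?_ h.le
          rw [hNLM]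
          refine mul_le_mul_of_nonneg_right ?_ hM0.le
          nlinarith
      calc ((Y.filter fun y => T ∈ I y).card : ℝ)
          ≤ (((Y.filter fun y => ‖y - z‖ ≤ (2 * K.C₀ + 1) * A.N) ∪ (Y.filter fun y => A.N ≤ |y.2 - z.2| ∧ B.d T y ≤ ρ₆)).card : ℝ) := by
            exact_mod_cast Finset.card_le_card hsub
        _ ≤ ((Y.filter fun y => ‖y - z‖ ≤ (2 * K.C₀ + 1) * A.N).card : ℝ) + ((Y.filter fun y => A.N ≤ |y.2 - z.2| ∧ B.d T y ≤ ρ₆).card : ℝ) := by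
            exact_mod_cast Finset.card_union_le _ _
        _ ≤ _ := add_le_add (hnn z hz) le_rfl
    have h2 : ∑ T ∈ I z, g T ≤ mx := by
      refine le_trans ?_ (hmx z hz)
      refine Finset.sum_le_sum_of_subset_of_nonneg ?_ fun T hT _ => hgW T (Finset.mem_filter.1 hT).1
      intro T hT
      exact Finset.mem_filter.2 ⟨htW z (hIt z hT), htd z T (hIt z hT)⟩
    calc ∑ T ∈ I z, g T * ((Y.filter fun y => T ∈ I y).card : ℝ)
        ≤ ∑ T ∈ I z, (g T * Nn + g T * ((Y.filter fun y => A.N ≤ |y.2 - z.2| ∧ B.d T y ≤ ρ₆).card : ℝ)) := by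
          refine Finset.sum_le_sum fun T hT => ?_
          rw [← mul_add]
          exact mul_le_mul_of_nonneg_left (h1 T hT) (hgW T (htW z (hIt z hT)))
      _ = (∑ T ∈ I z, g T) * Nn + ∑ T ∈ I z, g T * ((Y.filter fun y => A.N ≤ |y.2 - z.2| ∧ B.d T y ≤ ρ₆).card : ℝ) := by
          rw [Finset.sum_add_distrib, Finset.sum_mul]
      _ ≤ mx * Nn + Λ * ρ₆ ^ (2 * k + 2) * H ^ 2 * L ^ (-(k : ℝ)) * Ω :=
          add_le_add (mul_le_mul_of_nonneg_right h2 hNn0) (HF ι κ A B s W α g cp Y z L H Ω ρ₆ ρ₇ hB hN hL hgeo hρ₆ hΩ hg hcap hocc)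
  have key := nc_occ Y W g I (fun z _ => (hIt z).trans (htW z)) hgW (by positivity : 0 < μ / 2) hOc0 hm hG hO
  refine key.trans (le_of_eq ?_)
  field_simp
  ring

/-- Stores the on-demand equation lemmas of the definitions above in THIS module (rule 6 hygiene). -/
theorem nc_geo_forced : True := by
  have := @ncI0.eq_1; have := @ncTyp.eq_1; have := @ncτ.eq_1
  trivial

end

end Claimed.Agent.R257
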