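import Claimed.Agent.R257.PK2.NcRed

/-!
# R257 / PK2 / NcMain : `p:near-cauchy` (H packets.tex l.943-962): CHOICE OF THE PARAMETERS, THE ONE-STEP LEMMA, THE ITERATION, EXITS      (architect helper266)

EXITS:  `nc_main` (weighted, for a self-reproducing class),  `nc_out` / `nc_out_unw` (every class, from `NcAsmAll k` = exit of `PK2/NcAsm.lean`).
ALL parameters are powers of `X = M₀ R`, `M₀` a large constant chosen LAST (independent of `Θ`, `N₁`): `L = X^Ae`, `x = X^(-β₁)`, `H = X`, `μ = X^(-η)`, `ρ₆ = X^η₆`, `ρ₇ = X^η₇`, `Cb = Cε L^ε₁`.   Since `R ≥ c₀` (pointwise Cauchy), `X ≥ M₀ c₀` is large for EVERY configuration: bounded `R` needs no separate treatment.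
-/

set_option autoImplicit false

namespace Claimed.Agent.R257

open MeasureTheory Metric Set
open scoped ENNReal Classical

noncomputable section

variable {k : ℕ} {ι κ : Type}

theorem nc_ev (c γ δ : ℝ) (hγ : 0 < γ) (hδ : 0 < δ) : ∀ᶠ X : ℝ in Filter.atTop, c * X ^ (-γ) ≤ δ := by
  have h := (tendsto_rpow_neg_atTop hγ).const_mul c
  rw [mul_zero] at h
  exact (h.eventually_lt_const hδ).mono fun X hX => hX.le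

set_option maxHeartbeats 1000000 in
/-- **L-NCM-NUM: the choice of the parameters** (real numbers only).   `q = qk k ∈ (2, 6]`, `p = q + ε`, `ε' = min ε 1`.   EXPONENTS:  `η₆ = ε'/(8P)`, `η = η₆/2`, `η₇ = η₆`, `β₁ = ε'/(8q)`, `e₁ = min (β₁ ε') (2η/k) / 2`, `Ae = max 4 ((η+1)/(P-k-2))`, `ε₁ = e₁/Ae`.
With `X = M₀ R`, `L = X^Ae`:  `x = X^(-β₁)`, `H = X`, `μ = X^(-η)`, `ρ₆ = X^η₆`, `ρ₇ = X^η₇`, `Cε L^ε₁ = Cε X^e₁`.   Every condition but the last is `∑ cᵢ X^(-γᵢ) ≤ 1` with `γᵢ > 0` (or `M₀ ≥ 8 C₃ C₅`), so it holds for `X ≥ X₀`; `M₀ = max (X₀/c₀) …`: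
tail `γ = η₆ (P-k-1) - η ≥ η₆/2`, `Ae (P-k-2) - η ≥ 1`;   attach `γ = η₇ - η`;   `ρ₆/L`: `γ = Ae - η₆`;   unsaturated `γ = β₁ ε - e₁`;   low `γ = η (p/2 - 1) - e₁` (`p/2 - 1 ≥ 2/k`);
far: `(1+(ρ₇+3))^P ≤ (5ρ₇)^P`, exponent `β₁ q + e₁ + 2η + (2k+2) η₆ + 2 + P η₇ - Ae k ≤ 3 - 4 = -1`.
LAST condition: `(1+ρ₆)^P ≤ (2ρ₆)^P`, exponent of `X`: `c = β₁ q + e₁ + 2η + P η₆ ≤ ε' ≤ ε`;  `X^c R^q = M₀^c R^(q+c) ≤ M₀^c c₀^(c-ε) R^(q+ε)` for `R ≥ c₀`.   (TOOL: `tendsto_rpow_neg_atTop`, `Filter.Eventually.and`, `Filter.eventually_atTop`; `Real.rpow_add`, `Real.rpow_mul`, `Real.mul_rpow`.) -/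
theorem nc_num (hk : 1 ≤ k) {P ε : ℝ} (hP : (k : ℝ) + 2 < P) (hε : 0 < ε) (C₁ C₃ C₅ L₀ Λ C₁₁ c₀ : ℝ) (hC₁ : 0 ≤ C₁) (hC₃ : 0 < C₃) (hC₅ : 0 < C₅) (hL₀ : 1 ≤ L₀) (hΛ : 0 < Λ) (hC₁₁ : 0 < C₁₁)
    (hc₀ : 0 < c₀) (hc₀1 : c₀ ≤ 1) :
    ∃ Ae ε₁ : ℝ, 0 < Ae ∧ 0 < ε₁ ∧ ∀ Cε : ℝ, 0 < Cε → ∃ M₀ C' : ℝ, 1 ≤ M₀ ∧ 0 ≤ C' ∧ ∀ R : ℝ, c₀ ≤ R → ∃ x H μ ρ₆ ρ₇ : ℝ, 0 < x ∧ 0 < μ ∧ 0 < ρ₇ ∧ 2 ≤ ρ₆ ∧
      L₀ ≤ (M₀ * R) ^ Ae ∧ 4 * C₃ * C₅ * (2 * R) ≤ H ∧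
      C₅ * (ρ₆ ^ (-(P - (k : ℝ) - 1)) + ((M₀ * R) ^ Ae) ^ (-(P - (k : ℝ) - 2))) ≤ μ / 4 ∧ 2 * C₅ / ρ₇ ≤ μ / 4 ∧
      (1 + 2 * C₁) * ρ₆ / (M₀ * R) ^ Ae ≤ ρ₇ / 2 ∧ 2 * (1 + 2 * C₁) * ρ₆ ≤ (M₀ * R) ^ Ae ∧
      (2 : ℝ) ^ (qk k + ε) * (2 * ((4 * Real.sqrt C₅) ^ (qk k + ε) * C₅⁻¹ * (Cε * ((M₀ * R) ^ Ae) ^ ε₁) * x ^ (qk k + ε - qk k)
            + (4 * C₃) ^ (qk k + ε) * C₃ ^ (-qk k) * (Cε * ((M₀ * R) ^ Ae) ^ ε₁) * μ ^ ((qk k + ε) / 2 - 1))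
          + 64 * (x ^ (-qk k) * (Cε * ((M₀ * R) ^ Ae) ^ ε₁)) / μ ^ 2 * (Λ * ρ₆ ^ (2 * k + 2) * H ^ 2 * ((M₀ * R) ^ Ae) ^ (-(k : ℝ)) * (1 + (ρ₇ + 3)) ^ P)) ≤ 1 / 2 ∧
      32 * (x ^ (-qk k) * (Cε * ((M₀ * R) ^ Ae) ^ ε₁)) / μ ^ 2 * ((1 + ρ₆) ^ P * C₅ * (C₁₁ * (2 * R) ^ qk k)) ≤ C' * R ^ (qk k + ε) := by
  obtain ⟨hq2, -, hqk, hq6⟩ := nc_qk hk
  set q := qk k with hq
  have hk1 : (1 : ℝ) ≤ k := by exact_mod_cast hk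
  have hP3 : 3 < P := by linarith
  -- the exponents
  obtain ⟨ε', hε', hε'1, hε'ε⟩ : ∃ ε' : ℝ, 0 < ε' ∧ ε' ≤ 1 ∧ ε' ≤ ε := ⟨min ε 1, lt_min hε one_pos, min_le_right _ _, min_le_left _ _⟩
  obtain ⟨η₆, hη₆, hη₆P⟩ : ∃ η₆ : ℝ, 0 < η₆ ∧ η₆ * P = ε' / 8 := ⟨ε' / (8 * P), by positivity, by field_simp⟩
  obtain ⟨β₁, hβ₁, hβq⟩ : ∃ β₁ : ℝ, 0 < β₁ ∧ β₁ * q = ε' / 8 := ⟨ε' / (8 * q), by positivity, by field_simp⟩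
  obtain ⟨η, hη, hηη⟩ : ∃ η : ℝ, 0 < η ∧ 2 * η = η₆ := ⟨η₆ / 2, by positivity, by ring⟩
  have hr : 0 < q / 2 - 1 := by linarith
  obtain ⟨e₁, he₁, he₁a, he₁b⟩ : ∃ e₁ : ℝ, 0 < e₁ ∧ 2 * e₁ ≤ β₁ * ε' ∧ 2 * e₁ ≤ η * (q / 2 - 1) :=
    ⟨min (β₁ * ε') (η * (q / 2 - 1)) / 2, by have := lt_min (mul_pos hβ₁ hε') (mul_pos hη hr); positivity,
      by linarith [min_le_left (β₁ * ε') (η * (q / 2 - 1))], by linarith [min_le_right (β₁ * ε') (η * (q / 2 - 1))]⟩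
  have hd' : 0 < P - k - 2 := by linarith
  obtain ⟨Ae, hAe4, hAed⟩ : ∃ Ae : ℝ, 4 ≤ Ae ∧ η + 1 ≤ Ae * (P - k - 2) :=
    ⟨max 4 ((η + 1) / (P - k - 2)), le_max_left _ _, by
      have := le_max_right 4 ((η + 1) / (P - k - 2))
      rw [div_le_iff₀ hd'] at this
      exact this⟩
  have hAe : 0 < Ae := by linarith
  have hη₆s : η₆ ≤ ε' / 24 := by
    have := mul_lt_mul_of_pos_left hP3 hη₆
    linarith
  have hβs : β₁ ≤ ε' / 16 := by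
    have := mul_lt_mul_of_pos_left hq2 hβ₁
    linarith
  have he₁s : e₁ ≤ ε' / 32 := by
    have := mul_le_mul_of_nonneg_left hε'1 hβ₁.le
    linarith
  have hη₆k : η₆ * (2 * k + 2) ≤ 1 / 4 := by
    have := mul_le_mul_of_nonneg_left (by linarith : 2 * (k : ℝ) + 2 ≤ 2 * P) hη₆.le
    linarith
  have hAk : 4 ≤ Ae * k := by
    have := mul_le_mul hAe4 hk1 zero_le_one hAe.le
    linarith
  refine ⟨Ae, e₁ / Ae, hAe, by positivity, fun Cε hCε => ?_⟩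
  -- gains
  have g1 : 0 < β₁ * ε - e₁ := by
    have := mul_le_mul_of_nonneg_left hε'ε hβ₁.le
    have := mul_pos hβ₁ hε'
    linarith
  have g2 : 0 < η * ((q + ε) / 2 - 1) - e₁ := by
    have e : η * ((q + ε) / 2 - 1) = η * (q / 2 - 1) + η * ε / 2 := by ring
    have := mul_pos hη hr
    have := mul_pos hη hε
    linarith
  have g3 : 0 < η₆ * (P - k - 1) - η := by
    have := mul_le_mul_of_nonneg_left (by linarith : (1 : ℝ) ≤ P - k - 1) hη₆.le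
    linarith
  have g4 : 0 < Ae * (P - k - 2) - η := by linarith
  have g5 : 0 < η₆ - η := by linarith
  have g6 : 0 < Ae - η₆ := by linarith
  have hE3 : β₁ * q + e₁ + 2 * η + η₆ * (2 * k + 2) + 2 - Ae * k + η₆ * P ≤ -1 := by linarith
  have hc : β₁ * q + e₁ + 2 * η + η₆ * P ≤ ε := by linarith
  set K₁ : ℝ := (2 : ℝ) ^ (q + ε) * 2 * ((4 * Real.sqrt C₅) ^ (q + ε) * C₅⁻¹ * Cε) with hK₁
  set K₂ : ℝ := (2 : ℝ) ^ (q + ε) * 2 * ((4 * C₃) ^ (q + ε) * C₃ ^ (-q) * Cε) with hK₂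
  set K₃ : ℝ := (2 : ℝ) ^ (q + ε) * 64 * Cε * Λ * 5 ^ P with hK₃
  have hev : ∀ᶠ X : ℝ in Filter.atTop, 1 ≤ X ∧ 2 ≤ X ^ η₆ ∧ L₀ ≤ X ^ Ae ∧
      C₅ * ((X ^ η₆) ^ (-(P - (k : ℝ) - 1)) + (X ^ Ae) ^ (-(P - (k : ℝ) - 2))) ≤ X ^ (-η) / 4 ∧ 2 * C₅ / X ^ η₆ ≤ X ^ (-η) / 4 ∧
      (1 + 2 * C₁) * X ^ η₆ / X ^ Ae ≤ X ^ η₆ / 2 ∧ 2 * (1 + 2 * C₁) * X ^ η₆ ≤ X ^ Ae ∧
      (2 : ℝ) ^ (q + ε) * (2 * ((4 * Real.sqrt C₅) ^ (q + ε) * C₅⁻¹ * (Cε * (X ^ Ae) ^ (e₁ / Ae)) * (X ^ (-β₁)) ^ (q + ε - q)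
            + (4 * C₃) ^ (q + ε) * C₃ ^ (-q) * (Cε * (X ^ Ae) ^ (e₁ / Ae)) * (X ^ (-η)) ^ ((q + ε) / 2 - 1))
          + 64 * ((X ^ (-β₁)) ^ (-q) * (Cε * (X ^ Ae) ^ (e₁ / Ae))) / (X ^ (-η)) ^ 2 * (Λ * (X ^ η₆) ^ (2 * k + 2) * X ^ 2 * (X ^ Ae) ^ (-(k : ℝ)) * (1 + (X ^ η₆ + 3)) ^ P)) ≤ 1 / 2 := by
    filter_upwards [Filter.eventually_ge_atTop (1 : ℝ), nc_ev 2 η₆ 1 hη₆ one_pos, nc_ev L₀ Ae 1 hAe one_pos, nc_ev (4 * C₅) _ (1 / 2) g3 (by norm_num), nc_ev (4 * C₅) _ (1 / 2) g4 (by norm_num),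
      nc_ev (8 * C₅) _ 1 g5 one_pos, nc_ev (2 * (1 + 2 * C₁)) Ae 1 hAe one_pos, nc_ev (2 * (1 + 2 * C₁)) _ 1 g6 one_pos, nc_ev K₁ _ (1 / 6) g1 (by norm_num), nc_ev K₂ _ (1 / 6) g2 (by norm_num),
      nc_ev K₃ 1 (1 / 6) one_pos (by norm_num)] with X hX1 a1 a2 a3 a4 a5 a6 a7 a8 a9 a10
    have hX : 0 < X := by linarith
    have pw : ∀ a : ℝ, 0 < X ^ a := fun a => Real.rpow_pos_of_pos hX a
    have mm : ∀ a b : ℝ, (X ^ a) ^ b = X ^ (a * b) := fun a b => (Real.rpow_mul hX.le a b).symm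
    have ad : ∀ a b : ℝ, X ^ a * X ^ b = X ^ (a + b) := fun a b => (Real.rpow_add hX a b).symm
    have ng : ∀ a : ℝ, X ^ (-a) = (X ^ a)⁻¹ := fun a => Real.rpow_neg hX.le a
    -- generic: c * X^(-γ) ≤ δ  ⟹  c ≤ δ * X^γ
    have tr : ∀ c γ δ : ℝ, c * X ^ (-γ) ≤ δ → c ≤ δ * X ^ γ := by
      intro c γ δ h
      rw [ng, ← div_eq_mul_inv, div_le_iff₀ (pw γ)] at h
      exact h
    refine ⟨hX1, ?_, ?_, ?_, ?_, ?_, ?_, ?_⟩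
    · simpa using tr _ _ _ a1
    · simpa using tr _ _ _ a2
    · rw [mm, mm]
      have b3 := tr _ _ _ a3
      have b4 := tr _ _ _ a4
      have e3 : X ^ (η₆ * -(P - (k : ℝ) - 1)) * X ^ (η₆ * (P - k - 1) - η) = X ^ (-η) := by rw [ad]; congr 1; ring
      have e4 : X ^ (Ae * -(P - (k : ℝ) - 2)) * X ^ (Ae * (P - k - 2) - η) = X ^ (-η) := by rw [ad]; congr 1; ring
      have c3 := mul_le_mul_of_nonneg_left b3 (pw (η₆ * -(P - (k : ℝ) - 1))).le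
      have c4 := mul_le_mul_of_nonneg_left b4 (pw (Ae * -(P - (k : ℝ) - 2))).le
      nlinarith [e3, e4, c3, c4]
    · have b5 := tr _ _ _ a5
      rw [div_le_iff₀ (pw η₆)]
      have e5 : X ^ (-η) * X ^ η₆ = X ^ (η₆ - η) := by rw [ad]; congr 1; ring
      nlinarith [e5, b5]
    · have b6 := tr _ _ _ a6
      rw [div_le_iff₀ (pw Ae)]
      nlinarith [pw η₆, b6, mul_le_mul_of_nonneg_left b6 (pw η₆).le]
    · have b7 := tr _ _ _ a7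
      have e7 : X ^ (Ae - η₆) * X ^ η₆ = X ^ Ae := by rw [ad]; congr 1; ring
      have := mul_le_mul_of_nonneg_right b7 (pw η₆).le
      rw [one_mul, e7] at this
      exact this
    · -- the contraction
      have hCb : (X ^ Ae) ^ (e₁ / Ae) = X ^ e₁ := by rw [mm]; congr 1; field_simp
      have hx1 : (X ^ (-β₁)) ^ (q + ε - q) = X ^ (-(β₁ * ε)) := by rw [mm]; congr 1; ring
      have hμ1 : (X ^ (-η)) ^ ((q + ε) / 2 - 1) = X ^ (-(η * ((q + ε) / 2 - 1))) := by rw [mm]; congr 1; ring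
      have hxq : (X ^ (-β₁)) ^ (-q) = X ^ (β₁ * q) := by rw [mm]; congr 1; ring
      have hμ2 : (X ^ (-η)) ^ 2 = (X ^ (2 * η))⁻¹ := by rw [← Real.rpow_natCast, mm, ← ng]; congr 1; push_cast; ring
      have hρ6 : (X ^ η₆) ^ (2 * k + 2) = X ^ (η₆ * (2 * k + 2)) := by rw [← Real.rpow_natCast, mm]; congr 1; push_cast; ring
      have hLk : (X ^ Ae) ^ (-(k : ℝ)) = X ^ (-(Ae * k)) := by rw [mm]; congr 1; ring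
      have hH2 : X ^ 2 = X ^ (2 : ℝ) := by rw [← Real.rpow_natCast]; norm_num
      have hρ1 : 1 ≤ X ^ η₆ := Real.one_le_rpow hX1 hη₆.le
      have hρ7 : (1 + (X ^ η₆ + 3)) ^ P ≤ 5 ^ P * X ^ (η₆ * P) := by
        rw [← mm, ← Real.mul_rpow (by norm_num) (pw η₆).le]
        exact Real.rpow_le_rpow (by positivity) (by linarith) (by linarith)
      rw [hCb, hx1, hμ1, hxq, hμ2, hρ6, hLk, hH2]
      have t1 : (2 : ℝ) ^ (q + ε) * (2 * ((4 * Real.sqrt C₅) ^ (q + ε) * C₅⁻¹ * (Cε * X ^ e₁) * X ^ (-(β₁ * ε)))) = K₁ * X ^ (-(β₁ * ε - e₁)) := by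
        have : X ^ (-(β₁ * ε - e₁)) = X ^ e₁ * X ^ (-(β₁ * ε)) := by rw [ad]; congr 1; ring
        rw [this, hK₁]; ring
      have t2 : (2 : ℝ) ^ (q + ε) * (2 * ((4 * C₃) ^ (q + ε) * C₃ ^ (-q) * (Cε * X ^ e₁) * X ^ (-(η * ((q + ε) / 2 - 1))))) = K₂ * X ^ (-(η * ((q + ε) / 2 - 1) - e₁)) := by
        have : X ^ (-(η * ((q + ε) / 2 - 1) - e₁)) = X ^ e₁ * X ^ (-(η * ((q + ε) / 2 - 1))) := by rw [ad]; congr 1; ring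
        rw [this, hK₂]; ring
      have t3 : (2 : ℝ) ^ (q + ε) * (64 * (X ^ (β₁ * q) * (Cε * X ^ e₁)) / (X ^ (2 * η))⁻¹ * (Λ * X ^ (η₆ * (2 * k + 2)) * X ^ (2 : ℝ) * X ^ (-(Ae * k)) * (1 + (X ^ η₆ + 3)) ^ P)) ≤ K₃ * X ^ (-(1 : ℝ)) := by
        have s1 : X ^ (β₁ * q) * X ^ e₁ * X ^ (2 * η) * X ^ (η₆ * (2 * k + 2)) * X ^ (2 : ℝ) * X ^ (-(Ae * k)) * X ^ (η₆ * P) ≤ X ^ (-(1 : ℝ)) := by
          rw [ad, ad, ad, ad, ad, ad]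
          exact Real.rpow_le_rpow_of_exponent_le hX1 (by linarith)
        have hpos : 0 ≤ (2 : ℝ) ^ (q + ε) * 64 * Cε * Λ := by positivity
        calc (2 : ℝ) ^ (q + ε) * (64 * (X ^ (β₁ * q) * (Cε * X ^ e₁)) / (X ^ (2 * η))⁻¹ * (Λ * X ^ (η₆ * (2 * k + 2)) * X ^ (2 : ℝ) * X ^ (-(Ae * k)) * (1 + (X ^ η₆ + 3)) ^ P))
            = (2 : ℝ) ^ (q + ε) * 64 * Cε * Λ * (X ^ (β₁ * q) * X ^ e₁ * X ^ (2 * η) * X ^ (η₆ * (2 * k + 2)) * X ^ (2 : ℝ) * X ^ (-(Ae * k))) * (1 + (X ^ η₆ + 3)) ^ P := by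
              rw [div_inv_eq_mul]; ring
          _ ≤ (2 : ℝ) ^ (q + ε) * 64 * Cε * Λ * (X ^ (β₁ * q) * X ^ e₁ * X ^ (2 * η) * X ^ (η₆ * (2 * k + 2)) * X ^ (2 : ℝ) * X ^ (-(Ae * k))) * (5 ^ P * X ^ (η₆ * P)) := by
              have := pw (β₁ * q); have := pw e₁; have := pw (2 * η); have := pw (η₆ * (2 * k + 2)); have := pw (2 : ℝ); have := pw (-(Ae * k))
              gcongr
          _ = (2 : ℝ) ^ (q + ε) * 64 * Cε * Λ * 5 ^ P * (X ^ (β₁ * q) * X ^ e₁ * X ^ (2 * η) * X ^ (η₆ * (2 * k + 2)) * X ^ (2 : ℝ) * X ^ (-(Ae * k)) * X ^ (η₆ * P)) := by ring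
          _ ≤ K₃ * X ^ (-(1 : ℝ)) := by
              rw [hK₃]
              have : 0 ≤ (2 : ℝ) ^ (q + ε) * 64 * Cε * Λ * 5 ^ P := by positivity
              gcongr
      have := t1 ▸ a8
      have := t2 ▸ a9
      have := t3.trans a10
      rw [mul_add, mul_add, mul_add]
      linarith
  obtain ⟨X₀, hX₀⟩ := Filter.eventually_atTop.1 hev
  set c : ℝ := β₁ * q + e₁ + 2 * η + η₆ * P with hcdef
  set M₀ : ℝ := max (X₀ / c₀) (max (8 * C₃ * C₅) 1) with hM₀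
  have hM₀1 : 1 ≤ M₀ := (le_max_right _ _).trans (le_max_right _ _)
  have hM₀0 : 0 < M₀ := by linarith
  refine ⟨M₀, 32 * Cε * C₅ * C₁₁ * 2 ^ P * 2 ^ q * M₀ ^ c * c₀ ^ (c - ε), hM₀1, by positivity, fun R hR => ?_⟩
  have hR0 : 0 < R := by linarith
  have hXX : X₀ ≤ M₀ * R := by
    calc X₀ = X₀ / c₀ * c₀ := by field_simp
      _ ≤ M₀ * R := by
        rcases le_total 0 (X₀ / c₀) with h | h
        · exact mul_le_mul (le_max_left _ _) hR hc₀.le hM₀0.le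
        · exact (mul_nonpos_of_nonpos_of_nonneg h hc₀.le).trans (by positivity)
  obtain ⟨hX1, b1, b2, b3, b4, b5, b6, b7⟩ := hX₀ (M₀ * R) hXX
  set X := M₀ * R with hXdef
  have hX : 0 < X := by linarith
  have pw : ∀ a : ℝ, 0 < X ^ a := fun a => Real.rpow_pos_of_pos hX a
  have mm : ∀ a b : ℝ, (X ^ a) ^ b = X ^ (a * b) := fun a b => (Real.rpow_mul hX.le a b).symm
  have ad : ∀ a b : ℝ, X ^ a * X ^ b = X ^ (a + b) := fun a b => (Real.rpow_add hX a b).symm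
  have ng : ∀ a : ℝ, X ^ (-a) = (X ^ a)⁻¹ := fun a => Real.rpow_neg hX.le a
  refine ⟨X ^ (-β₁), X, X ^ (-η), X ^ η₆, X ^ η₆, pw _, pw _, pw _, b1, b2, ?_, b3, b4, b5, b6, b7, ?_⟩
  · have : 8 * C₃ * C₅ ≤ M₀ := (le_max_left _ _).trans (le_max_right _ _)
    calc 4 * C₃ * C₅ * (2 * R) = 8 * C₃ * C₅ * R := by ring
      _ ≤ M₀ * R := by gcongr
  · have hCb : (X ^ Ae) ^ (e₁ / Ae) = X ^ e₁ := by rw [mm]; congr 1; field_simp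
    have hxq : (X ^ (-β₁)) ^ (-q) = X ^ (β₁ * q) := by rw [mm]; congr 1; ring
    have hμ2 : (X ^ (-η)) ^ 2 = (X ^ (2 * η))⁻¹ := by rw [← Real.rpow_natCast, mm, ← ng]; congr 1; push_cast; ring
    have hρ1 : 1 ≤ X ^ η₆ := Real.one_le_rpow hX1 hη₆.le
    have hρP : (1 + X ^ η₆) ^ P ≤ 2 ^ P * X ^ (η₆ * P) := by
      rw [← mm, ← Real.mul_rpow (by norm_num) (pw η₆).le]
      exact Real.rpow_le_rpow (by positivity) (by linarith) (by linarith)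
    have h2R : (2 * R) ^ q = 2 ^ q * R ^ q := Real.mul_rpow (by norm_num) hR0.le
    have hXc : X ^ c = M₀ ^ c * R ^ c := Real.mul_rpow hM₀0.le hR0.le
    have hRc : R ^ c * R ^ q ≤ c₀ ^ (c - ε) * R ^ (q + ε) := by
      have e1 : R ^ c * R ^ q = R ^ (c - ε) * R ^ (q + ε) := by
        rw [← Real.rpow_add hR0, ← Real.rpow_add hR0]; congr 1; ring
      rw [e1]
      have := Real.rpow_le_rpow_of_nonpos hc₀ hR (by linarith : c - ε ≤ 0)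
      have h2 : 0 < R ^ (q + ε) := Real.rpow_pos_of_pos hR0 _
      gcongr
    rw [hCb, hxq, hμ2, h2R]
    calc 32 * (X ^ (β₁ * q) * (Cε * X ^ e₁)) / (X ^ (2 * η))⁻¹ * ((1 + X ^ η₆) ^ P * C₅ * (C₁₁ * (2 ^ q * R ^ q)))
        = 32 * Cε * C₅ * C₁₁ * 2 ^ q * R ^ q * (X ^ (β₁ * q) * X ^ e₁ * X ^ (2 * η)) * (1 + X ^ η₆) ^ P := by rw [div_inv_eq_mul]; ring
      _ ≤ 32 * Cε * C₅ * C₁₁ * 2 ^ q * R ^ q * (X ^ (β₁ * q) * X ^ e₁ * X ^ (2 * η)) * (2 ^ P * X ^ (η₆ * P)) := by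
          have := pw (β₁ * q); have := pw e₁; have := pw (2 * η)
          have : 0 < R ^ q := Real.rpow_pos_of_pos hR0 _
          gcongr
      _ = 32 * Cε * C₅ * C₁₁ * 2 ^ P * 2 ^ q * M₀ ^ c * (R ^ c * R ^ q) := by
          have : X ^ (β₁ * q) * X ^ e₁ * X ^ (2 * η) * X ^ (η₆ * P) = M₀ ^ c * R ^ c := by rw [ad, ad, ad, ← hXc]
          calc _ = 32 * Cε * C₅ * C₁₁ * 2 ^ q * R ^ q * 2 ^ P * (X ^ (β₁ * q) * X ^ e₁ * X ^ (2 * η) * X ^ (η₆ * P)) := by ring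
            _ = _ := by rw [this]; ring
      _ ≤ 32 * Cε * C₅ * C₁₁ * 2 ^ P * 2 ^ q * M₀ ^ c * (c₀ ^ (c - ε) * R ^ (q + ε)) := by gcongr
      _ = 32 * Cε * C₅ * C₁₁ * 2 ^ P * 2 ^ q * M₀ ^ c * c₀ ^ (c - ε) * R ^ (q + ε) := by ring

/-- **L-NCM-STEP: THE ONE-STEP LEMMA.**   CONSTANTS, in this order: `(C₁, C₃, C₅, L₀)` of `hasm`;  `(Λ, C₁₁)` of `nc_core`;  `c₀` of `nc_R_ge`;  `(Ae, ε₁)` of `nc_num`;  `Cε` of `hasm` at `ε₁`;  `(M₀, C')` of `nc_num`;  `Cr` of `nc_rough` at `ε₂ = ε/Ae`;   `C₀ = max (Cr M₀^ε) C'`.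
Let `(A, s, a, b, Y, R)` be a configuration, `N = A.N ≤ N₁`, `p = q + ε`, `S = ncS k s a b ≥ 0`.   `Y = ∅`: trivial.   `Θ = 0`: `hW` gives `#Y ≤ 0`.   Otherwise `R ≥ c₀`, `X = M₀ R`, `L = X^Ae`.
(i) `N < L`:  `#Y ≤ Cr N^ε₂ R^q S ≤ Cr L^ε₂ R^q S = Cr X^ε R^q S = Cr M₀^ε R^p S`.
(ii) `L ≤ N`:  `x, H, μ, ρ₆, ρ₇` of `nc_num` at `R`;  `Ω = 2 Θ (2R)^p (1 + (ρ₇+3))^P > 0`;  `nc_del` (`ρe = ρ₇ + 3`): `s₁, Y₁`, `#Y ≤ 2 #Y₁`, configuration `(A, s₁, a, b, Y₁, 2R)`;   `hasm` for `(A, s₁, a, b, Y₁, L, δ = N^(k/2)/(4 (2R)))`;   `nc_core` with `R := 2R`, `Cb = Cε L^ε₁`;  `ncS k s₁ a b ≤ S` (`ncS_mono`).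
With `T = Θ (2R)^p = Θ 2^p R^p`:  `#Y ≤ S [T (2 (E_u + E_l) + 64 x^(-q) Cb/μ² Λ ρ₆^(2k+2) H² L^(-k) (1+(ρ₇+3))^P) + 32 x^(-q) Cb/μ² (1+ρ₆)^P C₅ C₁₁ (2R)^q] ≤ S [Θ R^p / 2 + C' R^p]`  by the last two conditions of `nc_num`. -/
theorem nc_step (hk : 1 ≤ k) (K : PCls) (P : ℝ) (hρ : 0 ≤ K.ρ) (hC₀ : 0 ≤ K.C₀) (hP : (k : ℝ) + 2 < P) (hPP : P + 1 ≤ K.P') (hasm : NcAsmStmt k K P) {ε : ℝ} (hε : 0 < ε) :
    ∃ C₀ : ℝ, 0 ≤ C₀ ∧ ∀ N₁ Θ : ℝ, 0 ≤ Θ → Wnc k K P (qk k + ε) N₁ Θ → Wnc k K P (qk k + ε) N₁ (C₀ + Θ / 2) := by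
  obtain ⟨C₁, C₃, C₅, L₀, hC₁, hC₃, hC₅, hL₀, hasm⟩ := hasm
  obtain ⟨Λ, C₁₁, hΛ, hC₁₁, hcore⟩ := nc_core hk K P hρ hC₀ hP hPP C₁ hC₁
  have hk0 : (0 : ℝ) ≤ k := Nat.cast_nonneg k
  obtain ⟨c₀, hc₀, hc₀1, hRge⟩ := nc_R_ge (k := k) K P (by linarith)
  obtain ⟨Ae, ε₁, hAe, hε₁, hnum⟩ := nc_num hk hP hε C₁ C₃ C₅ L₀ Λ C₁₁ c₀ hC₁ hC₃ hC₅ hL₀ hΛ hC₁₁ hc₀ hc₀1
  obtain ⟨Cε, hCε, hasm⟩ := hasm ε₁ hε₁
  obtain ⟨M₀, C', hM₀, hC', hnum⟩ := hnum Cε hCε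
  obtain ⟨Cr, hCr, hrough⟩ := nc_rough hk K P (by linarith) (by linarith) (by linarith) (ε₂ := ε / Ae) (by positivity)
  have hM₀0 : 0 < M₀ := by linarith
  refine ⟨max (Cr * M₀ ^ ε) C', le_max_of_le_right hC', fun N₁ Θ hΘ hW ι A s a b Y R hN hc => ?_⟩
  have hS0 : 0 ≤ ncS k s a b := hc.S_nonneg
  have hR := hc.R_pos
  have hRp : 0 < R ^ (qk k + ε) := Real.rpow_pos_of_pos hR _
  have hmax0 : 0 ≤ max (Cr * M₀ ^ ε) C' := le_max_of_le_right hC'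
  rcases Y.eq_empty_or_nonempty with rfl | hYne
  · simp only [Finset.card_empty, Nat.cast_zero]; positivity
  have hRc := hRge ι A s a b Y R hc hYne
  rcases hΘ.eq_or_lt with rfl | hΘ
  · refine (hW ι A s a b Y R hN hc).trans ?_
    have : 0 ≤ (max (Cr * M₀ ^ ε) C' + 0 / 2) * R ^ (qk k + ε) * ncS k s a b := by positivity
    simpa using this
  have hX : 0 < M₀ * R := by positivity
  have hN1 : 1 ≤ A.N := hc.cls.one_le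
  by_cases hNL : A.N < (M₀ * R) ^ Ae
  · -- small scales: the rough bound
    have h1 := hrough ι A s a b Y R hc
    have h2 : A.N ^ (ε / Ae) ≤ M₀ ^ ε * R ^ ε := by
      calc A.N ^ (ε / Ae) ≤ ((M₀ * R) ^ Ae) ^ (ε / Ae) := Real.rpow_le_rpow (by linarith) hNL.le (by positivity)
        _ = (M₀ * R) ^ ε := by rw [← Real.rpow_mul hX.le]; congr 1; field_simp
        _ = M₀ ^ ε * R ^ ε := Real.mul_rpow hM₀0.le hR.le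
    have hRq : 0 < R ^ qk k := Real.rpow_pos_of_pos hR _
    calc (Y.card : ℝ) ≤ Cr * A.N ^ (ε / Ae) * R ^ qk k * ncS k s a b := h1
      _ ≤ Cr * (M₀ ^ ε * R ^ ε) * R ^ qk k * ncS k s a b := by gcongr
      _ = Cr * M₀ ^ ε * R ^ (qk k + ε) * ncS k s a b := by rw [Real.rpow_add hR]; ring
      _ ≤ (max (Cr * M₀ ^ ε) C' + Θ / 2) * R ^ (qk k + ε) * ncS k s a b := by
          have : Cr * M₀ ^ ε ≤ max (Cr * M₀ ^ ε) C' + Θ / 2 := by linarith [le_max_left (Cr * M₀ ^ ε) C']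
          gcongr
  · push Not at hNL
    obtain ⟨x, H, μ, ρ₆, ρ₇, hx, hμ, hρ₇, hρ₆, h1, h2, h3, h4, h5, h6, h7, h8⟩ := hnum R hRc
    have hΩ0 : 0 < 2 * Θ * (2 * R) ^ (qk k + ε) * (1 + (ρ₇ + 3)) ^ P := by positivity
    obtain ⟨s₁, hs₁, Y₁, hY₁, hcard, hocc, hc₁⟩ := nc_del hk hW hΘ.le (by linarith) hN hc (ρe := ρ₇ + 3) (by linarith) hΩ0 le_rfl
    obtain ⟨κ, B, W, α, cp, hpar⟩ := hasm ι A s₁ a b Y₁ ((M₀ * R) ^ Ae) (A.N ^ ((k : ℝ) / 2) / (4 * (2 * R))) hc₁.cls hc₁.le h1 hNL (by positivity)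
    have hb := hcore (qk k + ε) N₁ Θ hΘ.le hW ι κ A s₁ a b Y₁ (2 * R) B W α cp C₃ C₅ ((M₀ * R) ^ Ae) (Cε * ((M₀ * R) ^ Ae) ^ ε₁) x H μ ρ₆ ρ₇ _ hN hc₁ hpar hC₃ hC₅ (by positivity)
      (hL₀.trans h1) hx hμ hρ₇ hρ₆ hΩ0.le h2 h3 h4 h5 h6 hocc
    have hS1 : ncS k s₁ a b ≤ ncS k s a b := ncS_mono hs₁ (fun _ hT => hc.a_nonneg hT) (fun _ hT => hc.b_nonneg hT)
    have hS10 : 0 ≤ ncS k s₁ a b := hc₁.S_nonneg
    rw [Real.mul_rpow (by norm_num : (0 : ℝ) ≤ 2) hR.le] at hb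
    have key : 2 * (Y₁.card : ℝ) ≤ ncS k s₁ a b * (Θ * R ^ (qk k + ε) * (1 / 2) + C' * R ^ (qk k + ε)) := by
      have hΘR : 0 ≤ Θ * R ^ (qk k + ε) := by positivity
      have h7' := mul_le_mul_of_nonneg_left h7 hΘR
      have := mul_le_mul_of_nonneg_left (add_le_add h7' h8) hS10
      refine le_trans ?_ this
      refine (mul_le_mul_of_nonneg_left hb (by norm_num : (0 : ℝ) ≤ 2)).trans (le_of_eq ?_)
      ring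
    calc (Y.card : ℝ) ≤ 2 * Y₁.card := hcard
      _ ≤ ncS k s₁ a b * (Θ * R ^ (qk k + ε) * (1 / 2) + C' * R ^ (qk k + ε)) := key
      _ ≤ ncS k s a b * (Θ * R ^ (qk k + ε) * (1 / 2) + C' * R ^ (qk k + ε)) := by gcongr
      _ = (C' + Θ / 2) * R ^ (qk k + ε) * ncS k s a b := by ring
      _ ≤ (max (Cr * M₀ ^ ε) C' + Θ / 2) * R ^ (qk k + ε) * ncS k s a b := by
          have : C' ≤ max (Cr * M₀ ^ ε) C' := le_max_right _ _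
          gcongr

/-- the iteration -/
theorem nc_iter {K : PCls} {P p N₁ C₀ : ℝ} (hstep : ∀ Θ : ℝ, 0 ≤ Θ → Wnc k K P p N₁ Θ → Wnc k K P p N₁ (C₀ + Θ / 2)) (hC₀ : 0 ≤ C₀) (h0 : ∃ Θ : ℝ, 0 ≤ Θ ∧ Wnc k K P p N₁ Θ) :
    Wnc k K P p N₁ (2 * C₀ + 1) := by
  obtain ⟨Θ, hΘ, hW⟩ := h0
  have key : ∀ n : ℕ, Wnc k K P p N₁ (2 * C₀ + Θ / 2 ^ n) := by
    intro n
    induction n with
    | zero => exact hW.mono (by simp only [pow_zero, div_one]; linarith)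
    | succ n ih =>
      have h1 := hstep _ (by positivity) ih
      have e : C₀ + (2 * C₀ + Θ / 2 ^ n) / 2 = 2 * C₀ + Θ / 2 ^ (n + 1) := by
        rw [pow_succ]; field_simp; ring
      rwa [e] at h1
  obtain ⟨n, hn⟩ := pow_unbounded_of_one_lt Θ (one_lt_two : (1 : ℝ) < 2)
  refine (key n).mono ?_
  have : Θ / 2 ^ n ≤ 1 := by rw [div_le_one (by positivity)]; exact hn.le
  linarith

/-- **`p:near-cauchy`, weighted form, for a self-reproducing class.** -/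
theorem nc_main (hk : 1 ≤ k) (K : PCls) (P : ℝ) (hρ : 0 ≤ K.ρ) (hC₀ : 0 ≤ K.C₀) (hP : (k : ℝ) + 2 < P) (hPP : P + 1 ≤ K.P') (hasm : NcAsmStmt k K P) {ε : ℝ} (hε : 0 < ε) :
    ∃ C : ℝ, 0 < C ∧ ∀ (ι : Type) (A : PFam k ι) (s : Finset ι) (a b : ι → ℝ) (Y : Finset (ST k)) (R : ℝ), NcCfg K P A s a b Y R →
      (Y.card : ℝ) ≤ C * R ^ (qk k + ε) * ncS k s a b := by
  obtain ⟨C₀, hC₀', hstep⟩ := nc_step hk K P hρ hC₀ hP hPP hasm hε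
  have hk0 : (0 : ℝ) ≤ k := Nat.cast_nonneg k
  refine ⟨2 * C₀ + 1, by positivity, fun ι A s a b Y R hc => ?_⟩
  have h0 := nc_apriori hk K P (by linarith) (by linarith) (by linarith) (by linarith) (p := qk k + ε) (by linarith) A.N
  exact nc_iter (hstep A.N) hC₀' h0 ι A s a b Y R le_rfl hc

/-- the exit of `PK2/NcAsm.lean`: every class is contained in a self-reproducing class -/
def NcAsmAll (k : ℕ) : Prop :=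
  ∀ (K : PCls) (P : ℝ), 0 ≤ K.ρ → 0 ≤ K.C₀ → (k : ℝ) + 2 < P → P + 1 ≤ K.P' →
    ∃ K' : PCls, K.ρ ≤ K'.ρ ∧ K'.P' = K.P' ∧ K'.C₀ = K.C₀ ∧ K.m₀ ≤ K'.m₀ ∧ NcAsmStmt k K' P

/-- **EXIT: `p:near-cauchy`, weighted form, every class, every `R > 0`.** -/
theorem nc_out (hk : 1 ≤ k) (hall : NcAsmAll k) (K : PCls) (P : ℝ) (hρ : 0 ≤ K.ρ) (hC₀ : 0 ≤ K.C₀) (hP : (k : ℝ) + 2 < P) (hPP : P + 1 ≤ K.P') {ε : ℝ} (hε : 0 < ε) :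
    ∃ C : ℝ, 0 < C ∧ ∀ (ι : Type) (A : PFam k ι) (s : Finset ι) (a b : ι → ℝ) (Y : Finset (ST k)) (R : ℝ), NcCfg K P A s a b Y R →
      (Y.card : ℝ) ≤ C * R ^ (qk k + ε) * ncS k s a b := by
  obtain ⟨K', h1, h2, h3, h4, hasm⟩ := hall K P hρ hC₀ hP hPP
  obtain ⟨C, hC, h⟩ := nc_main hk K' P (hρ.trans h1) (h3 ▸ hC₀) hP (h2 ▸ hPP) hasm hε
  refine ⟨C, hC, fun ι A s a b Y R hc => h ι A s a b Y R ⟨hc.cls.mono h1 h2.le h3.ge h4, hc.le, hc.sep, hc.R_pos, hc.env, hc.big⟩⟩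

theorem ncS_self (hk : 1 ≤ k) {s : Finset ι} {a : ι → ℝ} (ha : ∀ T ∈ s, 0 ≤ a T) : ncS k s a a = ∑ T ∈ s, a T ^ 2 := by
  refine Finset.sum_congr rfl fun T hT => ?_
  have hq : 0 < qk k := by linarith [(nc_qk hk).1]
  rcases (ha T hT).eq_or_lt with h | h
  · rw [← h, Real.zero_rpow hq.ne']; simp
  · rw [← Real.rpow_add h, add_sub_cancel, Real.rpow_two]

/-- **EXIT: `p:near-cauchy` (H (p:near-cauchy-equation)).** -/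
theorem nc_out_unw (hk : 1 ≤ k) (hall : NcAsmAll k) (K : PCls) (P : ℝ) (hρ : 0 ≤ K.ρ) (hC₀ : 0 ≤ K.C₀) (hP : (k : ℝ) + 2 < P) (hPP : P + 1 ≤ K.P') {ε : ℝ} (hε : 0 < ε) :
    ∃ C : ℝ, 0 < C ∧ ∀ (ι : Type) (A : PFam k ι) (s : Finset ι) (a : ι → ℝ) (Y : Finset (ST k)) (R : ℝ), A.In s K a → USep Y → 0 < R →
      (∀ z ∈ Y, A.sq P s a z ≤ 1) → (∀ z ∈ Y, A.N ^ ((k : ℝ) / 2) / R ≤ ‖A.fld s z‖) → (Y.card : ℝ) ≤ C * R ^ (qk k + ε) * ∑ T ∈ s, a T ^ 2 := by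
  obtain ⟨C, hC, h⟩ := nc_out hk hall K P hρ hC₀ hP hPP hε
  refine ⟨C, hC, fun ι A s a Y R hA hY hR h1 h2 => ?_⟩
  rw [← ncS_self hk fun T hT => hA.amp_nonneg hT]
  exact h ι A s a a Y R ⟨hA, fun _ _ => le_rfl, hY, hR, h1, h2⟩

/-- Stores the on-demand equation lemmas of the definitions above in THIS module (rule 6 hygiene). -/
theorem nc_main_forced : True := by
  have := @NcAsmAll.eq_1
  trivial

end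

end Claimed.Agent.R257
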