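import Claimed.Agent.R257.PK2.NcGeo
import Claimed.Agent.Lib.BD.Top

/-!
# R257 / PK2 / NcRed : THE REDUCTIONS OF `p:near-cauchy` (H packets.tex l.1062-1195: deletion, assembly, saturation, localisation of the square mass)      (architect helper266)

EXIT: `nc_core` (one configuration with bounded fine occupancy, one assembly, EXPLICIT parameters `L, x, H, μ, ρ₆, ρ₇, Ω`; all numerical conditions are hypotheses) and `nc_del`, `nc_rough`, `nc_R_ge`, `nc_apriori`.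
NOTATION: `q = qk k` (`k q / 2 = k + 2`), `N = A.N`, `M = B.N = N/L`, `g T = ncg A B cp b P T = β_T²`, `S = ncS k s a b`.
Every `sorry` is a leaf `L-NCR-*`: prove IN PLACE, statements verbatim, auxiliary lemmas directly above, prefix `nc_`.
-/

set_option autoImplicit false

namespace Claimed.Agent.R257

open MeasureTheory Metric Set
open scoped ENNReal Classical

noncomputable section

variable {k : ℕ} {ι κ : Type}

/-- the square of the parent weight: `β_T² = ∑_{T' ∈ cp T} b_{T'}² (1 + d_{T'}(z_T))^(-(P+1))` -/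
def ncg (A : PFam k ι) (B : PFam k κ) (cp : κ → Finset ι) (b : ι → ℝ) (P : ℝ) (T : κ) : ℝ := A.sq (P + 1) (cp T) b (B.ctr T)

/-- **L-NCR-QK.** -/
theorem nc_qk (hk : 1 ≤ k) : 2 < qk k ∧ (k : ℝ) * qk k / 2 = (k : ℝ) + 2 ∧ qk k * (k : ℝ) = 2 * ((k : ℝ) + 2) ∧ qk k ≤ 6 := by
  have hk0 : (0 : ℝ) < k := by exact_mod_cast hk
  have hk1 : (1 : ℝ) ≤ k := by exact_mod_cast hk
  unfold qk
  refine ⟨?_, ?_, ?_, ?_⟩
  · rw [lt_div_iff₀ hk0]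
    linarith
  · field_simp
  · rw [div_mul_cancel₀ _ hk0.ne']
  · rw [div_le_iff₀ hk0]
    linarith

theorem nc_sq_a_le {K : PCls} {P : ℝ} {A : PFam k ι} {s : Finset ι} {a b : ι → ℝ} {Y : Finset (ST k)} {R : ℝ} (h : NcCfg K P A s a b Y R)
    {z : ST k} (hz : z ∈ Y) : A.sq P s a z ≤ 1 := by
  refine le_trans ?_ (h.env z hz)
  unfold PFam.sq
  refine Finset.sum_le_sum fun T hT => mul_le_mul_of_nonneg_right ?_ (pkw_w_pos A P T z).le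
  exact pow_le_pow_left₀ (h.a_nonneg hT) (h.le T hT) 2

/-- **L-NCR-RGE: pointwise Cauchy.**  `pk_cauchy k hP K.C₀` : `N^k/R² ≤ ‖V z‖² ≤ C m₀ N^k sq P s a z ≤ C m₀ N^k` (`a² ≤ b²` termwise, `env`); `(N^(k/2))² = N^k`.   `c₀ = min 1 (√(C m₀ + 1))⁻¹`. -/
theorem nc_R_ge (K : PCls) (P : ℝ) (hP : P + (k : ℝ) + 1 < 2 * K.P') : ∃ c₀ : ℝ, 0 < c₀ ∧ c₀ ≤ 1 ∧
    ∀ (ι : Type) (A : PFam k ι) (s : Finset ι) (a b : ι → ℝ) (Y : Finset (ST k)) (R : ℝ), NcCfg K P A s a b Y R → Y.Nonempty → c₀ ≤ R := by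
  obtain ⟨C, hC, H⟩ := pk_cauchy k hP K.C₀
  obtain ⟨D, hD⟩ : ∃ D : ℝ, D = C * K.m₀ + 1 := ⟨_, rfl⟩
  have hD0 : 0 < D := by
    rw [hD]
    positivity
  have hs : 0 < Real.sqrt D := Real.sqrt_pos.2 hD0
  refine ⟨min 1 (Real.sqrt D)⁻¹, lt_min one_pos (inv_pos.2 hs), min_le_left _ _, ?_⟩
  intro ι A s a b Y R h hY
  obtain ⟨z, hz⟩ := hY
  have hN : 0 < A.N := lt_of_lt_of_le one_pos h.cls.one_le
  have hR := h.R_pos
  have h1 := H ι A s K a h.cls le_rfl le_rfl z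
  have h2 := h.big z hz
  have hsq := nc_sq_a_le h hz
  have hNk : 0 < A.N ^ k := pow_pos hN k
  have e : (A.N ^ ((k : ℝ) / 2)) ^ 2 = A.N ^ k := by
    rw [← Real.rpow_natCast (A.N ^ ((k : ℝ) / 2)) 2, ← Real.rpow_mul hN.le, ← Real.rpow_natCast A.N k]
    congr 1
    push_cast
    ring
  have h3 : (A.N ^ ((k : ℝ) / 2) / R) ^ 2 ≤ ‖A.fld s z‖ ^ 2 := pow_le_pow_left₀ (by positivity) h2 2
  have h4 : A.N ^ k / R ^ 2 ≤ C * K.m₀ * A.N ^ k * 1 := by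
    have e' : A.N ^ k / R ^ 2 = (A.N ^ ((k : ℝ) / 2) / R) ^ 2 := by rw [div_pow, e]
    rw [e']
    have hc : 0 ≤ C * K.m₀ * A.N ^ k := by positivity
    exact h3.trans (h1.trans (mul_le_mul_of_nonneg_left hsq hc))
  have h5 : 1 ≤ D * R ^ 2 := by
    rw [div_le_iff₀ (by positivity)] at h4
    have h6 : A.N ^ k * 1 ≤ A.N ^ k * (C * K.m₀ * R ^ 2) := by
      calc A.N ^ k * 1 = A.N ^ k := mul_one _
        _ ≤ C * K.m₀ * A.N ^ k * 1 * R ^ 2 := h4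
        _ = A.N ^ k * (C * K.m₀ * R ^ 2) := by ring
    have h7 := le_of_mul_le_mul_left h6 hNk
    rw [hD]
    nlinarith [sq_nonneg R]
  refine (min_le_right _ _).trans ?_
  rw [inv_le_iff_one_le_mul₀ hs]
  refine (one_le_sq_iff₀ (by positivity)).1 ?_
  rw [mul_pow, Real.sq_sqrt hD0.le]
  linarith

/-- **L-NCR-ROUGH: the rough bound** (H (p:rough-scale-bound)).   `pkw_weighted_top K 1 (p := qk k) (r := 0)` with `hdec = fun η hη => BD.bd_main …` (`finrank_euclideanSpace_fin`, `nc_qk`), `PkwLe.count` with `m₁ = 5^(k+1)` (`pkw_usep_card`), `g = id`, `β = 1`, `lam = N^(k/2)/R`, `pkw_near_top`;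
`A.bud q s a b = N^(k+2) S`, `lam^(-q) = N^(-(k+2)) R^q`. -/
theorem nc_rough (hk : 1 ≤ k) (K : PCls) (P : ℝ) (hP0 : 0 ≤ P) (hPP : P ≤ K.P') (hP' : (k : ℝ) + 1 < K.P') {ε₂ : ℝ} (hε₂ : 0 < ε₂) : ∃ C : ℝ, 0 ≤ C ∧
    ∀ (ι : Type) (A : PFam k ι) (s : Finset ι) (a b : ι → ℝ) (Y : Finset (ST k)) (R : ℝ), NcCfg K P A s a b Y R →
      (Y.card : ℝ) ≤ C * A.N ^ ε₂ * R ^ qk k * ncS k s a b := by
  obtain ⟨hq2, hq1, hq3, hq6⟩ := nc_qk hk
  have hdec : ∀ η : ℝ, 0 < η → BD.DecPow (E k) (qk k) η := fun η hη => BD.bd_main hq2.le (by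
    rw [finrank_euclideanSpace_fin]
    exact hq3.le) hη
  obtain ⟨Cst, hCst, H⟩ := pkw_weighted_top K 1 (p := qk k) (P := P) (r := 0) hq2.le hP0 hPP hP' le_rfl hdec hε₂
  refine ⟨Cst * (5 ^ (k + 1) : ℕ), by positivity, fun ι A s a b Y R h => ?_⟩
  have hN1 := h.cls.one_le
  have hN : 0 < A.N := by linarith
  have hNp : 0 < A.N ^ ((k : ℝ) / 2) := Real.rpow_pos_of_pos hN _
  have hR := h.R_pos
  have h1 := (H A.N hN1).count hq2.le (by positivity) le_rfl rfl h.cls (pkw_near_top A s zero_le_one hN.le)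
    (fun T hT => h.b_nonneg hT) (fun T hT hb => le_antisymm (hb ▸ h.le T hT) (h.a_nonneg hT))
    Y (5 ^ (k + 1)) (fun z₀ => by convert pkw_usep_card h.sep z₀) id (fun z _ => by simp) (β := 1)
    (lam := A.N ^ ((k : ℝ) / 2) / R) one_pos (by positivity)
    (fun z hz => by
      rw [one_pow]
      exact h.env z hz) h.big
  have e1 : (A.N ^ ((k : ℝ) / 2) / R) ^ (-qk k) = A.N ^ (-((k : ℝ) + 2)) * R ^ qk k := by
    rw [Real.div_rpow hNp.le hR.le, ← Real.rpow_mul hN.le, Real.rpow_neg hR.le, div_inv_eq_mul]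
    congr 2
    linarith
  have e2 : A.bud (qk k) s a b = A.N ^ ((k : ℝ) + 2) * ncS k s a b := rfl
  rw [Real.one_rpow, e1, e2] at h1
  have e3 : A.N ^ (-((k : ℝ) + 2)) * A.N ^ ((k : ℝ) + 2) = 1 := by
    rw [← Real.rpow_add hN, neg_add_cancel, Real.rpow_zero]
  calc (Y.card : ℝ) ≤ Cst * A.N ^ ε₂ * (5 ^ (k + 1) : ℕ) * 1 * (A.N ^ (-((k : ℝ) + 2)) * R ^ qk k)
        * (A.N ^ ((k : ℝ) + 2) * ncS k s a b) := h1
    _ = Cst * (5 ^ (k + 1) : ℕ) * A.N ^ ε₂ * R ^ qk k * ncS k s a b * (A.N ^ (-((k : ℝ) + 2)) * A.N ^ ((k : ℝ) + 2)) := by ring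
    _ = Cst * (5 ^ (k + 1) : ℕ) * A.N ^ ε₂ * R ^ qk k * ncS k s a b := by rw [e3, mul_one]

/-- **L-NCR-APRIORI: step (0).**  `nc_rough` with `ε₂ = 1`, `N ≤ N₁`; `Y = ∅` trivial, otherwise `R ≥ c₀` (`nc_R_ge`): `R^q = R^p R^(-(p-q)) ≤ R^p c₀^(-(p-q))`.   `Θ = C (|N₁| + 1) c₀^(-(p-q))`. -/
theorem nc_apriori (hk : 1 ≤ k) (K : PCls) (P : ℝ) (hP0 : 0 ≤ P) (hPP : P ≤ K.P') (hP' : (k : ℝ) + 1 < K.P') (hP : P + (k : ℝ) + 1 < 2 * K.P') {p : ℝ} (hp : qk k ≤ p) (N₁ : ℝ) :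
    ∃ Θ : ℝ, 0 ≤ Θ ∧ Wnc k K P p N₁ Θ := by
  obtain ⟨C, hC, H⟩ := nc_rough hk K P hP0 hPP hP' (ε₂ := 1) one_pos
  obtain ⟨c₀, hc0, hc1, Hc⟩ := nc_R_ge (k := k) K P hP
  have hcp : 0 ≤ c₀ ^ (-(p - qk k)) := Real.rpow_nonneg hc0.le _
  refine ⟨C * (|N₁| + 1) * c₀ ^ (-(p - qk k)), by positivity, ?_⟩
  intro ι A s a b Y R hN h
  have hS := h.S_nonneg
  have hR := h.R_pos
  have hRp : 0 ≤ R ^ p := Real.rpow_nonneg hR.le _
  rcases Y.eq_empty_or_nonempty with rfl | hY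
  · simp only [Finset.card_empty, Nat.cast_zero]
    positivity
  · have hRc := Hc ι A s a b Y R h hY
    have h1 := H ι A s a b Y R h
    rw [Real.rpow_one] at h1
    have h2 : A.N ≤ |N₁| + 1 := hN.trans ((le_abs_self _).trans (by linarith))
    have h3 : R ^ qk k ≤ R ^ p * c₀ ^ (-(p - qk k)) := by
      have e : R ^ qk k = R ^ p * R ^ (-(p - qk k)) := by
        rw [← Real.rpow_add hR]
        congr 1
        ring
      rw [e]
      exact mul_le_mul_of_nonneg_left (Real.rpow_le_rpow_of_nonpos hc0 hRc (by linarith)) hRp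
    have hRq : 0 ≤ R ^ qk k := Real.rpow_nonneg hR.le _
    have h4 : C * A.N * R ^ qk k ≤ C * (|N₁| + 1) * (R ^ p * c₀ ^ (-(p - qk k))) :=
      mul_le_mul (mul_le_mul_of_nonneg_left h2 hC) h3 hRq (by positivity)
    calc (Y.card : ℝ) ≤ C * A.N * R ^ qk k * ncS k s a b := h1
      _ ≤ C * (|N₁| + 1) * (R ^ p * c₀ ^ (-(p - qk k))) * ncS k s a b := mul_le_mul_of_nonneg_right h4 hS
      _ = C * (|N₁| + 1) * c₀ ^ (-(p - qk k)) * R ^ p * ncS k s a b := by ring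

/-- **L-NCR-DEL: removing excessively occupied fine packets** (H l.1062-1080; the cut-off is proportional to `Θ`).   `occ T = #{z ∈ Y : d_T(z) ≤ ρe}`, `Del = s.filter (Ω < occ)`, `s₁ = s.filter (occ ≤ Ω)`, `Y_D = Y.filter (N^(k/2)/(2R) ≤ ‖A.fld Del z‖)`, `Y₁ = Y \ Y_D`.
`a^q b^(2-q) ≤ b²` (`0 ≤ a ≤ b`), so `ncS Del ≤ ∑_{Del} b²`;   `Ω ∑_{Del} b² ≤ ∑_{Del} b² occ = ∑_{z ∈ Y} ∑_{T ∈ Del, d_T(z) ≤ ρe} b² ≤ ∑_{z ∈ Y} (1+ρe)^P sq P s b z ≤ (1+ρe)^P #Y`.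
`hW` for `(A, Del, a, b, Y_D, 2R)` (`In.subset`, `PFam.sq_mono_set`): `#Y_D ≤ Θ (2R)^p (1+ρe)^P #Y / Ω ≤ #Y/2`.   On `Y₁`: `fld s = fld s₁ + fld Del` (`Finset.sum_filter_add_sum_filter_not`), `‖fld s₁‖ ≥ N^(k/2)/R - N^(k/2)/(2R)`. -/
theorem nc_del (hk : 1 ≤ k) {K : PCls} {P p N₁ Θ : ℝ} (hW : Wnc k K P p N₁ Θ) (hΘ : 0 ≤ Θ) (hP : 0 ≤ P) {A : PFam k ι} {s : Finset ι} {a b : ι → ℝ} {Y : Finset (ST k)} {R : ℝ} (hN : A.N ≤ N₁)
    (h : NcCfg K P A s a b Y R) {ρe Ω : ℝ} (hρe : 0 ≤ ρe) (hΩ0 : 0 < Ω) (hΩ : 2 * Θ * (2 * R) ^ p * (1 + ρe) ^ P ≤ Ω) :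
    ∃ s₁ : Finset ι, s₁ ⊆ s ∧ ∃ Y₁ : Finset (ST k), Y₁ ⊆ Y ∧ (Y.card : ℝ) ≤ 2 * Y₁.card ∧ (∀ T ∈ s₁, ((Y₁.filter fun z => A.d T z ≤ ρe).card : ℝ) ≤ Ω) ∧ NcCfg K P A s₁ a b Y₁ (2 * R) := by
  have hq := (nc_qk hk).1
  have hR := h.R_pos
  have hAN0 : 0 < A.N := lt_of_lt_of_le one_pos h.cls.one_le
  obtain ⟨occ, hocc⟩ : ∃ occ : ι → ℝ, occ = fun T => ((Y.filter fun z => A.d T z ≤ ρe).card : ℝ) := ⟨_, rfl⟩
  obtain ⟨Del, hDel⟩ : ∃ Del : Finset ι, Del = s.filter (fun T => Ω < occ T) := ⟨_, rfl⟩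
  obtain ⟨s₁, hs₁⟩ : ∃ s₁ : Finset ι, s₁ = s.filter (fun T => ¬ Ω < occ T) := ⟨_, rfl⟩
  obtain ⟨lamD, hlamD⟩ : ∃ lamD : ℝ, lamD = A.N ^ ((k : ℝ) / 2) / (2 * R) := ⟨_, rfl⟩
  obtain ⟨YD, hYD⟩ : ∃ YD : Finset (ST k), YD = Y.filter (fun z => lamD ≤ ‖A.fld Del z‖) := ⟨_, rfl⟩
  obtain ⟨Y₁, hY₁⟩ : ∃ Y₁ : Finset (ST k), Y₁ = Y.filter (fun z => ¬ lamD ≤ ‖A.fld Del z‖) := ⟨_, rfl⟩
  have hDs : Del ⊆ s := by rw [hDel]; exact Finset.filter_subset _ _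
  have hs₁s : s₁ ⊆ s := by rw [hs₁]; exact Finset.filter_subset _ _
  have hYDY : YD ⊆ Y := by rw [hYD]; exact Finset.filter_subset _ _
  have hY₁Y : Y₁ ⊆ Y := by rw [hY₁]; exact Finset.filter_subset _ _
  have hρ1 : 0 < 1 + ρe := by linarith
  -- Step A
  have hA1 : ∀ z ∈ Y, ∑ T ∈ Del, b T ^ 2 * (if A.d T z ≤ ρe then (1 : ℝ) else 0) ≤ (1 + ρe) ^ P := fun z hz => by
    calc ∑ T ∈ Del, b T ^ 2 * (if A.d T z ≤ ρe then (1 : ℝ) else 0) ≤ ∑ T ∈ Del, (1 + ρe) ^ P * (b T ^ 2 * A.w P T z) := by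
          refine Finset.sum_le_sum fun T _ => ?_
          have hd := A.d_nonneg T z
          have hw : 0 < A.w P T z := pkw_w_pos A P T z
          split_ifs with hdle
          · have h1 : 1 ≤ (1 + ρe) ^ P * A.w P T z := by
              unfold PFam.w
              rw [Real.rpow_neg (by positivity), ← div_eq_mul_inv, le_div_iff₀ (by positivity), one_mul]
              exact Real.rpow_le_rpow (by positivity) (by linarith) hP
            calc b T ^ 2 * 1 ≤ b T ^ 2 * ((1 + ρe) ^ P * A.w P T z) := by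
                  apply mul_le_mul_of_nonneg_left h1 (sq_nonneg _)
              _ = _ := by ring
          · rw [mul_zero]; positivity
      _ = (1 + ρe) ^ P * A.sq P Del b z := by
          unfold PFam.sq
          rw [Finset.mul_sum]
      _ ≤ (1 + ρe) ^ P * 1 := by
          apply mul_le_mul_of_nonneg_left _ (by positivity)
          exact (A.sq_mono_set P hDs b z).trans (h.env z hz)
      _ = _ := mul_one _
  have hA2 : Ω * ∑ T ∈ Del, b T ^ 2 ≤ (1 + ρe) ^ P * Y.card := by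
    calc Ω * ∑ T ∈ Del, b T ^ 2 = ∑ T ∈ Del, b T ^ 2 * Ω := by
          rw [Finset.mul_sum]
          exact Finset.sum_congr rfl fun T _ => by ring
      _ ≤ ∑ T ∈ Del, b T ^ 2 * occ T := by
          refine Finset.sum_le_sum fun T hT => ?_
          apply mul_le_mul_of_nonneg_left _ (sq_nonneg _)
          rw [hDel, Finset.mem_filter] at hT
          exact hT.2.le
      _ = ∑ T ∈ Del, ∑ z ∈ Y, b T ^ 2 * (if A.d T z ≤ ρe then (1 : ℝ) else 0) := by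
          refine Finset.sum_congr rfl fun T _ => ?_
          rw [hocc, ← Finset.mul_sum]
          congr 1
          simp only
          rw [Finset.card_filter]
          push_cast
          rfl
      _ = ∑ z ∈ Y, ∑ T ∈ Del, b T ^ 2 * (if A.d T z ≤ ρe then (1 : ℝ) else 0) := Finset.sum_comm
      _ ≤ ∑ _z ∈ Y, (1 + ρe) ^ P := Finset.sum_le_sum hA1
      _ = (1 + ρe) ^ P * Y.card := by rw [Finset.sum_const, nsmul_eq_mul]; ring
  -- Step B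
  have hB : ncS k Del a b ≤ ∑ T ∈ Del, b T ^ 2 := by
    unfold ncS
    refine Finset.sum_le_sum fun T hT => ?_
    have ha0 := h.a_nonneg (hDs hT)
    have hab := h.le T (hDs hT)
    rcases (h.b_nonneg (hDs hT)).eq_or_lt with hb0 | hb0
    · have : a T = 0 := by linarith
      rw [this, Real.zero_rpow (by linarith)]
      simp [sq_nonneg]
    · calc a T ^ qk k * b T ^ (2 - qk k) ≤ b T ^ qk k * b T ^ (2 - qk k) := by
            apply mul_le_mul_of_nonneg_right _ (by positivity)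
            exact Real.rpow_le_rpow ha0 hab (by linarith)
        _ = b T ^ 2 := by
            rw [← Real.rpow_add hb0]
            have : qk k + (2 - qk k) = (2 : ℕ) := by push_cast; ring
            rw [this, Real.rpow_natCast]
  -- Step C
  have cfgD : NcCfg K P A Del a b YD (2 * R) :=
    ⟨h.cls.subset hDs, fun T hT => h.le T (hDs hT), fun z hz z' hz' => h.sep z (hYDY hz) z' (hYDY hz'), by positivity,
      fun z hz => (A.sq_mono_set P hDs b z).trans (h.env z (hYDY hz)), fun z hz => by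
        rw [hYD, Finset.mem_filter, hlamD] at hz
        exact hz.2⟩
  have hC := hW ι A Del a b YD (2 * R) hN cfgD
  -- Step D
  have hRp : 0 ≤ (2 * R) ^ p := by positivity
  have hD : 2 * (YD.card : ℝ) ≤ Y.card := by
    have h1 : (YD.card : ℝ) * Ω ≤ Θ * (2 * R) ^ p * ((1 + ρe) ^ P * Y.card) := by
      calc (YD.card : ℝ) * Ω ≤ (Θ * (2 * R) ^ p * ncS k Del a b) * Ω := by
            apply mul_le_mul_of_nonneg_right hC hΩ0.le
        _ ≤ (Θ * (2 * R) ^ p * ∑ T ∈ Del, b T ^ 2) * Ω := by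
            apply mul_le_mul_of_nonneg_right _ hΩ0.le
            apply mul_le_mul_of_nonneg_left hB (by positivity)
        _ = Θ * (2 * R) ^ p * (Ω * ∑ T ∈ Del, b T ^ 2) := by ring
        _ ≤ _ := by
            apply mul_le_mul_of_nonneg_left hA2 (by positivity)
    have h2 : 2 * (Θ * (2 * R) ^ p * ((1 + ρe) ^ P * Y.card)) ≤ Ω * Y.card := by
      calc 2 * (Θ * (2 * R) ^ p * ((1 + ρe) ^ P * Y.card)) = (2 * Θ * (2 * R) ^ p * (1 + ρe) ^ P) * Y.card := by ring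
        _ ≤ Ω * Y.card := by
            apply mul_le_mul_of_nonneg_right hΩ (Nat.cast_nonneg _)
    have h3 : (2 * (YD.card : ℝ)) * Ω ≤ Y.card * Ω := by linarith
    exact le_of_mul_le_mul_right h3 hΩ0
  -- Step E
  have hE : (Y.card : ℝ) = YD.card + Y₁.card := by
    rw [hYD, hY₁]
    exact_mod_cast (Finset.card_filter_add_card_filter_not (s := Y) (fun z => lamD ≤ ‖A.fld Del z‖)).symm
  refine ⟨s₁, hs₁s, Y₁, hY₁Y, by linarith, fun T hT => ?_, ⟨h.cls.subset hs₁s, fun T hT => h.le T (hs₁s hT), fun z hz z' hz' => h.sep z (hY₁Y hz) z' (hY₁Y hz'), by positivity,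
      fun z hz => (A.sq_mono_set P hs₁s b z).trans (h.env z (hY₁Y hz)), fun z hz => ?_⟩⟩
  · rw [hs₁, Finset.mem_filter, hocc] at hT
    have h1 := not_lt.1 hT.2
    refine le_trans ?_ h1
    simp only
    exact_mod_cast Finset.card_le_card (Finset.filter_subset_filter (fun z => A.d T z ≤ ρe) hY₁Y)
  · have h1 : A.fld s z = A.fld Del z + A.fld s₁ z := by
      unfold PFam.fld
      rw [hDel, hs₁]
      exact (Finset.sum_filter_add_sum_filter_not s _ _).symm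
    have h2 := h.big z (hY₁Y hz)
    rw [hY₁, Finset.mem_filter] at hz
    have h3 := not_le.1 hz.2
    have h4 : ‖A.fld s z‖ ≤ ‖A.fld Del z‖ + ‖A.fld s₁ z‖ := by rw [h1]; exact norm_add_le _ _
    have h5 : A.N ^ ((k : ℝ) / 2) / R = 2 * lamD := by
      rw [hlamD]
      field_simp
    rw [← hlamD]
    linarith

/-- **L-NCR-SUB: `Wnc` for a normalised subfamily of parents.**   Family `B.scl c`, `c = (r √e)⁻¹`, amplitudes `a' = c α` (`In.scl`), weights `b' = √(g/e)`: `a' ≤ b'` (`0 ≤ α ≤ r √g`), `sq P W' b' z = e⁻¹ ∑ g w ≤ 1` (`PFam.sq_scl`, `Real.sq_sqrt`),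
`‖(B.scl c).fld W' z‖ = c ‖B.fld W' z‖ ≥ c lam = M^(k/2)/R'`, `R' = M^(k/2) r √e / lam > 0` (`PFam.fld_scl`);    `ncS k W' a' b' = c^q (√e)^(q-2) ∑ α^q (√g)^(2-q) = r^(-q) e⁻¹ ∑ …`  (`Real.mul_rpow`, `Real.div_rpow`, `Real.sqrt_eq_rpow`). -/
theorem nc_sub {K : PCls} {P p N₁ Θ : ℝ} (hW : Wnc k K P p N₁ Θ) {B : PFam k κ} {W' : Finset κ} {α g : κ → ℝ} (hB : B.In W' K α) (hN : B.N ≤ N₁) (hg : ∀ T ∈ W', 0 ≤ g T)
    {r e lam : ℝ} (hr : 0 < r) (he : 0 < e) (hlam : 0 < lam) (hα : ∀ T ∈ W', α T ^ 2 ≤ r ^ 2 * g T) {Y' : Finset (ST k)} (hY : USep Y')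
    (henv : ∀ z ∈ Y', ∑ T ∈ W', g T * B.w P T z ≤ e) (hbig : ∀ z ∈ Y', lam ≤ ‖B.fld W' z‖) :
    (Y'.card : ℝ) ≤ Θ * (B.N ^ ((k : ℝ) / 2) * r * Real.sqrt e / lam) ^ p * (r ^ (-qk k) * e⁻¹ * ∑ T ∈ W', α T ^ qk k * Real.sqrt (g T) ^ (2 - qk k)) := by
  have hse : 0 < Real.sqrt e := Real.sqrt_pos.2 he
  have hse2 : Real.sqrt e ^ 2 = e := Real.sq_sqrt he.le
  obtain ⟨c, hcdef⟩ : ∃ c : ℝ, c = (r * Real.sqrt e)⁻¹ := ⟨_, rfl⟩
  have hc : 0 < c := by rw [hcdef]; positivity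
  have hN0 : 0 < B.N := lt_of_lt_of_le one_pos hB.one_le
  have hα0 : ∀ T ∈ W', 0 ≤ α T := fun T hT => hB.amp_nonneg hT
  have hc2 : c ^ 2 * r ^ 2 = e⁻¹ := by
    rw [hcdef, inv_pow, mul_pow, hse2]
    field_simp
  have cfg : NcCfg K P (B.scl c) W' (fun T => c * α T) (fun T => Real.sqrt (g T / e)) Y' (B.N ^ ((k : ℝ) / 2) * r * Real.sqrt e / lam) := by
    refine ⟨hB.scl hc.le, fun T hT => ?_, hY, by positivity, fun z hz => ?_, fun z hz => ?_⟩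
    · apply Real.le_sqrt_of_sq_le
      calc (c * α T) ^ 2 = c ^ 2 * α T ^ 2 := by ring
        _ ≤ c ^ 2 * (r ^ 2 * g T) := by
            apply mul_le_mul_of_nonneg_left (hα T hT) (by positivity)
        _ = (c ^ 2 * r ^ 2) * g T := by ring
        _ = g T / e := by rw [hc2]; ring
    · rw [PFam.sq_scl]
      unfold PFam.sq
      calc ∑ T ∈ W', Real.sqrt (g T / e) ^ 2 * B.w P T z = ∑ T ∈ W', e⁻¹ * (g T * B.w P T z) := by
            refine Finset.sum_congr rfl fun T hT => ?_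
            rw [Real.sq_sqrt (div_nonneg (hg T hT) he.le)]
            ring
        _ = e⁻¹ * ∑ T ∈ W', g T * B.w P T z := by rw [Finset.mul_sum]
        _ ≤ e⁻¹ * e := by
            apply mul_le_mul_of_nonneg_left (henv z hz) (by positivity)
        _ = 1 := by field_simp
    · rw [PFam.fld_scl, PFam.N_scl, norm_mul, Complex.norm_real, Real.norm_of_nonneg hc.le]
      calc B.N ^ ((k : ℝ) / 2) / (B.N ^ ((k : ℝ) / 2) * r * Real.sqrt e / lam) = c * lam := by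
            rw [hcdef]
            have : 0 < B.N ^ ((k : ℝ) / 2) := by positivity
            field_simp
        _ ≤ c * ‖B.fld W' z‖ := by
            apply mul_le_mul_of_nonneg_left (hbig z hz) hc.le
  have h1 := hW κ (B.scl c) W' _ _ Y' _ hN cfg
  have h2 : ncS k W' (fun T => c * α T) (fun T => Real.sqrt (g T / e)) = r ^ (-qk k) * e⁻¹ * ∑ T ∈ W', α T ^ qk k * Real.sqrt (g T) ^ (2 - qk k) := by
    unfold ncS
    rw [Finset.mul_sum]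
    refine Finset.sum_congr rfl fun T hT => ?_
    have e1 : Real.sqrt e ^ qk k * Real.sqrt e ^ (2 - qk k) = e := by
      rw [← Real.rpow_add hse]
      have : qk k + (2 - qk k) = (2 : ℕ) := by push_cast; ring
      rw [this, Real.rpow_natCast, hse2]
    have e2 : e⁻¹ = (Real.sqrt e ^ qk k * Real.sqrt e ^ (2 - qk k))⁻¹ := by rw [e1]
    have hp1 : 0 < Real.sqrt e ^ qk k := by positivity
    have hp2 : 0 < Real.sqrt e ^ (2 - qk k) := by positivity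
    have hp3 : 0 < r ^ qk k := by positivity
    simp only
    rw [Real.mul_rpow hc.le (hα0 T hT), Real.sqrt_div (hg T hT), Real.div_rpow (Real.sqrt_nonneg _) hse.le, hcdef, Real.inv_rpow (by positivity),
      Real.mul_rpow hr.le hse.le, Real.rpow_neg hr.le, e2]
    field_simp
  rw [h2] at h1
  exact h1

/-- **L-NCR-BIG: the parents with a large weight** (H l.1150-1160).   `‖B.pk T z‖ ≤ α_T (1+d)^(-K.P') ≤ α_T w_T` (`In.norm_pk_le`/`In.norm_fld_le`, `P ≤ K.P'`), `α_T ≤ r √g ≤ r g / h` (`√g ≥ h`). -/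
theorem nc_big {K : PCls} {P : ℝ} (hPP : P ≤ K.P') {B : PFam k κ} {W' : Finset κ} {α g : κ → ℝ} (hB : B.In W' K α) {r h : ℝ} (hr : 0 ≤ r) (hh : 0 < h)
    (hα : ∀ T ∈ W', α T ^ 2 ≤ r ^ 2 * g T) (hbig : ∀ T ∈ W', h ^ 2 ≤ g T) (z : ST k) : ‖B.fld W' z‖ ≤ r / h * ∑ T ∈ W', g T * B.w P T z := by
  refine (hB.norm_fld_le z).trans ?_
  rw [Finset.mul_sum]
  refine Finset.sum_le_sum fun T hT => ?_
  have hd := B.d_nonneg T z
  have hα0 := hB.amp_nonneg hT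
  have hw : (1 + B.d T z) ^ (-K.P') ≤ B.w P T z := by
    unfold PFam.w
    exact Real.rpow_le_rpow_of_exponent_le (by linarith) (by linarith)
  have hw0 := (pkw_w_pos B P T z).le
  have hg : h ^ 2 ≤ g T := hbig T hT
  have hg0 : 0 ≤ g T := (sq_nonneg h).trans hg
  have h2 : α T * h ≤ r * g T := by
    rw [← pow_le_pow_iff_left₀ (by positivity) (by positivity) two_ne_zero]
    calc (α T * h) ^ 2 = α T ^ 2 * h ^ 2 := by ring
      _ ≤ (r ^ 2 * g T) * g T := mul_le_mul (hα T hT) hg (sq_nonneg _) (by positivity)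
      _ = (r * g T) ^ 2 := by ring
  have h3 : α T ≤ r / h * g T := by
    rw [div_mul_eq_mul_div, le_div_iff₀ hh]
    exact h2
  calc α T * (1 + B.d T z) ^ (-K.P') ≤ α T * B.w P T z := mul_le_mul_of_nonneg_left hw hα0
    _ ≤ (r / h * g T) * B.w P T z := mul_le_mul_of_nonneg_right h3 hw0
    _ = r / h * (g T * B.w P T z) := by ring

/-- **L-NCR-DISP: a parent displacement is `L` times smaller in child coordinates.**   `natX N v' ζ = natX L (M • (v' - v)) (natX M v ζ)` (`natX_resc` with `K = M`, `N / M = L`), `pk_natX_norm_le`, `‖M • (v' - v)‖ ≤ C₁`. -/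
theorem nc_disp {N M L C₁ : ℝ} (hM : 0 < M) (hL : 1 ≤ L) (hN : M = N / L) {v v' : E k} (hv : ‖v' - v‖ ≤ C₁ / M) (ζ : ST k) : ‖natX N v' ζ‖ ≤ (1 + 2 * C₁) / L * ‖natX M v ζ‖ := by
  have hL0 : 0 < L := by linarith
  have hN0 : N = M * L := by
    rw [hN]
    field_simp
  have e : N / M = L := by
    rw [hN0]
    field_simp
  have h1 := natX_resc (N := N) hM.ne' v' v ζ
  rw [e] at h1
  rw [← h1]
  have h2 := pk_natX_norm_le hL (M • (v' - v)) (natX M v ζ)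
  have h3 : ‖M • (v' - v)‖ ≤ C₁ := by
    rw [norm_smul, Real.norm_of_nonneg hM.le]
    calc M * ‖v' - v‖ ≤ M * (C₁ / M) := mul_le_mul_of_nonneg_left hv hM.le
      _ = C₁ := by field_simp
  refine h2.trans ?_
  rw [div_mul_eq_mul_div]
  exact div_le_div_of_nonneg_right (mul_le_mul_of_nonneg_right (by linarith) (norm_nonneg _)) hL0.le

/-- `ncg ≤` the sample of order `P`.   (termwise, `Real.rpow_le_rpow_of_exponent_le`, base `≥ 1`.) -/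
theorem nc_g_le (A : PFam k ι) (B : PFam k κ) (cp : κ → Finset ι) (b : ι → ℝ) (P : ℝ) (T : κ) : ncg A B cp b P T ≤ A.sq P (cp T) b (B.ctr T) := by
  unfold ncg PFam.sq
  refine Finset.sum_le_sum fun T' _ => mul_le_mul_of_nonneg_left ?_ (sq_nonneg _)
  unfold PFam.w
  have h := A.d_nonneg T' (B.ctr T)
  exact Real.rpow_le_rpow_of_exponent_le (by linarith) (by linarith)

theorem nc_g_nonneg (A : PFam k ι) (B : PFam k κ) (cp : κ → Finset ι) (b : ι → ℝ) (P : ℝ) (T : κ) : 0 ≤ ncg A B cp b P T := pkw_sq_nonneg _ _ _ _ _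

/-- **L-NCR-ENV: the parent envelope.**  (`nc_g_le`, subset, `NcPar.conv`.) -/
theorem nc_env {K : PCls} {P L C₁ C₃ C₅ Cb δ : ℝ} {A : PFam k ι} {s : Finset ι} {a b : ι → ℝ} {Y : Finset (ST k)} {B : PFam k κ} {W : Finset κ} {α : κ → ℝ} {cp : κ → Finset ι}
    (hpar : NcPar K P L C₁ C₃ C₅ Cb δ A s a b Y B W α cp) (hC₅ : 0 ≤ C₅) {W' : Finset κ} (hW' : W' ⊆ W) {z : ST k} (henv : A.sq P s b z ≤ 1) :
    ∑ T ∈ W', ncg A B cp b P T * B.w P T z ≤ C₅ := by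
  calc ∑ T ∈ W', ncg A B cp b P T * B.w P T z
      ≤ ∑ T ∈ W', A.sq P (cp T) b (B.ctr T) * B.w P T z :=
        Finset.sum_le_sum fun T _ => mul_le_mul_of_nonneg_right (nc_g_le A B cp b P T) (pkw_w_pos B P T z).le
    _ ≤ ∑ T ∈ W, A.sq P (cp T) b (B.ctr T) * B.w P T z :=
        Finset.sum_le_sum_of_subset_of_nonneg hW' fun T _ _ => mul_nonneg (pkw_sq_nonneg _ _ _ _ _) (pkw_w_pos B P T z).le
    _ ≤ C₅ * A.sq P s b z := hpar.conv z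
    _ ≤ C₅ * 1 := mul_le_mul_of_nonneg_left henv hC₅
    _ = C₅ := mul_one _

/-- **L-NCR-MASS: distance cut and attachment** (H l.1176-1204).   Split `Wg` into (i) `ncI0 …` (`w ≤ 1`), (ii) `ρ₆ < d_T(z)`: `nc_g_le`, `NcPar.tail` at `ϱ = ρ₆`: `≤ μ/4`, (iii) `d_T(z) ≤ ρ₆` and every `T' ∈ cp T` has `d_{T'}(z) > ρ₇`:
then `d_{T'}(z_T) ≥ d_{T'}(z) - ‖natX N v' (z - z_T)‖ > ρ₇ - (1+2C₁) ρ₆ / L ≥ ρ₇/2` (`PFam.d_le_add`, `nc_disp`, `natX M v (z - z_T) = natX M v z - u_T` by `natX_sub`, `natX_natI`), so `(1+d)^(-(P+1)) ≤ (2/ρ₇) (1+d)^(-P)`,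
`ncg T ≤ (2/ρ₇) A.sq P (cp T) b (B.ctr T)`, and `NcPar.conv`: `≤ 2 C₅/ρ₇ ≤ μ/4`. -/
theorem nc_mass {K : PCls} {P L C₁ C₃ C₅ Cb δ : ℝ} {A : PFam k ι} {s : Finset ι} {a b : ι → ℝ} {Y : Finset (ST k)} {B : PFam k κ} {W : Finset κ} {α : κ → ℝ} {cp : κ → Finset ι}
    (hpar : NcPar K P L C₁ C₃ C₅ Cb δ A s a b Y B W α cp) (hP : 0 ≤ P) (hL : 1 ≤ L) (hC₁ : 0 ≤ C₁) (hC₅ : 0 ≤ C₅) {Wg : Finset κ} (hWg : Wg ⊆ W) {z : ST k} (henv : A.sq P s b z ≤ 1) {μ ρ₆ ρ₇ : ℝ}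
    (hμ : μ < ∑ T ∈ Wg, ncg A B cp b P T * B.w P T z) (h6 : 2 ≤ ρ₆) (h7 : 0 < ρ₇)
    (htail : C₅ * (ρ₆ ^ (-(P - (k : ℝ) - 1)) + L ^ (-(P - (k : ℝ) - 2))) ≤ μ / 4) (hatt : 2 * C₅ / ρ₇ ≤ μ / 4) (hdisp : (1 + 2 * C₁) * ρ₆ / L ≤ ρ₇ / 2) :
    μ / 2 ≤ ∑ T ∈ ncI0 A B cp Wg ρ₆ ρ₇ z, ncg A B cp b P T := by
  have hL0 : 0 < L := by linarith
  have hBN0 : 0 < B.N := lt_of_lt_of_le one_pos hpar.cls.one_le
  obtain ⟨SP, hSP⟩ : ∃ SP : κ → ℝ, SP = fun T => A.sq P (cp T) b (B.ctr T) := ⟨_, rfl⟩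
  have hSP0 : ∀ T, 0 ≤ SP T := fun T => by rw [hSP]; exact pkw_sq_nonneg _ _ _ _ _
  have hg0 : ∀ T, 0 ≤ ncg A B cp b P T := fun T => nc_g_nonneg A B cp b P T
  have hgle : ∀ T, ncg A B cp b P T ≤ SP T := fun T => by rw [hSP]; exact nc_g_le A B cp b P T
  have hw0 : ∀ T, 0 < B.w P T z := fun T => pkw_w_pos B P T z
  have hw1 : ∀ T, B.w P T z ≤ 1 := fun T => by
    unfold PFam.w
    exact Real.rpow_le_one_of_one_le_of_nonpos (by linarith [B.d_nonneg T z]) (by linarith)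
  have hsq0 : 0 ≤ A.sq P s b z := pkw_sq_nonneg _ _ _ _ _
  -- unattached cells
  have hun : ∀ T ∈ Wg, B.d T z ≤ ρ₆ → (¬ ∃ T' ∈ cp T, A.d T' z ≤ ρ₇) → ncg A B cp b P T ≤ 2 / ρ₇ * SP T := fun T hT hd hna => by
    rw [hSP]
    unfold ncg PFam.sq
    rw [Finset.mul_sum]
    refine Finset.sum_le_sum fun T' hT' => ?_
    have hfar : ρ₇ < A.d T' z := by
      by_contra hcon
      exact hna ⟨T', hT', not_lt.1 hcon⟩
    have h1 := A.d_le_add T' (B.ctr T) z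
    have h2 := nc_disp (N := A.N) hBN0 hL hpar.scale (hpar.cap T (hWg hT) T' hT').2 (z - B.ctr T)
    have h3 : ‖natX B.N (B.v T) (z - B.ctr T)‖ = B.d T z := by
      unfold PFam.d PFam.ctr
      rw [natX_sub, natX_natI hBN0.ne']
    rw [h3] at h2
    have h4 : (1 + 2 * C₁) / L * B.d T z ≤ ρ₇ / 2 := by
      calc (1 + 2 * C₁) / L * B.d T z ≤ (1 + 2 * C₁) / L * ρ₆ := by
            apply mul_le_mul_of_nonneg_left hd (by positivity)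
        _ = (1 + 2 * C₁) * ρ₆ / L := by ring
        _ ≤ _ := hdisp
    have h5 : ρ₇ / 2 ≤ 1 + A.d T' (B.ctr T) := by linarith
    have hd0 := A.d_nonneg T' (B.ctr T)
    have h6' : A.w (P + 1) T' (B.ctr T) ≤ 2 / ρ₇ * A.w P T' (B.ctr T) := by
      unfold PFam.w
      have e : -(P + 1) = -P + -1 := by ring
      rw [e, Real.rpow_add (by positivity), Real.rpow_neg_one, mul_comm]
      apply mul_le_mul_of_nonneg_right _ (by positivity)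
      rw [inv_le_comm₀ (by positivity) (by positivity)]
      have : (2 / ρ₇)⁻¹ = ρ₇ / 2 := by rw [inv_div]
      rw [this]
      exact h5
    calc b T' ^ 2 * A.w (P + 1) T' (B.ctr T) ≤ b T' ^ 2 * (2 / ρ₇ * A.w P T' (B.ctr T)) := by
          apply mul_le_mul_of_nonneg_left h6' (sq_nonneg _)
      _ = _ := by ring
  -- termwise
  have hterm : ∀ T ∈ Wg, ncg A B cp b P T * B.w P T z ≤ (if B.d T z ≤ ρ₆ ∧ ∃ T' ∈ cp T, A.d T' z ≤ ρ₇ then ncg A B cp b P T else 0)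
      + (if ρ₆ < B.d T z then SP T * B.w P T z else 0) + 2 / ρ₇ * (SP T * B.w P T z) := fun T hT => by
    have p1 : 0 ≤ 2 / ρ₇ * (SP T * B.w P T z) := by
      have := hSP0 T
      have := (hw0 T).le
      positivity
    by_cases hd : ρ₆ < B.d T z
    · rw [if_pos hd, if_neg (fun hh => absurd hh.1 (not_le.2 hd))]
      have := mul_le_mul_of_nonneg_right (hgle T) (hw0 T).le
      linarith
    · rw [if_neg hd]
      have hd' := not_lt.1 hd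
      by_cases hat : ∃ T' ∈ cp T, A.d T' z ≤ ρ₇
      · rw [if_pos ⟨hd', hat⟩]
        have := mul_le_mul_of_nonneg_left (hw1 T) (hg0 T)
        linarith
      · rw [if_neg (fun hh => hat hh.2)]
        have := mul_le_mul_of_nonneg_right (hun T hT hd' hat) (hw0 T).le
        linarith
  have hT1 : ∑ T ∈ Wg, (if ρ₆ < B.d T z then SP T * B.w P T z else 0) ≤ μ / 4 := by
    rw [← Finset.sum_filter]
    have h1 := hpar.tail z ρ₆ h6
    have h2 : ∑ T ∈ Wg.filter (fun T => ρ₆ < B.d T z), SP T * B.w P T z ≤ ∑ T ∈ W.filter (fun T => ρ₆ < B.d T z), SP T * B.w P T z :=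
      Finset.sum_le_sum_of_subset_of_nonneg (Finset.filter_subset_filter _ hWg) fun T _ _ => mul_nonneg (hSP0 T) (hw0 T).le
    have hc0 : 0 ≤ C₅ * (ρ₆ ^ (-(P - (k : ℝ) - 1)) + L ^ (-(P - (k : ℝ) - 2))) := by
      have : 0 < ρ₆ := by linarith
      positivity
    have h3 : C₅ * (ρ₆ ^ (-(P - (k : ℝ) - 1)) + L ^ (-(P - (k : ℝ) - 2))) * A.sq P s b z ≤ C₅ * (ρ₆ ^ (-(P - (k : ℝ) - 1)) + L ^ (-(P - (k : ℝ) - 2))) * 1 :=
      mul_le_mul_of_nonneg_left henv hc0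
    rw [hSP] at h2 ⊢
    linarith
  have hT2 : 2 / ρ₇ * ∑ T ∈ Wg, SP T * B.w P T z ≤ μ / 4 := by
    have h1 := hpar.conv z
    have h2 : ∑ T ∈ Wg, SP T * B.w P T z ≤ ∑ T ∈ W, SP T * B.w P T z :=
      Finset.sum_le_sum_of_subset_of_nonneg hWg fun T _ _ => mul_nonneg (hSP0 T) (hw0 T).le
    have h3 : C₅ * A.sq P s b z ≤ C₅ * 1 := mul_le_mul_of_nonneg_left henv hC₅
    have h4 : ∑ T ∈ Wg, SP T * B.w P T z ≤ C₅ := by
      rw [hSP] at h2 ⊢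
      linarith
    calc 2 / ρ₇ * ∑ T ∈ Wg, SP T * B.w P T z ≤ 2 / ρ₇ * C₅ := by
          apply mul_le_mul_of_nonneg_left h4 (by positivity)
      _ = 2 * C₅ / ρ₇ := by ring
      _ ≤ _ := hatt
  have hsum : ∑ T ∈ Wg, ncg A B cp b P T * B.w P T z ≤ ∑ T ∈ ncI0 A B cp Wg ρ₆ ρ₇ z, ncg A B cp b P T
      + ∑ T ∈ Wg, (if ρ₆ < B.d T z then SP T * B.w P T z else 0) + 2 / ρ₇ * ∑ T ∈ Wg, SP T * B.w P T z := by
    unfold ncI0
    rw [Finset.sum_filter, Finset.mul_sum, ← Finset.sum_add_distrib, ← Finset.sum_add_distrib]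
    exact Finset.sum_le_sum hterm
  linarith

/-- **L-NCR-SAT: the total square mass of the saturated parents** (H (p:saturated-ratio)).   For `T ∈ Wg`: `α > x L^(k/2) √g ≥ 0`, so `g = (√g)^q (√g)^(2-q) ≤ (x L^(k/2))^(-q) α^q (√g)^(2-q)` (trivial if `g = 0`);  the other terms of `NcPar.bud` are `≥ 0`;
`(x L^(k/2))^(-q) L^(k+2) = x^(-q)` (`nc_qk`). -/
theorem nc_sat (hk : 1 ≤ k) {K : PCls} {P L C₁ C₃ C₅ Cb δ : ℝ} {A : PFam k ι} {s : Finset ι} {a b : ι → ℝ} {Y : Finset (ST k)} {B : PFam k κ} {W : Finset κ} {α : κ → ℝ} {cp : κ → Finset ι}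
    (hpar : NcPar K P L C₁ C₃ C₅ Cb δ A s a b Y B W α cp) (hL : 1 ≤ L) {x : ℝ} (hx : 0 < x) {Wg : Finset κ} (hWg : Wg ⊆ W)
    (hsat : ∀ T ∈ Wg, (x * L ^ ((k : ℝ) / 2)) ^ 2 * ncg A B cp b P T < α T ^ 2) :
    ∑ T ∈ Wg, ncg A B cp b P T ≤ x ^ (-qk k) * Cb * ncS k s a b := by
  have hL0 : 0 < L := by linarith
  have hq := (nc_qk hk).1
  have hr : 0 < x * L ^ ((k : ℝ) / 2) := by positivity
  have e2 : (x * L ^ ((k : ℝ) / 2)) ^ (-qk k) * L ^ ((k : ℝ) + 2) = x ^ (-qk k) := by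
    rw [Real.mul_rpow hx.le (by positivity), ← Real.rpow_mul hL0.le, mul_assoc, ← Real.rpow_add hL0]
    have : (k : ℝ) / 2 * -qk k + ((k : ℝ) + 2) = 0 := by
      have := (nc_qk hk).2.1
      linarith
    rw [this, Real.rpow_zero, mul_one]
  have hterm : ∀ T ∈ Wg, ncg A B cp b P T ≤ (x * L ^ ((k : ℝ) / 2)) ^ (-qk k) * (α T ^ qk k * Real.sqrt (ncg A B cp b P T) ^ (2 - qk k)) := fun T hT => by
    have hg := nc_g_nonneg A B cp b P T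
    have hα0 : 0 ≤ α T := hpar.cls.amp_nonneg (hWg hT)
    rcases hg.eq_or_lt with h0 | h0
    · rw [← h0]
      positivity
    · have hsg : 0 < Real.sqrt (ncg A B cp b P T) := Real.sqrt_pos.2 h0
      have h1 : x * L ^ ((k : ℝ) / 2) * Real.sqrt (ncg A B cp b P T) ≤ α T := by
        apply le_of_lt
        apply lt_of_pow_lt_pow_left₀ 2 hα0
        rw [mul_pow, Real.sq_sqrt hg]
        exact hsat T hT
      have h2 : (x * L ^ ((k : ℝ) / 2)) ^ qk k * Real.sqrt (ncg A B cp b P T) ^ qk k ≤ α T ^ qk k := by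
        rw [← Real.mul_rpow hr.le hsg.le]
        exact Real.rpow_le_rpow (by positivity) h1 (by linarith)
      have h3 : ncg A B cp b P T = Real.sqrt (ncg A B cp b P T) ^ qk k * Real.sqrt (ncg A B cp b P T) ^ (2 - qk k) := by
        rw [← Real.rpow_add hsg]
        have : qk k + (2 - qk k) = (2 : ℕ) := by push_cast; ring
        rw [this, Real.rpow_natCast, Real.sq_sqrt hg]
      have hrq : 0 < (x * L ^ ((k : ℝ) / 2)) ^ qk k := by positivity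
      calc ncg A B cp b P T = Real.sqrt (ncg A B cp b P T) ^ qk k * Real.sqrt (ncg A B cp b P T) ^ (2 - qk k) := h3
        _ = (x * L ^ ((k : ℝ) / 2)) ^ (-qk k) * (((x * L ^ ((k : ℝ) / 2)) ^ qk k * Real.sqrt (ncg A B cp b P T) ^ qk k) * Real.sqrt (ncg A B cp b P T) ^ (2 - qk k)) := by
            rw [Real.rpow_neg hr.le]
            field_simp
        _ ≤ (x * L ^ ((k : ℝ) / 2)) ^ (-qk k) * (α T ^ qk k * Real.sqrt (ncg A B cp b P T) ^ (2 - qk k)) := by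
            apply mul_le_mul_of_nonneg_left _ (by positivity)
            apply mul_le_mul_of_nonneg_right h2 (by positivity)
  have h4 : ∑ T ∈ Wg, α T ^ qk k * Real.sqrt (ncg A B cp b P T) ^ (2 - qk k) ≤ Cb * L ^ ((k : ℝ) + 2) * ncS k s a b :=
    (Finset.sum_le_sum_of_subset_of_nonneg hWg fun T hT _ =>
      mul_nonneg (Real.rpow_nonneg (hpar.cls.amp_nonneg hT) _) (Real.rpow_nonneg (Real.sqrt_nonneg _) _)).trans hpar.bud
  calc ∑ T ∈ Wg, ncg A B cp b P T ≤ ∑ T ∈ Wg, (x * L ^ ((k : ℝ) / 2)) ^ (-qk k) * (α T ^ qk k * Real.sqrt (ncg A B cp b P T) ^ (2 - qk k)) := Finset.sum_le_sum hterm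
    _ = (x * L ^ ((k : ℝ) / 2)) ^ (-qk k) * ∑ T ∈ Wg, α T ^ qk k * Real.sqrt (ncg A B cp b P T) ^ (2 - qk k) := by rw [Finset.mul_sum]
    _ ≤ (x * L ^ ((k : ℝ) / 2)) ^ (-qk k) * (Cb * L ^ ((k : ℝ) + 2) * ncS k s a b) := by
        apply mul_le_mul_of_nonneg_left h4 (by positivity)
    _ = ((x * L ^ ((k : ℝ) / 2)) ^ (-qk k) * L ^ ((k : ℝ) + 2)) * Cb * ncS k s a b := by ring
    _ = _ := by rw [e2]

/-- **L-NCR-MX.**  `1 ≤ (1+ρ₆)^P w_T(z)` for `d_T(z) ≤ ρ₆`; `nc_env`. -/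
theorem nc_mx {K : PCls} {P L C₁ C₃ C₅ Cb δ : ℝ} {A : PFam k ι} {s : Finset ι} {a b : ι → ℝ} {Y : Finset (ST k)} {B : PFam k κ} {W : Finset κ} {α : κ → ℝ} {cp : κ → Finset ι}
    (hpar : NcPar K P L C₁ C₃ C₅ Cb δ A s a b Y B W α cp) (hP : 0 ≤ P) (hC₅ : 0 ≤ C₅) {Wg : Finset κ} (hWg : Wg ⊆ W) {z : ST k} (henv : A.sq P s b z ≤ 1) {ρ₆ : ℝ} (h6 : 0 ≤ ρ₆) :
    ∑ T ∈ Wg.filter (fun T => B.d T z ≤ ρ₆), ncg A B cp b P T ≤ (1 + ρ₆) ^ P * C₅ := by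
  have hsub : Wg.filter (fun T => B.d T z ≤ ρ₆) ⊆ W := (Finset.filter_subset _ _).trans hWg
  have h1 := nc_env hpar hC₅ hsub henv
  have hp0 : 0 ≤ (1 + ρ₆) ^ P := Real.rpow_nonneg (by linarith) _
  calc ∑ T ∈ Wg.filter (fun T => B.d T z ≤ ρ₆), ncg A B cp b P T
      ≤ ∑ T ∈ Wg.filter (fun T => B.d T z ≤ ρ₆), (1 + ρ₆) ^ P * (ncg A B cp b P T * B.w P T z) := by
        refine Finset.sum_le_sum fun T hT => ?_
        have hd := (Finset.mem_filter.1 hT).2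
        have hd0 := B.d_nonneg T z
        have hg := nc_g_nonneg A B cp b P T
        have h2 : (1 + B.d T z) ^ P ≤ (1 + ρ₆) ^ P := Real.rpow_le_rpow (by linarith) (by linarith) hP
        have h3 : 0 < (1 + B.d T z) ^ P := Real.rpow_pos_of_pos (by linarith) _
        have h4 : 1 ≤ (1 + ρ₆) ^ P * B.w P T z := by
          unfold PFam.w
          rw [Real.rpow_neg (by linarith), le_mul_inv_iff₀ h3, one_mul]
          exact h2
        calc ncg A B cp b P T = ncg A B cp b P T * 1 := (mul_one _).symm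
          _ ≤ ncg A B cp b P T * ((1 + ρ₆) ^ P * B.w P T z) := mul_le_mul_of_nonneg_left h4 hg
          _ = (1 + ρ₆) ^ P * (ncg A B cp b P T * B.w P T z) := by ring
    _ = (1 + ρ₆) ^ P * ∑ T ∈ Wg.filter (fun T => B.d T z ≤ ρ₆), ncg A B cp b P T * B.w P T z := by
        rw [Finset.mul_sum]
    _ ≤ (1 + ρ₆) ^ P * C₅ := mul_le_mul_of_nonneg_left h1 hp0

/-- **L-NCR-NN: the near count** (H l.1283-1288).   `lin_count hk K P (2 C₀ + 1)` for the filtered set, reference point `z₀ = z`, `β = 1` (`sq P s a z ≤ sq P s b z ≤ 1`), `lam = N^(k/2)/R`:  `N^(k/2) · 1 / lam = R`. -/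
theorem nc_nn (hk : 1 ≤ k) (K : PCls) (P : ℝ) (hρ : 0 ≤ K.ρ) (hC₀ : 0 ≤ K.C₀) (hP' : 0 ≤ K.P') (hP : P + (k : ℝ) + 1 < 2 * K.P') : ∃ C₁₁ : ℝ, 0 < C₁₁ ∧
    ∀ (ι : Type) (A : PFam k ι) (s : Finset ι) (a b : ι → ℝ) (Y : Finset (ST k)) (R : ℝ), NcCfg K P A s a b Y R → ∀ z ∈ Y,
      ((Y.filter fun y => ‖y - z‖ ≤ (2 * K.C₀ + 1) * A.N).card : ℝ) ≤ C₁₁ * R ^ qk k := by
  obtain ⟨C, hC, H⟩ := lin_count hk K P (2 * K.C₀ + 1) hρ hP' hP (by linarith)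
  refine ⟨C, hC, fun ι A s a b Y R h z hz => ?_⟩
  have hN : 0 < A.N := lt_of_lt_of_le one_pos h.cls.one_le
  have hNp : 0 < A.N ^ ((k : ℝ) / 2) := Real.rpow_pos_of_pos hN _
  have hR := h.R_pos
  have hsq : A.sq P s a z ≤ (1 : ℝ) ^ 2 := by
    rw [one_pow]
    exact nc_sq_a_le h hz
  have h1 := H ι A s a (Y.filter fun y => ‖y - z‖ ≤ (2 * K.C₀ + 1) * A.N) z (A.N ^ ((k : ℝ) / 2) / R) 1 h.cls
    (fun y hy y' hy' => h.sep y (Finset.mem_filter.1 hy).1 y' (Finset.mem_filter.1 hy').1)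
    (fun y hy => (Finset.mem_filter.1 hy).2) (by positivity) zero_le_one hsq
    (fun y hy => h.big y (Finset.mem_filter.1 hy).1)
  have e : A.N ^ ((k : ℝ) / 2) * 1 / (A.N ^ ((k : ℝ) / 2) / R) = R := by
    field_simp
  rw [e] at h1
  exact h1

/-- `nc_sub` for a subfamily of the parents of an assembly, ratio bound `r = y L^(k/2)`, threshold `N^(k/2)/(4R)`. -/
theorem nc_sub_par (hk : 1 ≤ k) {K : PCls} {P p N₁ Θ : ℝ} (hW : Wnc k K P p N₁ Θ) (hΘ : 0 ≤ Θ) {L C₁ C₃ C₅ Cb δ : ℝ} {A : PFam k ι} {s : Finset ι} {a b : ι → ℝ} {Y : Finset (ST k)} {R : ℝ} {B : PFam k κ} {W : Finset κ}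
    {α : κ → ℝ} {cp : κ → Finset ι} (hN : A.N ≤ N₁) (hc : NcCfg K P A s a b Y R) (hpar : NcPar K P L C₁ C₃ C₅ Cb δ A s a b Y B W α cp) (hL : 1 ≤ L) {y e : ℝ} (hy : 0 < y) (he : 0 < e)
    {W' : Finset κ} (hW' : W' ⊆ W) (hα : ∀ T ∈ W', α T ^ 2 ≤ (y * L ^ ((k : ℝ) / 2)) ^ 2 * ncg A B cp b P T) {Y' : Finset (ST k)} (hY' : Y' ⊆ Y)
    (henv : ∀ z ∈ Y', ∑ T ∈ W', ncg A B cp b P T * B.w P T z ≤ e)
    (hbig : ∀ z ∈ Y', A.N ^ ((k : ℝ) / 2) / (4 * R) ≤ ‖B.fld W' z‖) :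
    (Y'.card : ℝ) ≤ Θ * (4 * y * Real.sqrt e * R) ^ p * (y ^ (-qk k) * e⁻¹ * Cb * ncS k s a b) := by
  have hL0 : 0 < L := by linarith
  have hAN0 : 0 < A.N := lt_of_lt_of_le one_pos hc.cls.one_le
  have hR := hc.R_pos
  have hBN : B.N = A.N / L := hpar.scale
  have hBN1 : B.N ≤ N₁ := by
    rw [hBN]
    exact (div_le_self hAN0.le hL).trans hN
  have hse : 0 < Real.sqrt e := Real.sqrt_pos.2 he
  have h1 := nc_sub hW (hpar.cls.subset hW') hBN1 (fun T _ => nc_g_nonneg A B cp b P T) (r := y * L ^ ((k : ℝ) / 2)) (e := e) (lam := A.N ^ ((k : ℝ) / 2) / (4 * R))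
    (by positivity) he (by positivity) hα (fun z hz z' hz' => hc.sep z (hY' hz) z' (hY' hz')) henv hbig
  have e1 : B.N ^ ((k : ℝ) / 2) * (y * L ^ ((k : ℝ) / 2)) * Real.sqrt e / (A.N ^ ((k : ℝ) / 2) / (4 * R)) = 4 * y * Real.sqrt e * R := by
    rw [hBN, Real.div_rpow hAN0.le hL0.le]
    have h2 : 0 < A.N ^ ((k : ℝ) / 2) := by positivity
    have h3 : 0 < L ^ ((k : ℝ) / 2) := by positivity
    field_simp
  have e2 : (y * L ^ ((k : ℝ) / 2)) ^ (-qk k) * L ^ ((k : ℝ) + 2) = y ^ (-qk k) := by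
    rw [Real.mul_rpow hy.le (by positivity), ← Real.rpow_mul hL0.le, mul_assoc, ← Real.rpow_add hL0]
    have : (k : ℝ) / 2 * -qk k + ((k : ℝ) + 2) = 0 := by
      have := (nc_qk hk).2.1
      linarith
    rw [this, Real.rpow_zero, mul_one]
  have h4 : ∑ T ∈ W', α T ^ qk k * Real.sqrt (ncg A B cp b P T) ^ (2 - qk k) ≤ Cb * L ^ ((k : ℝ) + 2) * ncS k s a b :=
    (Finset.sum_le_sum_of_subset_of_nonneg hW' fun T hT _ =>
      mul_nonneg (Real.rpow_nonneg (hpar.cls.amp_nonneg hT) _) (Real.rpow_nonneg (Real.sqrt_nonneg _) _)).trans hpar.bud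
  rw [e1] at h1
  calc (Y'.card : ℝ) ≤ Θ * (4 * y * Real.sqrt e * R) ^ p * ((y * L ^ ((k : ℝ) / 2)) ^ (-qk k) * e⁻¹ * ∑ T ∈ W', α T ^ qk k * Real.sqrt (ncg A B cp b P T) ^ (2 - qk k)) := h1
    _ ≤ Θ * (4 * y * Real.sqrt e * R) ^ p * ((y * L ^ ((k : ℝ) / 2)) ^ (-qk k) * e⁻¹ * (Cb * L ^ ((k : ℝ) + 2) * ncS k s a b)) := by
        apply mul_le_mul_of_nonneg_left _ (by positivity)
        apply mul_le_mul_of_nonneg_left h4 (by positivity)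
    _ = Θ * (4 * y * Real.sqrt e * R) ^ p * (((y * L ^ ((k : ℝ) / 2)) ^ (-qk k) * L ^ ((k : ℝ) + 2)) * e⁻¹ * Cb * ncS k s a b) := by ring
    _ = _ := by rw [e2]

/-- **L-NCR-UNSAT: the unsaturated parents** (H (p:ratio-saturation), weighted form: no ratio classes).   `nc_sub` with `W' = Wu`, `r = x L^(k/2)`, `e = C₅` (`nc_env`), `lam = N^(k/2)/(4R)`:  `M^(k/2) r √C₅ / lam = 4 √C₅ x R` (`M L = N`),
`r^(-q) C₅⁻¹ ∑_{Wu} … ≤ x^(-q) L^(-(k+2)) C₅⁻¹ Cb L^(k+2) S` (`NcPar.bud`, subset, `nc_qk`);   `(4 √C₅ x R)^p x^(-q) = (4 √C₅)^p R^p x^(p-q)`. -/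
theorem nc_unsat (hk : 1 ≤ k) {K : PCls} {P p N₁ Θ : ℝ} (hW : Wnc k K P p N₁ Θ) (hΘ : 0 ≤ Θ) {L C₁ C₃ C₅ Cb δ : ℝ} {A : PFam k ι} {s : Finset ι} {a b : ι → ℝ} {Y : Finset (ST k)} {R : ℝ} {B : PFam k κ} {W : Finset κ}
    {α : κ → ℝ} {cp : κ → Finset ι} (hN : A.N ≤ N₁) (hc : NcCfg K P A s a b Y R) (hpar : NcPar K P L C₁ C₃ C₅ Cb δ A s a b Y B W α cp) (hL : 1 ≤ L) (hC₅ : 0 < C₅) {x : ℝ} (hx : 0 < x)
    {Wu : Finset κ} (hWu : Wu ⊆ W) (hun : ∀ T ∈ Wu, α T ^ 2 ≤ (x * L ^ ((k : ℝ) / 2)) ^ 2 * ncg A B cp b P T) {Yu : Finset (ST k)} (hYu : Yu ⊆ Y)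
    (hbig : ∀ z ∈ Yu, A.N ^ ((k : ℝ) / 2) / (4 * R) ≤ ‖B.fld Wu z‖) :
    (Yu.card : ℝ) ≤ Θ * R ^ p * ncS k s a b * ((4 * Real.sqrt C₅) ^ p * C₅⁻¹ * Cb * x ^ (p - qk k)) := by
  have hR := hc.R_pos
  have hse : 0 < Real.sqrt C₅ := Real.sqrt_pos.2 hC₅
  have h1 := nc_sub_par hk hW hΘ hN hc hpar hL hx hC₅ hWu hun hYu (fun z hz => nc_env hpar hC₅.le hWu (hc.env z (hYu hz))) hbig
  refine h1.trans (le_of_eq ?_)
  have e1 : (4 * x * Real.sqrt C₅ * R) ^ p = (4 * Real.sqrt C₅) ^ p * x ^ p * R ^ p := by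
    rw [← Real.mul_rpow (by positivity) hx.le, ← Real.mul_rpow (by positivity) hR.le]
    congr 1
    ring
  have e2 : x ^ (p - qk k) = x ^ p * x ^ (-qk k) := by
    rw [← Real.rpow_add hx]
    congr 1
  rw [e1, e2]
  ring

/-- **L-NCR-LOW: the points of low envelope** (H l.1162-1175).   `nc_sub` with `W' = Wg`, `r = C₃ L^(k/2)` (`NcPar.cauchy`), `e = μ`, `lam = N^(k/2)/(4R)`:  `M^(k/2) r √μ / lam = 4 C₃ √μ R`,  `(√μ)^p μ⁻¹ = μ^(p/2-1)`. -/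
theorem nc_low (hk : 1 ≤ k) {K : PCls} {P p N₁ Θ : ℝ} (hW : Wnc k K P p N₁ Θ) (hΘ : 0 ≤ Θ) {L C₁ C₃ C₅ Cb δ : ℝ} {A : PFam k ι} {s : Finset ι} {a b : ι → ℝ} {Y : Finset (ST k)} {R : ℝ} {B : PFam k κ} {W : Finset κ}
    {α : κ → ℝ} {cp : κ → Finset ι} (hN : A.N ≤ N₁) (hc : NcCfg K P A s a b Y R) (hpar : NcPar K P L C₁ C₃ C₅ Cb δ A s a b Y B W α cp) (hL : 1 ≤ L) (hC₃ : 0 < C₃) {μ : ℝ} (hμ : 0 < μ)
    {Wg : Finset κ} (hWg : Wg ⊆ W) {Yl : Finset (ST k)} (hYl : Yl ⊆ Y) (hlow : ∀ z ∈ Yl, ∑ T ∈ Wg, ncg A B cp b P T * B.w P T z ≤ μ)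
    (hbig : ∀ z ∈ Yl, A.N ^ ((k : ℝ) / 2) / (4 * R) ≤ ‖B.fld Wg z‖) :
    (Yl.card : ℝ) ≤ Θ * R ^ p * ncS k s a b * ((4 * C₃) ^ p * C₃ ^ (-qk k) * Cb * μ ^ (p / 2 - 1)) := by
  have hR := hc.R_pos
  have hse : 0 < Real.sqrt μ := Real.sqrt_pos.2 hμ
  have hα : ∀ T ∈ Wg, α T ^ 2 ≤ (C₃ * L ^ ((k : ℝ) / 2)) ^ 2 * ncg A B cp b P T := fun T hT => by
    have h2 := hpar.cauchy T (hWg hT)
    have hL0 : 0 < L := by linarith
    have e3 : (C₃ * L ^ ((k : ℝ) / 2)) ^ 2 = C₃ ^ 2 * L ^ (k : ℝ) := by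
      rw [mul_pow, ← Real.rpow_natCast (L ^ ((k : ℝ) / 2)) 2, ← Real.rpow_mul hL0.le]
      congr 2
      push_cast
      ring
    rw [e3]
    exact h2
  have h1 := nc_sub_par hk hW hΘ hN hc hpar hL hC₃ hμ hWg hα hYl hlow hbig
  refine h1.trans (le_of_eq ?_)
  have e1 : (4 * C₃ * Real.sqrt μ * R) ^ p = (4 * C₃) ^ p * Real.sqrt μ ^ p * R ^ p := by
    rw [← Real.mul_rpow (by positivity) hse.le, ← Real.mul_rpow (by positivity) hR.le]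
  have e2 : μ ^ (p / 2 - 1) = Real.sqrt μ ^ p * μ⁻¹ := by
    rw [Real.sqrt_eq_rpow, ← Real.rpow_mul hμ.le, ← Real.rpow_neg_one, ← Real.rpow_add hμ]
    congr 1
    ring
  rw [e1, e2]
  ring

theorem nc_fld_split (B : PFam k κ) (W : Finset κ) (p : κ → Prop) (z : ST k) : B.fld W z = B.fld (W.filter p) z + B.fld (W.filter fun T => ¬ p T) z := by
  unfold PFam.fld
  exact (Finset.sum_filter_add_sum_filter_not W p _).symm

/-- **L-NCR-CORE: one configuration with bounded fine occupancy, one assembly.**   `Λ` of `nc_geo K hC₀ C₁ hC₁`, `C₁₁` of `nc_nn`.   `g = ncg A B cp b P`, `M = B.N`, `h² = H² M^(-k)`.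
`Wu = W.filter (α² ≤ (x L^(k/2))² g)`,  `Wb = (W \ Wu).filter (h² < g)`,  `Wg = (W \ Wu).filter (g ≤ h²)`;   `B.fld W = B.fld Wu + B.fld Wb + B.fld Wg`.
`‖B.fld Wb z‖ ≤ C₃ L^(k/2) / (H M^(-k/2)) C₅ = C₃ C₅ N^(k/2)/H ≤ N^(k/2)/(4R)` on `Y` (`nc_big` with `r = C₃ L^(k/2)`, `h = H M^(-k/2)`, `nc_env`).   `Yu = Y.filter (N^(k/2)/(4R) ≤ ‖B.fld Wu z‖)`: `nc_unsat`.
On `Y \ Yu`: `‖B.fld Wg z‖ ≥ N^(k/2)/R (1 - 1/4 - 1/4 - 1/4)` (junk, `Wu`, `Wb`).   `Yl = (Y \ Yu).filter (∑_{Wg} g w ≤ μ)`: `nc_low`.   `Y₃ = (Y \ Yu) \ Yl`: `nc_geo` with `W := Wg`, `Y := Y₃`, `μ := μ/2` (`nc_mass`), `mx = (1+ρ₆)^P C₅` (`nc_mx`),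
`G = x^(-q) Cb S` (`nc_sat`), `Nn = C₁₁ R^q` (`nc_nn` for `hc.sub_pts`), occupancy on `Y₃ ⊆ Y`.   `#Y ≤ #Yu + #Yl + #Y₃`;  `4 G/(μ/2)² = 16 G/μ²`. -/
theorem nc_core (hk : 1 ≤ k) (K : PCls) (P : ℝ) (hρ : 0 ≤ K.ρ) (hC₀ : 0 ≤ K.C₀) (hP : (k : ℝ) + 2 < P) (hPP : P + 1 ≤ K.P') (C₁ : ℝ) (hC₁ : 0 ≤ C₁) : ∃ Λ C₁₁ : ℝ, 0 < Λ ∧ 0 < C₁₁ ∧
    ∀ (p N₁ Θ : ℝ), 0 ≤ Θ → Wnc k K P p N₁ Θ → ∀ (ι κ : Type) (A : PFam k ι) (s : Finset ι) (a b : ι → ℝ) (Y : Finset (ST k)) (R : ℝ) (B : PFam k κ) (W : Finset κ) (α : κ → ℝ) (cp : κ → Finset ι)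
      (C₃ C₅ L Cb x H μ ρ₆ ρ₇ Ω : ℝ), A.N ≤ N₁ → NcCfg K P A s a b Y R → NcPar K P L C₁ C₃ C₅ Cb (A.N ^ ((k : ℝ) / 2) / (4 * R)) A s a b Y B W α cp →
      0 < C₃ → 0 < C₅ → 0 ≤ Cb → 1 ≤ L → 0 < x → 0 < μ → 0 < ρ₇ → 2 ≤ ρ₆ → 0 ≤ Ω → 4 * C₃ * C₅ * R ≤ H →
      C₅ * (ρ₆ ^ (-(P - (k : ℝ) - 1)) + L ^ (-(P - (k : ℝ) - 2))) ≤ μ / 4 → 2 * C₅ / ρ₇ ≤ μ / 4 → (1 + 2 * C₁) * ρ₆ / L ≤ ρ₇ / 2 → 2 * (1 + 2 * C₁) * ρ₆ ≤ L →
      (∀ T' ∈ s, ((Y.filter fun y => A.d T' y ≤ ρ₇ + 3).card : ℝ) ≤ Ω) →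
      (Y.card : ℝ) ≤ Θ * R ^ p * ncS k s a b * ((4 * Real.sqrt C₅) ^ p * C₅⁻¹ * Cb * x ^ (p - qk k)) + Θ * R ^ p * ncS k s a b * ((4 * C₃) ^ p * C₃ ^ (-qk k) * Cb * μ ^ (p / 2 - 1))
        + 16 * (x ^ (-qk k) * Cb * ncS k s a b) / μ ^ 2 * ((1 + ρ₆) ^ P * C₅ * (C₁₁ * R ^ qk k) + Λ * ρ₆ ^ (2 * k + 2) * H ^ 2 * L ^ (-(k : ℝ)) * Ω) := by
  obtain ⟨Λ, hΛ, hgeo⟩ := nc_geo (k := k) K hC₀ C₁ hC₁
  have hk0 : (0 : ℝ) ≤ k := Nat.cast_nonneg k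
  obtain ⟨C₁₁, hC₁₁, hnn⟩ := nc_nn hk K P hρ hC₀ (by linarith) (by linarith)
  refine ⟨Λ, C₁₁, hΛ, hC₁₁, ?_⟩
  intro p N₁ Θ hΘ hW ι κ A s a b Y R B W α cp C₃ C₅ L Cb x H μ ρ₆ ρ₇ Ω hN hc hpar hC₃ hC₅ hCb hL hx hμ hρ₇ hρ₆ hΩ hH htail hatt hdisp hgeoL hocc
  have hP0 : 0 ≤ P := by linarith
  have hR := hc.R_pos
  have hAN : 1 ≤ A.N := hc.cls.one_le
  have hBN : 1 ≤ B.N := hpar.cls.one_le
  have hL0 : 0 < L := by linarith
  have hBN0 : 0 < B.N := by linarith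
  have hAN0 : 0 < A.N := by linarith
  have hNLM : A.N = L * B.N := by rw [hpar.scale]; field_simp
  have hH0 : 0 < H := lt_of_lt_of_le (by positivity) hH
  have ht0 : 0 < A.N ^ ((k : ℝ) / 2) / (4 * R) := by positivity
  have hsqL : (L ^ ((k : ℝ) / 2)) ^ 2 = L ^ (k : ℝ) := by
    rw [← Real.rpow_natCast, ← Real.rpow_mul hL0.le]; congr 1; push_cast; ring
  have hsqM : (B.N ^ (-((k : ℝ) / 2))) ^ 2 = B.N ^ (-(k : ℝ)) := by
    rw [← Real.rpow_natCast, ← Real.rpow_mul hBN0.le]; congr 1; push_cast; ring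
  -- the three classes of parents
  set pu : κ → Prop := fun T => α T ^ 2 ≤ (x * L ^ ((k : ℝ) / 2)) ^ 2 * ncg A B cp b P T with hpu
  set pb : κ → Prop := fun T => H ^ 2 * B.N ^ (-(k : ℝ)) < ncg A B cp b P T with hpb
  set Wu := W.filter pu with hWu
  set Ws := W.filter (fun T => ¬ pu T) with hWs
  set Wb := Ws.filter pb with hWb
  set Wg := Ws.filter (fun T => ¬ pb T) with hWg
  have hWuW : Wu ⊆ W := Finset.filter_subset _ _
  have hWsW : Ws ⊆ W := Finset.filter_subset _ _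
  have hWbW : Wb ⊆ W := (Finset.filter_subset _ _).trans hWsW
  have hWgW : Wg ⊆ W := (Finset.filter_subset _ _).trans hWsW
  have hsplit : ∀ z, B.fld W z = B.fld Wu z + (B.fld Wb z + B.fld Wg z) := by
    intro z
    rw [nc_fld_split B W pu z, nc_fld_split B Ws pb z]
  have hcau : ∀ T ∈ W, α T ^ 2 ≤ (C₃ * L ^ ((k : ℝ) / 2)) ^ 2 * ncg A B cp b P T := by
    intro T hT
    rw [mul_pow, hsqL]
    exact hpar.cauchy T hT
  -- the parents with a large weight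
  have hbigW : ∀ z ∈ Y, ‖B.fld Wb z‖ ≤ A.N ^ ((k : ℝ) / 2) / (4 * R) := by
    intro z hz
    have h1 := nc_big (P := P) (by linarith : P ≤ K.P') (hpar.cls.subset hWbW) (r := C₃ * L ^ ((k : ℝ) / 2)) (h := H * B.N ^ (-((k : ℝ) / 2))) (g := ncg A B cp b P)
      (by positivity) (by positivity) (fun T hT => hcau T (hWbW hT)) (fun T hT => by
        rw [mul_pow, hsqM]
        exact (Finset.mem_filter.1 hT).2.le) z
    have h2 := nc_env hpar hC₅.le hWbW (hc.env z hz)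
    have h3 : C₃ * L ^ ((k : ℝ) / 2) / (H * B.N ^ (-((k : ℝ) / 2))) = C₃ * A.N ^ ((k : ℝ) / 2) / H := by
      rw [hNLM, Real.mul_rpow hL0.le hBN0.le, Real.rpow_neg hBN0.le]
      have : B.N ^ ((k : ℝ) / 2) ≠ 0 := (Real.rpow_pos_of_pos hBN0 _).ne'
      field_simp
    calc ‖B.fld Wb z‖ ≤ C₃ * L ^ ((k : ℝ) / 2) / (H * B.N ^ (-((k : ℝ) / 2))) * ∑ T ∈ Wb, ncg A B cp b P T * B.w P T z := h1
      _ ≤ C₃ * A.N ^ ((k : ℝ) / 2) / H * C₅ := by rw [h3]; gcongr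
      _ ≤ A.N ^ ((k : ℝ) / 2) / (4 * R) := by
          rw [div_mul_eq_mul_div, div_le_div_iff₀ hH0 (by positivity)]
          have hpos : 0 < A.N ^ ((k : ℝ) / 2) := by positivity
          nlinarith [mul_le_mul_of_nonneg_left hH hpos.le]
  -- the three classes of points
  set qu : ST k → Prop := fun z => A.N ^ ((k : ℝ) / 2) / (4 * R) ≤ ‖B.fld Wu z‖ with hqu
  set ql : ST k → Prop := fun z => ∑ T ∈ Wg, ncg A B cp b P T * B.w P T z ≤ μ with hql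
  set Yu := Y.filter qu with hYu
  set Ys := Y.filter (fun z => ¬ qu z) with hYs
  set Yl := Ys.filter ql with hYl
  set Y₃ := Ys.filter (fun z => ¬ ql z) with hY₃
  have hYuY : Yu ⊆ Y := Finset.filter_subset _ _
  have hYsY : Ys ⊆ Y := Finset.filter_subset _ _
  have hYlY : Yl ⊆ Y := (Finset.filter_subset _ _).trans hYsY
  have hY₃Y : Y₃ ⊆ Y := (Finset.filter_subset _ _).trans hYsY
  have hcard : (Y.card : ℝ) = Yu.card + (Yl.card + Y₃.card) := by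
    have e1 : Yu.card + Ys.card = Y.card := Finset.card_filter_add_card_filter_not (s := Y) qu
    have e2 : Yl.card + Y₃.card = Ys.card := Finset.card_filter_add_card_filter_not (s := Ys) ql
    rw [← e1, ← e2]; push_cast; ring
  have hgood : ∀ z ∈ Ys, A.N ^ ((k : ℝ) / 2) / (4 * R) ≤ ‖B.fld Wg z‖ := by
    intro z hz
    have hzY := hYsY hz
    have h1 := hc.big z hzY
    have h2 := hpar.junk z hzY
    have h3 : ‖B.fld Wu z‖ < A.N ^ ((k : ℝ) / 2) / (4 * R) := not_le.1 (Finset.mem_filter.1 hz).2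
    have h4 := hbigW z hzY
    have h5 : A.fld s z = (A.fld s z - B.fld W z) + (B.fld Wu z + (B.fld Wb z + B.fld Wg z)) := by rw [← hsplit z]; ring
    have h6 : ‖A.fld s z‖ ≤ ‖A.fld s z - B.fld W z‖ + (‖B.fld Wu z‖ + (‖B.fld Wb z‖ + ‖B.fld Wg z‖)) := by
      calc ‖A.fld s z‖ = ‖(A.fld s z - B.fld W z) + (B.fld Wu z + (B.fld Wb z + B.fld Wg z))‖ := by rw [← h5]
        _ ≤ _ := (norm_add_le _ _).trans (add_le_add le_rfl ((norm_add_le _ _).trans (add_le_add le_rfl (norm_add_le _ _))))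
    have h7 : A.N ^ ((k : ℝ) / 2) / R = 4 * (A.N ^ ((k : ℝ) / 2) / (4 * R)) := by field_simp
    rw [h7] at h1
    linarith
  -- the three counts
  have cU := nc_unsat hk hW hΘ hN hc hpar hL hC₅ hx hWuW (fun T hT => (Finset.mem_filter.1 hT).2) hYuY (fun z hz => (Finset.mem_filter.1 hz).2)
  have cL := nc_low hk hW hΘ hN hc hpar hL hC₃ hμ hWgW hYlY (fun z hz => (Finset.mem_filter.1 hz).2) (fun z hz => hgood z (Finset.mem_filter.1 hz).1)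
  have hc₃ := hc.sub_pts hY₃Y
  have cG := hgeo ι κ A B s Wg α (ncg A B cp b P) cp Y₃ L H (μ / 2) ((1 + ρ₆) ^ P * C₅) (x ^ (-qk k) * Cb * ncS k s a b) Ω (C₁₁ * R ^ qk k) ρ₆ ρ₇
    (hpar.cls.subset hWgW) hpar.scale hL hgeoL (by linarith) hΩ (by positivity) (by positivity) (by positivity)
    (fun T hT => ⟨nc_g_nonneg A B cp b P T, not_lt.1 (Finset.mem_filter.1 hT).2⟩)
    (fun T hT => hpar.cap T (hWgW hT))
    (fun T' hT' => le_trans (by exact_mod_cast Finset.card_le_card (Finset.filter_subset_filter _ hY₃Y)) (hocc T' hT'))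
    (fun z hz => hnn ι A s a b Y₃ R hc₃ z hz)
    (fun z hz => nc_mass hpar hP0 hL hC₁ hC₅.le hWgW (hc.env z (hY₃Y hz)) (not_le.1 (Finset.mem_filter.1 hz).2) hρ₆ hρ₇ htail hatt hdisp)
    (fun z hz => nc_mx hpar hP0 hC₅.le hWgW (hc.env z (hY₃Y hz)) (by linarith))
    (nc_sat hk hpar hL hx hWgW (fun T hT => not_le.1 (Finset.mem_filter.1 (Finset.mem_filter.1 hT).1).2))
  have e : 4 * (x ^ (-qk k) * Cb * ncS k s a b) / (μ / 2) ^ 2 = 16 * (x ^ (-qk k) * Cb * ncS k s a b) / μ ^ 2 := by field_simp; ring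
  rw [e] at cG
  rw [hcard]
  linarith

/-- Stores the on-demand equation lemmas of the definitions above in THIS module (rule 6 hygiene). -/
theorem nc_red_forced : True := by
  have := @ncg.eq_1
  trivial

end

end Claimed.Agent.R257
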